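import Vale.Agent.P073.SM.Spec

/-!
# P073, block SMA, part MO: mollification with variable radius
-/

set_option maxSynthPendingDepth 3

namespace P073.SM

open Set Metric Topology Filter MeasureTheory
open scoped ENNReal ContDiff InnerProductSpace
open Vale.Agent.P073 (LipOn PII Profile Frame Bf FormField sm Adapted kap R3 BF J0)
open Vale.Agent.P073.Profile (Z)

namespace MO

/-- the constant field of inner products -/
noncomputable def G0 : R3 → BF := fun _ => innerSL ℝ

theorem G0_apply (x u v : R3) : G0 x u v = ⟪u, v⟫_ℝ := rfl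

/-- the mollification operator -/
noncomputable def mol (P : ℝ → ℝ) (ρ : R3 → ℝ) (f : R3 → R3) : R3 → R3 := sm P (Bf G0 ρ) f

variable {Ω : Set R3} {ρ : R3 → ℝ} {a : ℝ} {P : ℝ → ℝ} {f : R3 → R3}

theorem frame (hρ : ContDiffOn ℝ ∞ ρ Ω) (h : ∀ x ∈ Ω, 0 < ρ x ∧ ρ x < 1) :
    Frame Ω G0 ρ (fun _ => 1) (fun _ => 1) where
  smooth := contDiffOn_const
  symm x hx u v := by rw [G0_apply, G0_apply, real_inner_comm]
  low x hx u := by
    rw [G0_apply, real_inner_self_eq_norm_sq]; simp
  up x hx u := by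
    rw [G0_apply, real_inner_self_eq_norm_sq]; simp
  smooth_eps := hρ
  eps_pos x hx := (h x hx).1
  eps_le x hx := (h x hx).2.le
  tau_pos x hx := one_pos

theorem kap_eq (x : R3) : kap G0 ρ (fun _ => 1) x = 2 * ‖fderiv ℝ ρ x‖ := by
  have h : fderiv ℝ G0 x = 0 := by
    unfold G0
    exact fderiv_const_apply _
  unfold kap
  simp only [h]
  simp only [div_one, one_pow, add_eq_left, mul_eq_zero]
  exact Or.inr norm_zero

/-- the adapted coordinates: multiplication by `ρ x` -/
theorem adapted {x : R3} (hx : 0 < ρ x) :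
    Adapted (Bf G0 ρ) x (ContinuousLinearEquiv.smulLeft (Units.mk0 (ρ x) hx.ne')) where
  inner z w := by
    rw [Vale.Agent.P073.Bf_apply, G0_apply]
    simp only [ContinuousLinearEquiv.smulLeft_apply_apply]
    rw [Units.smul_def, Units.smul_def, Units.val_mk0, inner_smul_left, inner_smul_right]
    simp only [conj_trivial]
    field_simp

/-- formula for the mollification -/
theorem mol_eq {x : R3} (hx : 0 < ρ x) (f : R3 → R3) :
    mol P ρ f x = (Z P)⁻¹ • ∫ z : R3, P (‖z‖ ^ 2) • f (x - ρ x • z) := by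
  unfold mol
  rw [Vale.Agent.P073.sm_eq (adapted hx)]
  rfl

/-- integrability of the integrand -/
theorem integrable_mol (hP : Profile a P) (hf : LocallyIntegrable f) (x : R3) {c : ℝ}
    (hc : c ≠ 0) : Integrable fun z : R3 => P (‖z‖ ^ 2) • f (x - c • z) := by
  have h1 : LocallyIntegrable fun u => f (x - u) := by
    have e : MeasurePreserving (fun u : R3 => x - u) volume volume :=
      Measure.measurePreserving_sub_left volume x
    intro y
    obtain ⟨s, hs, hfs⟩ := hf (x - y)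
    refine ⟨(fun u : R3 => x - u) ⁻¹' s,
      (by fun_prop : Continuous fun u : R3 => x - u).continuousAt hs, ?_⟩
    exact (e.integrableOn_comp_preimage (MeasurableEquiv.subLeft x).measurableEmbedding).2 hfs
  have h2 : Integrable fun u : R3 => P (‖c⁻¹ • u‖ ^ 2) • f (x - u) := by
    apply h1.integrable_smul_left_of_hasCompactSupport
    · exact hP.continuous.comp (by fun_prop)
    · apply HasCompactSupport.of_support_subset_isCompact (isCompact_closedBall (0 : R3) |c|)
      intro u hu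
      by_contra hcon
      rw [mem_closedBall_zero_iff, not_le] at hcon
      apply hu
      apply hP.zero_of_ge
      have h3 : 1 < ‖c⁻¹ • u‖ := by
        rw [norm_smul, norm_inv, Real.norm_eq_abs, ← div_eq_inv_mul,
          one_lt_div (abs_pos.2 hc)]
        exact hcon
      nlinarith
  have h3 := h2.comp_smul hc
  refine h3.congr (Eventually.of_forall fun z => ?_)
  simp only
  rw [smul_smul, inv_mul_cancel₀ hc, one_smul]

/-- the average -/
noncomputable def av (P : ℝ → ℝ) (φ : R3 → R3) : R3 := (Z P)⁻¹ • ∫ z, P (‖z‖ ^ 2) • φ z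

theorem mol_eq_av {x : R3} (hx : 0 < ρ x) (f : R3 → R3) :
    mol P ρ f x = av P (fun z => f (x - ρ x • z)) := mol_eq hx f

theorem av_congr {a : ℝ} (hP : Profile a P) {φ ψ : R3 → R3} (h : ∀ z, ‖z‖ < 1 → φ z = ψ z) :
    av P φ = av P ψ := by
  unfold av
  congr 1
  refine integral_congr_ae (Eventually.of_forall fun z => ?_)
  simp only
  rcases lt_or_ge ‖z‖ 1 with hz | hz
  · rw [h z hz]
  · rw [hP.zero_of_ge _ (by nlinarith), zero_smul, zero_smul]

theorem av_const (hP : Profile a P) (ha : 0 < a) (c : R3) : av P (fun _ => c) = c := by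
  have hZ := hP.Z_pos ha
  unfold av
  rw [integral_smul_const]
  change (Z P)⁻¹ • (Z P) • c = c
  rw [smul_smul, inv_mul_cancel₀ hZ.ne', one_smul]

/-- the averages of two functions which are close on the unit ball -/
theorem avg_close (hP : Profile a P) (ha : 0 < a) {φ ψ : R3 → R3}
    (hφ : Integrable fun z => P (‖z‖ ^ 2) • φ z) (hψ : Integrable fun z => P (‖z‖ ^ 2) • ψ z)
    {c : R3} {D : ℝ} (hD : ∀ z, ‖z‖ < 1 → ‖φ z - ψ z - c‖ ≤ D) :
    ‖av P φ - av P ψ - c‖ ≤ D := by
  have hZ := hP.Z_pos ha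
  have hc : Integrable fun z : R3 => P (‖z‖ ^ 2) • c := hP.integrable_normSq.smul_const c
  have e2 : av P φ - av P ψ - c = (Z P)⁻¹ •
      ∫ z, (P (‖z‖ ^ 2) • φ z - P (‖z‖ ^ 2) • ψ z - P (‖z‖ ^ 2) • c) := by
    have i1 : Integrable fun z => P (‖z‖ ^ 2) • φ z - P (‖z‖ ^ 2) • ψ z := hφ.sub hψ
    rw [integral_sub i1 hc, integral_sub hφ hψ, smul_sub, smul_sub]
    conv_lhs => rw [← av_const hP ha c]
    rfl
  rw [e2, norm_smul, norm_inv, Real.norm_of_nonneg hZ.le, inv_mul_le_iff₀ hZ]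
  calc ‖∫ z : R3, (P (‖z‖ ^ 2) • φ z - P (‖z‖ ^ 2) • ψ z - P (‖z‖ ^ 2) • c)‖
      ≤ ∫ z : R3, P (‖z‖ ^ 2) * D := by
        apply norm_integral_le_of_norm_le (hP.integrable_normSq.mul_const D)
        refine Eventually.of_forall fun z => ?_
        rw [← smul_sub, ← smul_sub, norm_smul, Real.norm_of_nonneg (hP.nonneg _)]
        rcases lt_or_ge ‖z‖ 1 with hz | hz
        · exact mul_le_mul_of_nonneg_left (hD z hz) (hP.nonneg _)
        · rw [hP.zero_of_ge _ (by nlinarith)]; simp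
    _ = Z P * D := by rw [integral_mul_const]; rfl

theorem mem_ball_sub {x y z : R3} {s r : ℝ} (hs : 0 ≤ s) (h : ‖y - x‖ + s < r) (hz : ‖z‖ < 1) :
    y - s • z ∈ ball x r := by
  rw [mem_ball, dist_eq_norm]
  have e : y - s • z - x = (y - x) - s • z := by abel
  have h1 : ‖s • z‖ ≤ s := by
    rw [norm_smul, Real.norm_of_nonneg hs]
    exact mul_le_of_le_one_right hs hz.le
  rw [e]
  linarith [norm_sub_le (y - x) (s • z)]

theorem norm_smul_le' {z : R3} {c : ℝ} (hz : ‖z‖ < 1) : ‖c • z‖ ≤ |c| := by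
  rw [norm_smul, Real.norm_eq_abs]
  exact mul_le_of_le_one_right (abs_nonneg c) hz.le

/-- difference quotient bound for the mollification -/
theorem mol_diff (hP : Profile a P) (ha : 0 < a) (hf : LocallyIntegrable f) {x y : R3}
    (hx : 0 < ρ x) (hy : 0 < ρ y) {r L : ℝ} (hL0 : 0 ≤ L) (hL : LipOn f (ball x r) L)
    (hrx : ρ x < r) (hry : ‖y - x‖ + ρ y < r) :
    ‖mol P ρ f y - mol P ρ f x‖ ≤ L * (‖y - x‖ + |ρ y - ρ x|) := by
  rw [mol_eq_av hy, mol_eq_av hx]
  have h := avg_close hP ha (integrable_mol hP hf y hy.ne') (integrable_mol hP hf x hx.ne')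
    (c := 0) (D := L * (‖y - x‖ + |ρ y - ρ x|)) (fun z hz => by
      rw [sub_zero]
      have h1 : y - ρ y • z ∈ ball x r := mem_ball_sub hy.le hry hz
      have h2 : x - ρ x • z ∈ ball x r := mem_ball_sub hx.le (by simpa using hrx) hz
      refine (hL _ h1 _ h2).trans ?_
      refine mul_le_mul_of_nonneg_left ?_ hL0
      have e : y - ρ y • z - (x - ρ x • z) = (y - x) - (ρ y - ρ x) • z := by
        rw [sub_smul]; abel
      rw [e]
      exact (norm_sub_le _ _).trans (add_le_add le_rfl (norm_smul_le' hz)))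
  rwa [sub_zero] at h

/-- difference quotient in a direction in which `f` is affine -/
theorem mol_diff_dir (hP : Profile a P) (ha : 0 < a) (hf : LocallyIntegrable f) {x w C : R3}
    {t : ℝ} (hx : 0 < ρ x) (hy : 0 < ρ (x + t • w)) {r L : ℝ} (hL0 : 0 ≤ L)
    (hL : LipOn f (ball x r) L)
    (hC : ∀ y ∈ ball x r, ∀ t : ℝ, y + t • w ∈ ball x r → f (y + t • w) = f y + t • C)
    (hrx : ρ x < r) (hry : ‖t • w‖ + ρ (x + t • w) < r) :
    ‖mol P ρ f (x + t • w) - mol P ρ f x - t • C‖ ≤ L * |ρ (x + t • w) - ρ x| := by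
  rw [mol_eq_av hy, mol_eq_av hx]
  refine avg_close hP ha (integrable_mol hP hf _ hy.ne') (integrable_mol hP hf x hx.ne')
    (fun z hz => ?_)
  have h1 : x + t • w - ρ (x + t • w) • z ∈ ball x r :=
    mem_ball_sub hy.le (by rwa [add_sub_cancel_left]) hz
  have h3 : x - ρ (x + t • w) • z ∈ ball x r :=
    mem_ball_sub hy.le (by rw [sub_self, norm_zero, zero_add]; linarith [norm_nonneg (t • w)]) hz
  have h2 : x - ρ x • z ∈ ball x r := mem_ball_sub hx.le (by simpa using hrx) hz
  have e0 : x + t • w - ρ (x + t • w) • z = x - ρ (x + t • w) • z + t • w := by abel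
  have e : f (x + t • w - ρ (x + t • w) • z) = f (x - ρ (x + t • w) • z) + t • C := by
    rw [e0] at h1 ⊢
    exact hC _ h3 t h1
  have e1 : f (x + t • w - ρ (x + t • w) • z) - f (x - ρ x • z) - t • C =
      f (x - ρ (x + t • w) • z) - f (x - ρ x • z) := by rw [e]; abel
  rw [e1]
  refine (hL _ h3 _ h2).trans (mul_le_mul_of_nonneg_left ?_ hL0)
  have e2 : x - ρ (x + t • w) • z - (x - ρ x • z) = -((ρ (x + t • w) - ρ x) • z) := by
    rw [sub_smul]; abel
  rw [e2, norm_neg]
  exact norm_smul_le' hz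

/-- from difference quotients to the derivative -/
theorem fderiv_bound {g : R3 → R3} {x w C : R3} {b : ℝ} (hg : DifferentiableAt ℝ g x)
    (h : ∀ η > 0, ∀ᶠ t in 𝓝[>] (0:ℝ), ‖g (x + t • w) - g x - t • C‖ ≤ t * (b + η)) :
    ‖fderiv ℝ g x w - C‖ ≤ b := by
  have h1 : HasDerivAt (fun t : ℝ => g (x + t • w)) (fderiv ℝ g x w) 0 := by
    have h2 : HasDerivAt (fun t : ℝ => x + t • w) w 0 := by
      have := ((hasDerivAt_id (0:ℝ)).smul_const w).const_add x
      simpa using this
    have h3 : HasFDerivAt g (fderiv ℝ g x) (x + (0:ℝ) • w) := by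
      rw [zero_smul, add_zero]; exact hg.hasFDerivAt
    exact h3.comp_hasDerivAt 0 h2
  have h4 : Tendsto (fun t : ℝ => t⁻¹ • (g (x + t • w) - g x)) (𝓝[>] 0) (𝓝 (fderiv ℝ g x w)) := by
    have := (h1.tendsto_slope_zero).mono_left
      (nhdsWithin_mono (0:ℝ) (fun t (ht : t ∈ Ioi 0) => (ne_of_gt ht : t ≠ 0)))
    simpa using this
  refine le_of_forall_pos_le_add fun η hη => ?_
  refine le_of_tendsto (h4.sub_const C).norm ?_
  filter_upwards [h η hη, self_mem_nhdsWithin] with t ht (ht0 : 0 < t)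
  have e : t⁻¹ • (g (x + t • w) - g x) - C = t⁻¹ • (g (x + t • w) - g x - t • C) := by
    rw [smul_sub t⁻¹ _ (t • C), smul_smul, inv_mul_cancel₀ ht0.ne', one_smul]
  rw [e, norm_smul, norm_inv, Real.norm_of_nonneg ht0.le, inv_mul_le_iff₀ ht0]
  exact ht

/-- the mollification of an affine map -/
theorem av_affine (hP : Profile a P) (ha : 0 < a) (c : R3) (A : R3 →L[ℝ] R3) :
    av P (fun z => c + A z) = c := by
  have hz : ∀ z : R3, 1 < ‖z‖ → P (‖z‖ ^ 2) = 0 := fun z hz => hP.zero_of_ge _ (by nlinarith)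
  have i1 : Integrable fun z : R3 => P (‖z‖ ^ 2) • c := hP.integrable_normSq.smul_const c
  have i2 : Integrable fun z : R3 => P (‖z‖ ^ 2) • A z :=
    Vale.Agent.P073.integrable_weight_smul A.continuous.continuousOn hP.continuous_normSq hz
  have h1 : ∫ z : R3, P (‖z‖ ^ 2) • A z = 0 := by
    have h2 : ∫ z : R3, P (‖z‖ ^ 2) • A z = ∫ z : R3, P (‖-z‖ ^ 2) • A (-z) :=
      (integral_neg_eq_self (fun z : R3 => P (‖z‖ ^ 2) • A z) volume).symm
    have h3 : ∫ z : R3, P (‖-z‖ ^ 2) • A (-z) = - ∫ z : R3, P (‖z‖ ^ 2) • A z := by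
      rw [← integral_neg]
      refine integral_congr_ae (Eventually.of_forall fun z => ?_)
      simp only [norm_neg, map_neg, smul_neg]
    rw [h3] at h2
    have h5 : (2:ℝ) • ∫ z : R3, P (‖z‖ ^ 2) • A z = 0 := by
      rw [two_smul]; nth_rw 1 [h2]; exact neg_add_cancel _
    exact (smul_eq_zero.1 h5).resolve_left two_ne_zero
  have h4 : av P (fun z => c + A z) = av P (fun _ => c) + (Z P)⁻¹ • ∫ z : R3, P (‖z‖ ^ 2) • A z := by
    unfold av
    rw [← smul_add, ← integral_add i1 i2]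
    simp only [smul_add]
  rw [h4, h1, smul_zero, add_zero, av_const hP ha]

end MO

open MO

theorem specMO : SpecMO := by
  obtain ⟨P, hP⟩ := Vale.Agent.P073.exists_profile (a := 1 / 2) (by norm_num) (by norm_num)
  have ha : (0:ℝ) < 1 / 2 := by norm_num
  have hZ := hP.Z_pos ha
  have hJ : 0 ≤ (Z P)⁻¹ * J0 P := mul_nonneg (inv_nonneg.2 hZ.le) Vale.Agent.P073.J0_nonneg
  refine ⟨1 + 8 * ((Z P)⁻¹ * J0 P), mol P, by linarith, ?_⟩
  set K := 1 + 8 * ((Z P)⁻¹ * J0 P) with hK
  intro Ω ρ f hΩ hρ hρ1 hf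
  have hF := frame hρ hρ1
  have hsm : ContDiffOn ℝ ∞ (mol P ρ f) Ω :=
    Vale.Agent.P073.sm_contDiffOn hΩ hP ha hF.formField hf
  have hdiff : ∀ x ∈ Ω, DifferentiableAt ℝ (mol P ρ f) x := fun x hx =>
    (hsm.contDiffAt (hΩ.mem_nhds hx)).differentiableAt (by simp)
  have hρd : ∀ x ∈ Ω, HasFDerivAt ρ (fderiv ℝ ρ x) x := fun x hx =>
    ((hρ.contDiffAt (hΩ.mem_nhds hx)).differentiableAt (by simp)).hasFDerivAt
  -- the radius along a ray
  have hray : ∀ x ∈ Ω, ∀ w : E3, ∀ r : ℝ, ρ x < r → ∀ η > 0, ∀ᶠ t in 𝓝[>] (0:ℝ),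
      0 < ρ (x + t • w) ∧ ‖t • w‖ + ρ (x + t • w) < r ∧
      |ρ (x + t • w) - ρ x| ≤ t * (‖fderiv ℝ ρ x‖ * ‖w‖ + η) := by
    intro x hx w r hr η hη
    have hc : ContinuousAt (fun t : ℝ => x + t • w) 0 := by fun_prop
    have hc0 : Tendsto (fun t : ℝ => x + t • w) (𝓝 0) (𝓝 x) := by
      have := hc.tendsto
      simpa using this
    have hρc : ContinuousAt ρ x := (hρd x hx).continuousAt
    have e1 : ∀ᶠ t in 𝓝 (0:ℝ), 0 < ρ (x + t • w) :=
      (hρc.tendsto.comp hc0).eventually (lt_mem_nhds (hρ1 x hx).1)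
    have e2 : Tendsto (fun t : ℝ => ‖t • w‖ + ρ (x + t • w)) (𝓝 0) (𝓝 (ρ x)) := by
      have h1 : Tendsto (fun t : ℝ => ‖t • w‖) (𝓝 0) (𝓝 0) := by
        have : ContinuousAt (fun t : ℝ => ‖t • w‖) 0 := by fun_prop
        simpa using this.tendsto
      simpa using h1.add (hρc.tendsto.comp hc0)
    have e3 : ∀ᶠ t in 𝓝 (0:ℝ), ‖t • w‖ + ρ (x + t • w) < r := e2.eventually (gt_mem_nhds hr)
    have h4 : HasDerivAt (fun t : ℝ => ρ (x + t • w)) (fderiv ℝ ρ x w) 0 := by
      have h2 : HasDerivAt (fun t : ℝ => x + t • w) w 0 := by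
        have := ((hasDerivAt_id (0:ℝ)).smul_const w).const_add x
        simpa using this
      have h3 : HasFDerivAt ρ (fderiv ℝ ρ x) (x + (0:ℝ) • w) := by
        rw [zero_smul, add_zero]; exact hρd x hx
      exact h3.comp_hasDerivAt 0 h2
    have h5 := h4.isLittleO
    have h6 := h5.def hη
    filter_upwards [nhdsWithin_le_nhds e1, nhdsWithin_le_nhds e3, nhdsWithin_le_nhds h6,
      self_mem_nhdsWithin] with t h7 h8 h9 (ht : 0 < t)
    refine ⟨h7, h8, ?_⟩
    simp only [zero_smul, add_zero, sub_zero, Real.norm_eq_abs, smul_eq_mul] at h9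
    rw [abs_of_pos ht] at h9
    have h10 : |t * fderiv ℝ ρ x w| ≤ t * (‖fderiv ℝ ρ x‖ * ‖w‖) := by
      rw [abs_mul, abs_of_pos ht]
      exact mul_le_mul_of_nonneg_left ((fderiv ℝ ρ x).le_opNorm w) ht.le
    calc |ρ (x + t • w) - ρ x| = |(ρ (x + t • w) - ρ x - t * fderiv ℝ ρ x w) +
          t * fderiv ℝ ρ x w| := by congr 1; ring
      _ ≤ _ := abs_add_le _ _
      _ ≤ η * t + t * (‖fderiv ℝ ρ x‖ * ‖w‖) := add_le_add h9 h10
      _ = _ := by ring
  refine ⟨hsm, ?_, ?_, ?_, ?_, ?_⟩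
  · -- injectivity
    rintro x hx ⟨r, L, c, hr, hL0, hL, hc, hPII, hKc⟩ v hv
    have h1 := hF.low_two hΩ hP ha hf hx (by simpa using hr) hL0 hL hc hPII (by
      rw [kap_eq]
      refine le_trans ?_ hKc
      have h2 : 0 ≤ ‖fderiv ℝ ρ x‖ * L := by positivity
      calc 4 * ((Z P)⁻¹ * J0 P) * (1 / 1) * (2 * ‖fderiv ℝ ρ x‖) * L
          = (8 * ((Z P)⁻¹ * J0 P)) * (‖fderiv ℝ ρ x‖ * L) := by ring
        _ ≤ K * (‖fderiv ℝ ρ x‖ * L) := by
            refine mul_le_mul_of_nonneg_right ?_ h2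
            rw [hK]; linarith
        _ = _ := by ring) v
    change fderiv ℝ (sm P (Bf G0 ρ) f) x v = 0 at hv
    rw [hv, norm_zero, mul_zero] at h1
    exact norm_le_zero_iff.1 h1
  · -- closeness
    intro x hx r L hr hL0 hL
    have hx0 := (hρ1 x hx).1
    constructor
    · have h1 := hF.close hP ha hx (by simpa using hr) hL0 hL
      rw [div_one] at h1
      exact h1
    · have hb : ∀ w, ‖fderiv ℝ (mol P ρ f) x w‖ ≤ (1 + ‖fderiv ℝ ρ x‖) * L * ‖w‖ := by
        intro w
        have h2 := fderiv_bound (C := 0) (w := w) (b := (1 + ‖fderiv ℝ ρ x‖) * L * ‖w‖)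
          (hdiff x hx) (fun η hη => by
            have hη' : 0 < η / (L + 1) := by positivity
            filter_upwards [hray x hx w r hr _ hη', self_mem_nhdsWithin] with t ht (ht0 : 0 < t)
            obtain ⟨h7, h8, h9⟩ := ht
            rw [smul_zero, sub_zero]
            have h3 := mol_diff hP ha hf hx0 h7 hL0 hL hr (by rwa [add_sub_cancel_left])
            rw [add_sub_cancel_left, norm_smul, Real.norm_of_nonneg ht0.le] at h3
            refine h3.trans ?_
            have h10 : L * (η / (L + 1)) ≤ η := by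
              rw [mul_div_assoc', div_le_iff₀ (by positivity)]
              nlinarith
            calc L * (t * ‖w‖ + |ρ (x + t • w) - ρ x|)
                ≤ L * (t * ‖w‖ + t * (‖fderiv ℝ ρ x‖ * ‖w‖ + η / (L + 1))) := by gcongr
              _ = t * ((1 + ‖fderiv ℝ ρ x‖) * L * ‖w‖ + L * (η / (L + 1))) := by ring
              _ ≤ _ := by gcongr)
        rwa [sub_zero] at h2
      refine ContinuousLinearMap.opNorm_le_bound _ (by positivity) fun w => (hb w).trans ?_
      refine mul_le_mul_of_nonneg_right ?_ (norm_nonneg w)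
      have : 0 ≤ (1 + ‖fderiv ℝ ρ x‖) * L := by positivity
      have hK1 : 1 ≤ K := by rw [hK]; linarith
      calc (1 + ‖fderiv ℝ ρ x‖) * L = 1 * ((1 + ‖fderiv ℝ ρ x‖) * L) := by ring
        _ ≤ K * ((1 + ‖fderiv ℝ ρ x‖) * L) := by gcongr
        _ = _ := by ring
  · -- directions in which `f` is affine
    intro x hx r L hr hL0 hL w C hC
    have hx0 := (hρ1 x hx).1
    have h2 := fderiv_bound (C := C) (w := w) (b := ‖fderiv ℝ ρ x‖ * L * ‖w‖)
      (hdiff x hx) (fun η hη => by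
        have hη' : 0 < η / (L + 1) := by positivity
        filter_upwards [hray x hx w r hr _ hη', self_mem_nhdsWithin] with t ht (ht0 : 0 < t)
        obtain ⟨h7, h8, h9⟩ := ht
        have h3 := mol_diff_dir hP ha hf hx0 h7 hL0 hL hC hr h8
        refine h3.trans ?_
        have h10 : L * (η / (L + 1)) ≤ η := by
          rw [mul_div_assoc', div_le_iff₀ (by positivity)]
          nlinarith
        calc L * |ρ (x + t • w) - ρ x|
            ≤ L * (t * (‖fderiv ℝ ρ x‖ * ‖w‖ + η / (L + 1))) := by gcongr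
          _ = t * (‖fderiv ℝ ρ x‖ * L * ‖w‖ + L * (η / (L + 1))) := by ring
          _ ≤ _ := by gcongr)
    refine h2.trans ?_
    have : 0 ≤ ‖fderiv ℝ ρ x‖ * L * ‖w‖ := by positivity
    have hK1 : 1 ≤ K := by rw [hK]; linarith
    calc ‖fderiv ℝ ρ x‖ * L * ‖w‖ = 1 * (‖fderiv ℝ ρ x‖ * L * ‖w‖) := by ring
      _ ≤ K * (‖fderiv ℝ ρ x‖ * L * ‖w‖) := by gcongr
      _ = _ := by ring
  · -- affine maps
    intro x hx A b hA
    have hx0 := (hρ1 x hx).1
    rw [mol_eq_av hx0, hA x (mem_ball_self hx0)]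
    have h1 : av P (fun z => f (x - ρ x • z)) = av P (fun z => (b + A x) + (-(ρ x) • A) z) := by
      apply av_congr hP
      intro z hz
      have h2 : x - ρ x • z ∈ ball x (ρ x) := by
        rw [mem_ball, dist_eq_norm, sub_sub_cancel_left, norm_neg, norm_smul,
          Real.norm_of_nonneg hx0.le]
        exact mul_lt_of_lt_one_right hx0 hz
      rw [hA _ h2]
      simp only [map_sub, map_smul, smul_apply]
      rw [neg_smul]; abel
    rw [h1, av_affine hP ha]
  · -- homogeneity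
    intro v x t ht hx1 hx2 hρh hfh
    have h1 := (hρ1 _ hx1).1
    have h2 := (hρ1 _ hx2).1
    rw [mol_eq_av h1, mol_eq_av h2]
    have h3 : av P (fun z => f (v + t • x - ρ (v + t • x) • z)) =
        av P (fun z => f v + t • (f (v + x - ρ (v + x) • z) - f v)) := by
      apply av_congr hP
      intro z hz
      have h4 : v + x - ρ (v + x) • z ∈ ball (v + x) (ρ (v + x)) := by
        rw [mem_ball, dist_eq_norm, sub_sub_cancel_left, norm_neg, norm_smul,
          Real.norm_of_nonneg h1.le]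
        exact mul_lt_of_lt_one_right h1 hz
      rw [← hfh _ h4, hρh]
      congr 1
      rw [add_sub_assoc v x, add_sub_cancel_left, smul_sub, smul_smul]
      abel
    have i1 : Integrable fun z : R3 => P (‖z‖ ^ 2) • (f v - t • f v) :=
      hP.integrable_normSq.smul_const _
    have i2 : Integrable fun z : R3 => t • (P (‖z‖ ^ 2) • f (v + x - ρ (v + x) • z)) :=
      (integrable_mol hP hf _ h1.ne').smul t
    have h5 : ∫ z : R3, P (‖z‖ ^ 2) • (f v + t • (f (v + x - ρ (v + x) • z) - f v)) =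
        (∫ z : R3, P (‖z‖ ^ 2) • (f v - t • f v)) +
          t • ∫ z : R3, P (‖z‖ ^ 2) • f (v + x - ρ (v + x) • z) := by
      rw [← integral_smul, ← integral_add i1 i2]
      refine integral_congr_ae (Eventually.of_forall fun z => ?_)
      simp only
      rw [smul_comm t (P (‖z‖ ^ 2)), ← smul_add]
      congr 1
      rw [smul_sub]; abel
    have h6 : av P (fun z => f v + t • (f (v + x - ρ (v + x) • z) - f v)) =
        av P (fun _ => f v - t • f v) + t • av P (fun z => f (v + x - ρ (v + x) • z)) := by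
      unfold av
      rw [h5, smul_add, smul_comm t]
    rw [h3, h6, av_const hP ha, smul_sub]
    abel

end P073.SM
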