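import Vale.Agent.P073.SM.Spec

/-!
# P073, block SMA, part SC: scale functions, radial near the points of a discrete set
-/

namespace P073.SM

open Set Metric Topology Filter
open scoped ENNReal NNReal ContDiff

theorem exists_bump (v : E3) {R : ℝ} (hR : 0 < R) : ∃ χ : E3 → ℝ, ContDiff ℝ ∞ χ ∧
    (∀ x, 0 ≤ χ x) ∧ (∀ x, χ x ≤ 1) ∧ (∀ x ∈ ball v (R / 8), χ x = 1) ∧
    (∀ x, x ∉ ball v (R / 4) → χ x = 0) ∧ ∃ C : ℝ, 0 ≤ C ∧ ∀ x, ‖fderiv ℝ χ x‖ ≤ C := by
  let f : ContDiffBump v := ⟨R / 8, R / 4, by positivity, by linarith⟩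
  refine ⟨f, f.contDiff, fun x => f.nonneg, fun x => f.le_one, fun x hx => ?_, fun x hx => ?_, ?_⟩
  · exact f.one_of_mem_closedBall (ball_subset_closedBall hx)
  · have h : x ∉ Function.support f := by rw [f.support_eq]; exact hx
    exact Function.notMem_support.1 h
  · obtain ⟨C, hC⟩ := (f.hasCompactSupport.fderiv (𝕜 := ℝ)).exists_bound_of_continuous
      ((f.contDiff (n := 1)).continuous_fderiv one_ne_zero)
    exact ⟨C, (norm_nonneg _).trans (hC v), hC⟩

theorem specSC : SpecSC := by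
  intro Ω S hΩ hS δ η hδ1 hδ2 hη
  classical
  have hopen : IsOpen (Ω \ S) := by
    rw [Metric.isOpen_iff]
    rintro x ⟨hx, hxS⟩
    obtain ⟨r, hr, h⟩ := hS.2 x hx
    obtain ⟨s, hs, hb⟩ := Metric.isOpen_iff.1 hΩ x hx
    refine ⟨min r s, lt_min hr hs, fun y hy => ⟨hb (ball_subset_ball (min_le_right _ _) hy), ?_⟩⟩
    by_cases hyx : y = x
    · rw [hyx]; exact hxS
    · exact h y (ball_subset_ball (min_le_left _ _) hy) hyx
  have h1 : ∀ v ∈ S, ∃ R > 0, (∀ y ∈ ball v R, y ≠ v → y ∉ S) ∧ ∃ c₀ > 0, ∃ a > 0,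
      ∀ y ∈ ball v R, c₀ * ‖y - v‖ ≤ δ y ∧ a ≤ η y := by
    intro v hv
    obtain ⟨r, hr, h⟩ := hS.2 v (hS.1 hv)
    obtain ⟨c₀, hc₀, h2⟩ := hδ2 v hv
    obtain ⟨a, ha, h3⟩ := hη v (hS.1 hv)
    obtain ⟨s, hs, h4⟩ := Metric.eventually_nhds_iff_ball.1 (h2.and h3)
    exact ⟨min r s, lt_min hr hs, fun y hy => h y (ball_subset_ball (min_le_left _ _) hy), c₀, hc₀,
      a, ha, fun y hy => h4 y (ball_subset_ball (min_le_right _ _) hy)⟩
  choose! R hR hRS c₀ hc₀ a ha hb using h1
  have h2 : ∀ v ∈ S, ∃ χ : E3 → ℝ, ContDiff ℝ ∞ χ ∧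
      (∀ x, 0 ≤ χ x) ∧ (∀ x, χ x ≤ 1) ∧ (∀ x ∈ ball v (R v / 8), χ x = 1) ∧
      (∀ x, x ∉ ball v (R v / 4) → χ x = 0) ∧ ∃ C : ℝ, 0 ≤ C ∧ ∀ x, ‖fderiv ℝ χ x‖ ≤ C :=
    fun v hv => exists_bump v (hR v hv)
  choose! χ hχs hχ0 hχ1 hχin hχout C hC0 hC using h2
  -- local uniqueness
  have huniq : ∀ x ∈ Ω, ∃ U ∈ 𝓝 x, ∀ v ∈ S, ∀ w ∈ S, (ball v (R v / 4) ∩ U).Nonempty →
      (ball w (R w / 4) ∩ U).Nonempty → v = w := by
    intro x hx
    obtain ⟨ρ, hρ, h⟩ := hS.2 x hx
    refine ⟨ball x (ρ / 8), ball_mem_nhds _ (by positivity), ?_⟩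
    rintro v hv w hw ⟨p, hp, hpx⟩ ⟨q, hq, hqx⟩
    by_contra hvw
    rw [mem_ball] at hp hpx hq hqx
    have e1 : R v ≤ dist w v := by
      by_contra hcon
      exact hRS v hv w (mem_ball.2 (not_le.1 hcon)) (fun h => hvw h.symm) hw
    have e2 : R w ≤ dist v w := by
      by_contra hcon
      exact hRS w hw v (mem_ball.2 (not_le.1 hcon)) hvw hv
    rw [dist_comm] at e1
    have e3 : dist v w ≤ dist p v + (dist p x + dist q x) + dist q w := by
      calc dist v w ≤ dist v p + dist p w := dist_triangle _ _ _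
        _ ≤ dist v p + (dist p q + dist q w) := by gcongr; exact dist_triangle _ _ _
        _ ≤ dist v p + ((dist p x + dist x q) + dist q w) := by gcongr; exact dist_triangle _ _ _
        _ = dist p v + (dist p x + dist q x) + dist q w := by
            rw [dist_comm v p, dist_comm x q]; ring
    have e4 : dist v w < ρ / 2 := by linarith
    have e5 : dist v x < ρ := by
      calc dist v x ≤ dist v p + dist p x := dist_triangle _ _ _
        _ < ρ := by rw [dist_comm v p]; linarith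
    have e6 : dist w x < ρ := by
      calc dist w x ≤ dist w q + dist q x := dist_triangle _ _ _
        _ < ρ := by rw [dist_comm w q]; linarith
    have f1 : v = x := by
      by_contra hne
      exact h v (mem_ball.2 e5) hne hv
    have f2 : w = x := by
      by_contra hne
      exact h w (mem_ball.2 e6) hne hw
    exact hvw (f1.trans f2.symm)
  -- the selected centre
  let P : E3 → Prop := fun x => ∃ v ∈ S, x ∈ ball v (R v / 4)
  let M : E3 → ℝ := fun x => if h : P x then C h.choose else 0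
  have hM0 : ∀ x, 0 ≤ M x := by
    intro x
    by_cases h : P x
    · simp only [M, dif_pos h]; exact hC0 _ h.choose_spec.1
    · simp only [M, dif_neg h]; exact le_rfl
  -- local description of selected functions
  have hsel : ∀ x ∈ Ω, (∃ v ∈ S, ∃ U ∈ 𝓝 x, ∀ y ∈ U, (∀ h : P y, h.choose = v)) ∨
      ∃ U ∈ 𝓝 x, ∀ y ∈ U, ¬ P y := by
    intro x hx
    obtain ⟨U, hU, hu⟩ := huniq x hx
    by_cases hex : ∃ v ∈ S, (ball v (R v / 4) ∩ U).Nonempty
    · obtain ⟨v, hv, hvU⟩ := hex
      refine Or.inl ⟨v, hv, U, hU, fun y hy h => ?_⟩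
      exact hu _ h.choose_spec.1 v hv ⟨y, h.choose_spec.2, hy⟩ hvU
    · refine Or.inr ⟨U, hU, fun y hy => ?_⟩
      rintro ⟨v, hv, hyv⟩
      exact hex ⟨v, hv, y, hyv, hy⟩
  let δ₁ : E3 → ℝ := fun x => min (δ x) (η x / (4 * (M x + 1)))
  have hδ₁ : ∀ y ∈ Ω \ S, ∃ c > 0, ∀ᶠ z in 𝓝 y, c ≤ δ₁ z := by
    rintro x ⟨hx, hxS⟩
    obtain ⟨a1, ha1, g1⟩ := hδ1 x hx hxS
    obtain ⟨a2, ha2, g2⟩ := hη x hx
    obtain ⟨B, hB, hB2⟩ : ∃ B : ℝ, 0 ≤ B ∧ ∀ᶠ z in 𝓝 x, M z ≤ B := by
      rcases hsel x hx with ⟨v, hv, U, hU, h⟩ | ⟨U, hU, h⟩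
      · refine ⟨C v, hC0 v hv, Filter.mem_of_superset hU fun z hz => ?_⟩
        show M z ≤ C v
        by_cases hP : P z
        · simp only [M, dif_pos hP]; rw [h z hz hP]
        · simp only [M, dif_neg hP]; exact hC0 v hv
      · refine ⟨0, le_rfl, Filter.mem_of_superset hU fun z hz => ?_⟩
        show M z ≤ 0
        simp only [M, dif_neg (h z hz)]; exact le_rfl
    refine ⟨min a1 (a2 / (4 * (B + 1))), lt_min ha1 (by positivity), ?_⟩
    filter_upwards [g1, g2, hB2] with z z1 z2 z3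
    refine min_le_min z1 ?_
    have := hM0 z
    exact div_le_div₀ (ha2.le.trans z2) z2 (by positivity) (by linarith)
  obtain ⟨κ₁, κs, κb, -⟩ := Vale.Agent.P073.exists_kappa_of_local hopen hδ₁
  -- the final function
  let c : E3 → ℝ := fun v => min (c₀ v / 2) (a v / (4 * (C v * R v + 1)))
  have hcpos : ∀ v ∈ S, 0 < c v := by
    intro v hv
    have := hc₀ v hv; have := ha v hv; have := hC0 v hv; have := hR v hv
    exact lt_min (by positivity) (by positivity)
  have hc1 : ∀ v ∈ S, c v < c₀ v := by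
    intro v hv
    have := hc₀ v hv
    exact (min_le_left _ _).trans_lt (by linarith)
  have hc2 : ∀ v ∈ S, c v * (C v * R v + 1) ≤ a v / 4 := by
    intro v hv
    have h0 : 0 < C v * R v + 1 := by
      have := hC0 v hv; have := hR v hv
      positivity
    calc c v * (C v * R v + 1) ≤ a v / (4 * (C v * R v + 1)) * (C v * R v + 1) := by
          gcongr; exact min_le_right _ _
      _ = a v / 4 := by field_simp
  let F : E3 → E3 → ℝ := fun v x => χ v x * (c v * ‖x - v‖ - κ₁ x)
  let κ : E3 → ℝ := fun x => κ₁ x + if h : P x then F h.choose x else 0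
  have hloc : ∀ x ∈ Ω, (∃ v ∈ S, ∀ᶠ y in 𝓝 x, κ y = κ₁ y + F v y) ∨
      (∀ᶠ y in 𝓝 x, κ y = κ₁ y) := by
    intro x hx
    rcases hsel x hx with ⟨v, hv, U, hU, h⟩ | ⟨U, hU, h⟩
    · refine Or.inl ⟨v, hv, Filter.mem_of_superset hU fun z hz => ?_⟩
      show κ z = κ₁ z + F v z
      by_cases hP : P z
      · simp only [κ, dif_pos hP]; rw [h z hz hP]
      · simp only [κ, dif_neg hP]
        have h0 : χ v z = 0 := hχout v hv z fun hzb => hP ⟨v, hv, hzb⟩
        simp only [F, h0, zero_mul]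
    · refine Or.inr (Filter.mem_of_superset hU fun z hz => ?_)
      show κ z = κ₁ z
      simp only [κ, dif_neg (h z hz), add_zero]
  -- the case of one centre
  have hcase : ∀ x ∈ Ω, x ∉ S → ∀ v ∈ S, (∀ᶠ y in 𝓝 x, κ y = κ₁ y + F v y) →
      ContDiffAt ℝ ∞ κ x ∧ 0 < κ x ∧ κ x < δ x ∧ ‖fderiv ℝ κ x‖ < η x := by
    intro x hx hxS v hv he
    have hxv : x ≠ v := fun h => hxS (h ▸ hv)
    have hxv0 : x - v ≠ 0 := sub_ne_zero.2 hxv
    obtain ⟨k1, k2, k3⟩ := κb x ⟨hx, hxS⟩
    obtain ⟨ax, hax, hax'⟩ := hη x hx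
    have hηx : 0 < η x := hax.trans_le hax'.self_of_nhds
    have hη4 : η x / (4 * (M x + 1)) ≤ η x / 4 := by
      have := hM0 x
      rw [div_le_div_iff₀ (by positivity) (by norm_num)]
      nlinarith
    have k2δ : κ₁ x < δ x := k2.trans_le (min_le_left _ _)
    have k3η : ‖fderiv ℝ κ₁ x‖ < η x / 4 := (k3.trans_le (min_le_right _ _)).trans_le hη4
    have hsm1 : ContDiffAt ℝ ∞ κ₁ x := κs.contDiffAt
    have hsm2 : ContDiffAt ℝ ∞ (fun y => ‖y - v‖) x :=
      (contDiffAt_norm ℝ hxv0).comp x (contDiffAt_id.sub contDiffAt_const)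
    have hsm3 : ContDiffAt ℝ ∞ (fun y => c v * ‖y - v‖ - κ₁ y) x :=
      (contDiffAt_const.mul hsm2).sub hsm1
    have hsmF : ContDiffAt ℝ ∞ (F v) x := (hχs v hv).contDiffAt.mul hsm3
    have hsm : ContDiffAt ℝ ∞ (fun y => κ₁ y + F v y) x := hsm1.add hsmF
    have hval : κ x = κ₁ x + F v x := he.self_of_nhds
    have hval2 : κ x = (1 - χ v x) * κ₁ x + χ v x * (c v * ‖x - v‖) := by
      rw [hval]; simp only [F]; ring
    have hnx : 0 < ‖x - v‖ := norm_pos_iff.2 hxv0
    have hcv := hcpos v hv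
    have hχa := hχ0 v hv x
    have hχb := hχ1 v hv x
    refine ⟨hsm.congr_of_eventuallyEq he, ?_, ?_, ?_⟩
    · rw [hval2]
      rcases hχa.lt_or_eq with h | h
      · have : 0 < χ v x * (c v * ‖x - v‖) := by positivity
        have : 0 ≤ (1 - χ v x) * κ₁ x := mul_nonneg (by linarith) k1.le
        linarith
      · rw [← h]; linarith
    · rw [hval2]
      by_cases hxb : x ∈ ball v (R v / 4)
      · have hRv := hR v hv
        have hb1 := (hb v hv x (ball_subset_ball (by linarith) hxb)).1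
        have h5 : c v * ‖x - v‖ < δ x := by
          have : c v * ‖x - v‖ < c₀ v * ‖x - v‖ := by
            have := hc1 v hv
            gcongr
          linarith
        rcases hχa.lt_or_eq with h | h
        · have g1 : (1 - χ v x) * κ₁ x ≤ (1 - χ v x) * δ x :=
            mul_le_mul_of_nonneg_left k2δ.le (by linarith)
          have g2 : χ v x * (c v * ‖x - v‖) < χ v x * δ x := mul_lt_mul_of_pos_left h5 h
          linarith
        · rw [← h]; linarith
      · rw [hχout v hv x hxb]; linarith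
    · rw [(Filter.EventuallyEq.fderiv_eq he : fderiv ℝ κ x = _)]
      have d1 : DifferentiableAt ℝ κ₁ x := hsm1.differentiableAt (by simp)
      have d2 : DifferentiableAt ℝ (fun y => ‖y - v‖) x := hsm2.differentiableAt (by simp)
      have d3 : DifferentiableAt ℝ (fun y => c v * ‖y - v‖ - κ₁ y) x :=
        hsm3.differentiableAt (by simp)
      have d4 : DifferentiableAt ℝ (χ v) x := (hχs v hv).contDiffAt.differentiableAt (by simp)
      have e1 : fderiv ℝ (fun y => κ₁ y + F v y) x = fderiv ℝ κ₁ x +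
          (χ v x • fderiv ℝ (fun y => c v * ‖y - v‖ - κ₁ y) x +
            (c v * ‖x - v‖ - κ₁ x) • fderiv ℝ (χ v) x) := by
        rw [fderiv_fun_add d1 (hsmF.differentiableAt (by simp))]
        congr 1
        exact fderiv_fun_mul d4 d3
      have e2 : fderiv ℝ (fun y => c v * ‖y - v‖ - κ₁ y) x =
          c v • fderiv ℝ (fun y => ‖y - v‖) x - fderiv ℝ κ₁ x := by
        rw [fderiv_fun_sub (d2.const_mul _) d1, fderiv_const_mul d2]
      have e3 : ‖fderiv ℝ (fun y => ‖y - v‖) x‖ ≤ 1 := by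
        have : LipschitzWith 1 (fun y : E3 => ‖y - v‖) := by
          have := (LipschitzWith.dist_left v : LipschitzWith 1 (fun y => dist y v))
          simpa [dist_eq_norm] using this
        have := norm_fderiv_le_of_lipschitz ℝ (x₀ := x) this
        simpa using this
      rw [e1, e2]
      have e4 : fderiv ℝ κ₁ x + (χ v x • (c v • fderiv ℝ (fun y => ‖y - v‖) x - fderiv ℝ κ₁ x) +
            (c v * ‖x - v‖ - κ₁ x) • fderiv ℝ (χ v) x) =
          (1 - χ v x) • fderiv ℝ κ₁ x + (χ v x * c v) • fderiv ℝ (fun y => ‖y - v‖) x +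
            (c v * ‖x - v‖ - κ₁ x) • fderiv ℝ (χ v) x := by module
      rw [e4]
      have n1 : ‖(1 - χ v x) • fderiv ℝ κ₁ x‖ ≤ ‖fderiv ℝ κ₁ x‖ := by
        rw [norm_smul, Real.norm_of_nonneg (by linarith)]
        exact mul_le_of_le_one_left (norm_nonneg _) (by linarith)
      have n2 : ‖(χ v x * c v) • fderiv ℝ (fun y => ‖y - v‖) x‖ ≤ c v := by
        rw [norm_smul, Real.norm_of_nonneg (by positivity)]
        calc χ v x * c v * ‖fderiv ℝ (fun y => ‖y - v‖) x‖ ≤ 1 * c v * 1 := by gcongr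
          _ = c v := by ring
      by_cases hxb : x ∈ ball v (R v / 4)
      · have hRv := hR v hv
        have hb2 := (hb v hv x (ball_subset_ball (by linarith) hxb)).2
        have hP : P x := ⟨v, hv, hxb⟩
        have hMx : M x = C v := by
          -- the selected centre is `v`
          obtain ⟨U, hU, hu⟩ := huniq x hx
          have := hu _ hP.choose_spec.1 v hv ⟨x, hP.choose_spec.2, mem_of_mem_nhds hU⟩
            ⟨x, hxb, mem_of_mem_nhds hU⟩
          simp only [M, dif_pos hP]; rw [this]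
        have hdist : ‖x - v‖ ≤ R v := by
          rw [mem_ball, dist_eq_norm] at hxb
          linarith
        have hCv := hC0 v hv
        have hCx := hC v hv x
        have n3 : ‖(c v * ‖x - v‖ - κ₁ x) • fderiv ℝ (χ v) x‖ ≤ c v * (C v * R v) + η x / 4 := by
          rw [norm_smul, Real.norm_eq_abs]
          have a1 : |c v * ‖x - v‖ - κ₁ x| ≤ c v * ‖x - v‖ + κ₁ x := by
            rw [abs_le]
            have : 0 < c v * ‖x - v‖ := by positivity
            constructor <;> linarith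
          have a2 : κ₁ x * C v ≤ η x / 4 := by
            have := k2.trans_le (min_le_right _ _)
            rw [hMx] at this
            calc κ₁ x * C v ≤ η x / (4 * (C v + 1)) * (C v + 1) := by
                  gcongr
                  linarith
              _ = η x / 4 := by field_simp
          calc |c v * ‖x - v‖ - κ₁ x| * ‖fderiv ℝ (χ v) x‖
              ≤ (c v * ‖x - v‖ + κ₁ x) * C v := by gcongr
            _ = c v * (C v * ‖x - v‖) + κ₁ x * C v := by ring
            _ ≤ c v * (C v * R v) + η x / 4 := by gcongr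
        have hc2v := hc2 v hv
        calc _ ≤ ‖(1 - χ v x) • fderiv ℝ κ₁ x + (χ v x * c v) • fderiv ℝ (fun y => ‖y - v‖) x‖ +
              ‖(c v * ‖x - v‖ - κ₁ x) • fderiv ℝ (χ v) x‖ := norm_add_le _ _
          _ ≤ ‖(1 - χ v x) • fderiv ℝ κ₁ x‖ +
              ‖(χ v x * c v) • fderiv ℝ (fun y => ‖y - v‖) x‖ +
              ‖(c v * ‖x - v‖ - κ₁ x) • fderiv ℝ (χ v) x‖ := by
              gcongr; exact norm_add_le _ _
          _ ≤ ‖fderiv ℝ κ₁ x‖ + c v + (c v * (C v * R v) + η x / 4) := by gcongr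
          _ < η x := by linarith
      · -- outside the ball the bump vanishes to first order
        have hχx : χ v x = 0 := hχout v hv x hxb
        have hmin : IsLocalMin (χ v) x := by
          refine Filter.Eventually.of_forall fun y => ?_
          show χ v x ≤ χ v y
          rw [hχx]; exact hχ0 v hv y
        have hd : fderiv ℝ (χ v) x = 0 := hmin.fderiv_eq_zero
        rw [hd, smul_zero, add_zero, hχx, zero_mul, zero_smul, add_zero, sub_zero, one_smul]
        linarith
  refine ⟨κ, ?_, ?_, ?_⟩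
  · rintro x ⟨hx, hxS⟩
    rcases hloc x hx with ⟨v, hv, he⟩ | he
    · exact (hcase x hx hxS v hv he).1.contDiffWithinAt
    · exact (κs.contDiffAt.congr_of_eventuallyEq he).contDiffWithinAt
  · intro x hx hxS
    rcases hloc x hx with ⟨v, hv, he⟩ | he
    · exact (hcase x hx hxS v hv he).2
    · obtain ⟨k1, k2, k3⟩ := κb x ⟨hx, hxS⟩
      obtain ⟨ax, hax, hax'⟩ := hη x hx
      have hηx : 0 < η x := hax.trans_le hax'.self_of_nhds
      have hη4 : η x / (4 * (M x + 1)) ≤ η x := by
        have := hM0 x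
        exact div_le_self hηx.le (by linarith)
      rw [he.self_of_nhds, (Filter.EventuallyEq.fderiv_eq he : fderiv ℝ κ x = _)]
      exact ⟨k1, k2.trans_le (min_le_left _ _), (k3.trans_le (min_le_right _ _)).trans_le hη4⟩
  · intro v hv
    refine ⟨c v, hcpos v hv, ?_⟩
    have hRv := hR v hv
    have hev : ∀ᶠ y in 𝓝 v, y ∈ ball v (R v / 8) := ball_mem_nhds _ (by positivity)
    rcases hsel v (hS.1 hv) with ⟨w, hw, U, hU, h⟩ | ⟨U, hU, h⟩
    · have hPv : P v := ⟨v, hv, mem_ball_self (by positivity)⟩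
      filter_upwards [hev, hU] with y hy hyU
      have hPy : P y := ⟨v, hv, ball_subset_ball (by linarith) hy⟩
      have hwv : hPy.choose = v := by
        by_contra hne
        have g1 := hPy.choose_spec.2
        have g0 := hPy.choose_spec.1
        have e2 : R hPy.choose ≤ dist v hPy.choose := by
          by_contra hcon
          exact hRS _ g0 v (mem_ball.2 (not_le.1 hcon)) (fun h => hne h.symm) hv
        have e1 : R v ≤ dist v hPy.choose := by
          by_contra hcon
          rw [dist_comm] at hcon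
          exact hRS v hv _ (mem_ball.2 (not_le.1 hcon)) hne g0
        rw [mem_ball] at g1 hy
        have := dist_triangle v y hPy.choose
        rw [dist_comm v y] at this
        linarith
      simp only [κ, dif_pos hPy]
      rw [hwv]
      simp only [F, hχin v hv y hy]
      ring
    · exact absurd ⟨v, hv, mem_ball_self (by positivity)⟩ (h v (mem_of_mem_nhds hU))

end P073.SM
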