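import Vale.Agent.P073.SM.Spec2
import Vale.Agent.P073.SM.SC
import Vale.Agent.P073.SM.MO

/-!
# P073, block SMA, part AS: smoothing of a directionally monotone map
-/

namespace P073.SM

open Set Metric Topology Filter MeasureTheory
open scoped ENNReal ContDiff InnerProductSpace
open Vale.Agent.P073 (LipOn PII DirMonotoneAt LII LL LII_of_mono)
open Vale.Agent.P073.SMV (RegAt)

namespace AS

theorem good_mono {K : ℝ} (hK : 0 ≤ K) {f : E3 → E3} {x : E3} {s g s' g' : ℝ}
    (h : Good K f x s g) (hs : s' ≤ s) (hg : g' ≤ g) : Good K f x s' g' := by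
  obtain ⟨r, L, c, h1, h2, h3, h4, h5, h6⟩ := h
  refine ⟨r, L, c, hs.trans_lt h1, h2, h3, h4, h5, le_trans ?_ h6⟩
  gcongr

/-- near a point where `f` is directionally monotone -/
theorem good_near {K : ℝ} (hK : 1 ≤ K) {f : E3 → E3} {x : E3} (h : DirMonotoneAt f x) :
    ∃ a > 0, a ≤ 1 ∧ ∀ᶠ y in 𝓝 x, Good K f y a a := by
  obtain ⟨U, hU, ⟨c, hc, hPII⟩, L, hL⟩ := LII_of_mono h
  obtain ⟨r, hr, hrU⟩ := Metric.mem_nhds_iff.1 hU
  have hL' : LipOn f U |L| := fun y hy z hz => (hL y hy z hz).trans (by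
    gcongr; exact le_abs_self L)
  have hpos : 0 < K * (|L| + 1) := by positivity
  refine ⟨min (min 1 (r / 4)) (c / (K * (|L| + 1))), by positivity,
    (min_le_left _ _).trans (min_le_left _ _), ?_⟩
  filter_upwards [ball_mem_nhds x (half_pos hr)] with y hy
  have hb : ball y (r / 2) ⊆ U := by
    refine Subset.trans ?_ hrU
    apply ball_subset_ball'
    rw [mem_ball] at hy
    linarith
  refine ⟨r / 2, |L|, c, ?_, abs_nonneg L, fun p hp q hq => hL' p (hb hp) q (hb hq), hc, ?_, ?_⟩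
  · have h1 : min (min 1 (r / 4)) (c / (K * (|L| + 1))) ≤ r / 4 :=
      (min_le_left _ _).trans (min_le_right _ _)
    linarith
  · intro v hv
    obtain ⟨n, hn, h1⟩ := hPII v hv
    exact ⟨n, hn, fun p hp t ht hpt => h1 p (hb hp) t ht (hb hpt)⟩
  · have h1 : min (min 1 (r / 4)) (c / (K * (|L| + 1))) ≤ c / (K * (|L| + 1)) := min_le_right _ _
    calc K * min (min 1 (r / 4)) (c / (K * (|L| + 1))) * |L|
        ≤ K * (c / (K * (|L| + 1))) * |L| := by gcongr
      _ = c * (|L| / (|L| + 1)) := by field_simp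
      _ ≤ c * 1 := by
          gcongr
          rw [div_le_one (by positivity)]; linarith
      _ = c := mul_one c

/-- scaling of `Good` near a point of homogeneity -/
theorem good_scale {K : ℝ} {f : E3 → E3} {v : E3} {R : ℝ}
    (hf : ∀ y : E3, ‖y‖ < R → ∀ t ∈ Ioc (0:ℝ) 1, f (v + t • y) = f v + t • (f (v + y) - f v))
    {x : E3} {s g : ℝ} (hx : ‖x‖ + s < R) (h : Good K f (v + x) s g) {t : ℝ}
    (ht : t ∈ Ioc (0:ℝ) 1) : Good K f (v + t • x) (t * s) g := by
  obtain ⟨r, L, c, h1, h2, h3, h4, h5, h6⟩ := h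
  have ht0 := ht.1
  set r' := min r (R - ‖x‖) with hr'
  have hs' : s < r' := lt_min h1 (by linarith)
  have hb : ball (v + x) r' ⊆ ball (v + x) r := ball_subset_ball (min_le_left _ _)
  -- points of the small ball
  have key : ∀ p ∈ ball (v + t • x) (t * r'), v + t⁻¹ • (p - v) ∈ ball (v + x) r' ∧
      f p = f v + t • (f (v + t⁻¹ • (p - v)) - f v) := by
    intro p hp
    rw [mem_ball, dist_eq_norm] at hp
    have e1 : v + t⁻¹ • (p - v) - (v + x) = t⁻¹ • (p - (v + t • x)) := by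
      rw [smul_sub, smul_sub, smul_add, smul_smul, inv_mul_cancel₀ ht0.ne', one_smul]
      abel
    have e2 : ‖v + t⁻¹ • (p - v) - (v + x)‖ < r' := by
      rw [e1, norm_smul, norm_inv, Real.norm_of_nonneg ht0.le, inv_mul_lt_iff₀ ht0]
      exact hp
    refine ⟨by rwa [mem_ball, dist_eq_norm], ?_⟩
    have e3 : ‖t⁻¹ • (p - v)‖ < R := by
      have e4 : t⁻¹ • (p - v) = (v + t⁻¹ • (p - v) - (v + x)) + x := by abel
      rw [e4]
      refine (norm_add_le _ _).trans_lt ?_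
      have := min_le_right r (R - ‖x‖)
      linarith
    have e5 := hf _ e3 t ht
    rw [smul_smul, mul_inv_cancel₀ ht0.ne', one_smul, add_sub_cancel] at e5
    exact e5
  refine ⟨t * r', L, c, by gcongr, h2, ?_, h4, ?_, h6⟩
  · intro p hp q hq
    obtain ⟨p1, p2⟩ := key p hp
    obtain ⟨q1, q2⟩ := key q hq
    have e1 := h3 _ (hb p1) _ (hb q1)
    have e2 : f p - f q = t • (f (v + t⁻¹ • (p - v)) - f (v + t⁻¹ • (q - v))) := by
      rw [p2, q2]; module
    have e3 : v + t⁻¹ • (p - v) - (v + t⁻¹ • (q - v)) = t⁻¹ • (p - q) := by module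
    rw [e3, norm_smul, norm_inv, Real.norm_of_nonneg ht0.le] at e1
    rw [e2, norm_smul, Real.norm_of_nonneg ht0.le]
    calc t * ‖f (v + t⁻¹ • (p - v)) - f (v + t⁻¹ • (q - v))‖ ≤ t * (L * (t⁻¹ * ‖p - q‖)) := by
          gcongr
      _ = L * ‖p - q‖ := by field_simp
  · intro w hw
    obtain ⟨n, hn, h7⟩ := h5 w hw
    refine ⟨n, hn, fun p hp τ hτ hpτ => ?_⟩
    obtain ⟨p1, p2⟩ := key p hp
    obtain ⟨q1, q2⟩ := key _ hpτ
    have e3 : v + t⁻¹ • (p + τ • w - v) = v + t⁻¹ • (p - v) + (t⁻¹ * τ) • w := by module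
    rw [e3] at q1 q2
    have e1 := h7 _ (hb p1) (t⁻¹ * τ) (by positivity) (hb q1)
    have e2 : f (p + τ • w) - f p = t • (f (v + t⁻¹ • (p - v) + (t⁻¹ * τ) • w) -
        f (v + t⁻¹ • (p - v))) := by
      rw [p2, q2]; module
    rw [e2, inner_smul_right]
    calc c * τ = t * (c * (t⁻¹ * τ)) := by field_simp
      _ ≤ _ := by gcongr

/-- uniform `Good` near a point of homogeneity -/
theorem good_near_vertex {K : ℝ} (hK : 1 ≤ K) {f : E3 → E3} {v : E3} {R : ℝ} (hR : 0 < R)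
    (hf : ∀ y : E3, ‖y‖ < R → ∀ t ∈ Ioc (0:ℝ) 1, f (v + t • y) = f v + t • (f (v + y) - f v))
    (hmono : ∀ x : E3, ‖x‖ = R / 2 → DirMonotoneAt f (v + x)) :
    ∃ a > 0, a ≤ 1 ∧ ∀ y : E3, y ≠ 0 → ‖y‖ ≤ R / 2 → Good K f (v + y) (a * ‖y‖) a := by
  have hcomp : IsCompact (sphere (0 : E3) (R / 2)) := isCompact_sphere _ _
  have key : ∃ a : ℝ, 0 < a ∧ a ≤ 1 ∧ ∀ x ∈ sphere (0 : E3) (R / 2), Good K f (v + x) a a := by
    refine hcomp.induction_on (p := fun A => ∃ a : ℝ, 0 < a ∧ a ≤ 1 ∧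
      ∀ x ∈ A, Good K f (v + x) a a) ?_ ?_ ?_ ?_
    · exact ⟨1, one_pos, le_rfl, fun x hx => absurd hx (notMem_empty x)⟩
    · rintro A B hAB ⟨a, ha, ha1, h⟩
      exact ⟨a, ha, ha1, fun x hx => h x (hAB hx)⟩
    · rintro A B ⟨a, ha, ha1, h⟩ ⟨b, hb, hb1, h'⟩
      refine ⟨min a b, lt_min ha hb, (min_le_left _ _).trans ha1, ?_⟩
      rintro x (hx | hx)
      · exact good_mono (by linarith) (h x hx) (min_le_left _ _) (min_le_left _ _)
      · exact good_mono (by linarith) (h' x hx) (min_le_right _ _) (min_le_right _ _)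
    · intro x hx
      obtain ⟨a, ha, ha1, h⟩ := good_near hK (hmono x (by simpa using hx))
      have hc : Tendsto (fun y : E3 => v + y) (𝓝 x) (𝓝 (v + x)) :=
        (by fun_prop : Continuous (fun y : E3 => v + y)).tendsto x
      exact ⟨_, mem_nhdsWithin_of_mem_nhds (hc.eventually h), a, ha, ha1, fun y hy => hy⟩
  obtain ⟨a, ha, ha1, h⟩ := key
  have ha' : 0 < min a (R / 4) := lt_min ha (by positivity)
  refine ⟨min (min a (R / 4)) (min a (R / 4) / (R / 2)), lt_min ha' (by positivity),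
    (min_le_left _ _).trans ((min_le_left _ _).trans ha1), fun y hy0 hy => ?_⟩
  have hyn : 0 < ‖y‖ := norm_pos_iff.2 hy0
  set t := ‖y‖ / (R / 2) with ht
  have ht0 : 0 < t := by positivity
  have ht1 : t ≤ 1 := by rw [ht, div_le_one (by positivity)]; exact hy
  have hx : ‖t⁻¹ • y‖ = R / 2 := by
    rw [norm_smul, norm_inv, Real.norm_of_nonneg ht0.le, ht]
    field_simp
  have h1 : Good K f (v + t⁻¹ • y) (min a (R / 4)) (min a (R / 4)) :=
    good_mono (by linarith) (h _ (by simpa using hx)) (min_le_left _ _) (min_le_left _ _)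
  have h2 := good_scale hf (x := t⁻¹ • y) (s := min a (R / 4)) (by
    rw [hx]
    have := min_le_right a (R / 4)
    linarith) h1 (t := t) ⟨ht0, ht1⟩
  rw [smul_smul, mul_inv_cancel₀ ht0.ne', one_smul] at h2
  refine good_mono (by linarith) h2 ?_ (min_le_left _ _)
  calc min (min a (R / 4)) (min a (R / 4) / (R / 2)) * ‖y‖ ≤ min a (R / 4) / (R / 2) * ‖y‖ := by
        gcongr; exact min_le_right _ _
    _ = t * min a (R / 4) := by rw [ht]; ring

end AS

open AS

theorem specAS : SpecAS := by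
  obtain ⟨K, M, hK1, hM⟩ := specMO
  have hK0 : 0 < K := by linarith
  refine ⟨K * 2, by linarith, ?_⟩
  intro Ω S f hΩ hS hf hmono hhom δ η hδ hη
  classical
  have hopen : IsOpen (Ω \ S) := by
    rw [Metric.isOpen_iff]
    rintro x ⟨hx, hxS⟩
    obtain ⟨r, hr, h⟩ := hS.2 x hx
    obtain ⟨s, hs, hb⟩ := Metric.isOpen_iff.1 hΩ x hx
    refine ⟨min r s, lt_min hr hs, fun y hy => ⟨hb (ball_subset_ball (min_le_right _ _) hy), ?_⟩⟩
    by_cases hyx : y = x
    · rw [hyx]; exact hxS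
    · exact h y (ball_subset_ball (min_le_left _ _) hy) hyx
  -- the auxiliary distance function
  obtain ⟨D, hDs, hD, hDv⟩ := specSC Ω S hΩ hS (fun _ => 1) (fun _ => 1)
    (fun x _ _ => ⟨1, one_pos, Eventually.of_forall fun _ => le_rfl⟩)
    (fun v _ => ⟨1, one_pos, by
      filter_upwards [ball_mem_nhds v one_pos] with y hy
      rw [mem_ball, dist_eq_norm] at hy
      linarith⟩)
    (fun x _ => ⟨1, one_pos, Eventually.of_forall fun _ => le_rfl⟩)
  let A : E3 → Set ℝ := fun x => {a | 0 < a ∧ a ≤ 1 ∧ Good K f x (a * D x) a}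
  have hAb : ∀ x, BddAbove (A x) := fun x => ⟨1, fun a ha => ha.2.1⟩
  let σ : E3 → ℝ := fun x => sSup (A x) / 2
  have hσA : ∀ x, ∀ a ∈ A x, a / 2 ≤ σ x := fun x a ha => by
    have := le_csSup (hAb x) ha
    show a / 2 ≤ sSup (A x) / 2
    linarith
  have hσG : ∀ x, 0 < σ x → Good K f x (σ x * D x) (σ x) ∨ D x < 0 := by
    intro x hx
    by_cases hD0 : D x < 0
    · exact Or.inr hD0
    left
    push Not at hD0
    have h1 : σ x < sSup (A x) := by
      show sSup (A x) / 2 < sSup (A x)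
      have : 0 < sSup (A x) / 2 := hx
      linarith
    have hne : (A x).Nonempty := by
      by_contra hcon
      rw [not_nonempty_iff_eq_empty] at hcon
      have : 0 < sSup (A x) / 2 := hx
      rw [hcon, Real.sSup_empty] at this
      norm_num at this
    obtain ⟨a, ha, h2⟩ := exists_lt_of_lt_csSup hne h1
    exact good_mono hK0.le ha.2.2 (by gcongr) h2.le
  have hσ1 : ∀ x ∈ Ω, x ∉ S → ∃ a > 0, ∀ᶠ y in 𝓝 x, a ≤ σ y := by
    intro x hx hxS
    obtain ⟨a, ha, ha1, h⟩ := good_near hK1 (hmono x hx hxS)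
    refine ⟨a / 2, by positivity, ?_⟩
    filter_upwards [h, hopen.mem_nhds ⟨hx, hxS⟩] with y hy hyΩ
    refine hσA y a ⟨ha, ha1, good_mono hK0.le hy ?_ le_rfl⟩
    have := hD y hyΩ.1 hyΩ.2
    nlinarith
  have hσ2 : ∀ v ∈ S, ∃ a > 0, ∀ᶠ y in 𝓝 v, y ≠ v → a ≤ σ y := by
    intro v hv
    have hvΩ : v ∈ Ω := hS.1 hv
    obtain ⟨R, hR, hRf⟩ := hhom v hv
    obtain ⟨r, hr, hrS⟩ := hS.2 v hvΩ
    obtain ⟨s, hs, hb⟩ := Metric.isOpen_iff.1 hΩ v hvΩ
    obtain ⟨c, hc, hcD⟩ := hDv v hv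
    set R' := min R (min r s) with hR'
    have hR'0 : 0 < R' := lt_min hR (lt_min hr hs)
    obtain ⟨a, ha, ha1, h⟩ := good_near_vertex hK1 hR'0
      (fun y hy t ht => hRf y (hy.trans_le (min_le_left _ _)) t ht) (fun x hx => by
        have hxn : ‖x‖ < min r s := by
          have := min_le_right R (min r s)
          rw [hx]; linarith
        have hx0 : x ≠ 0 := by
          rintro rfl
          rw [norm_zero] at hx
          linarith
        refine hmono _ (hb ?_) (hrS _ ?_ (by simpa using hx0))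
        · rw [mem_ball, dist_eq_norm, add_sub_cancel_left]
          exact hxn.trans_le (min_le_right _ _)
        · rw [mem_ball, dist_eq_norm, add_sub_cancel_left]
          exact hxn.trans_le (min_le_left _ _))
    refine ⟨min a (a / c) / 2, by positivity, ?_⟩
    filter_upwards [ball_mem_nhds v (half_pos hR'0), hcD] with y hy hyD hyv
    rw [mem_ball, dist_eq_norm] at hy
    have hy0 : y - v ≠ 0 := sub_ne_zero.2 hyv
    have h1 := h (y - v) hy0 hy.le
    rw [add_sub_cancel] at h1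
    refine hσA y _ ⟨by positivity, (min_le_left _ _).trans ha1,
      good_mono hK0.le h1 ?_ (min_le_left _ _)⟩
    rw [hyD]
    have h2 : min a (a / c) * c ≤ a := by
      calc min a (a / c) * c ≤ a / c * c := by gcongr; exact min_le_right _ _
        _ = a := by field_simp
    calc min a (a / c) * (c * ‖y - v‖) = min a (a / c) * c * ‖y - v‖ := by ring
      _ ≤ a * ‖y - v‖ := by gcongr
  -- the radius
  obtain ⟨ρ, hρs, hρ, hρv⟩ := specSC Ω S hΩ hS (fun x => min (δ x) (min 1 (σ x * D x)))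
    (fun x => if x ∈ S then 1 else min (min 1 (η x / K)) (σ x)) (by
      intro x hx hxS
      obtain ⟨a, ha, h1⟩ := hδ.1 x hx hxS
      obtain ⟨b, hb, h2⟩ := hσ1 x hx hxS
      have hDx := (hD x hx hxS).1
      have h3 : ∀ᶠ y in 𝓝 x, D x / 2 < D y := by
        have := (hDs.continuousOn.continuousAt (hopen.mem_nhds ⟨hx, hxS⟩))
        exact this.eventually_const_lt (by linarith)
      refine ⟨min a (min 1 (b * (D x / 2))), by positivity, ?_⟩
      filter_upwards [h1, h2, h3] with y h4 h5 h6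
      have h7 : b * (D x / 2) ≤ σ y * D y :=
        mul_le_mul h5 h6.le (by linarith) (hb.le.trans h5)
      exact min_le_min h4 (min_le_min le_rfl h7)) (by
      intro v hv
      obtain ⟨a, ha, h1⟩ := hδ.2 v hv
      obtain ⟨b, hb, h2⟩ := hσ2 v hv
      obtain ⟨c, hc, h3⟩ := hDv v hv
      refine ⟨min a (min 1 (b * c)), by positivity, ?_⟩
      filter_upwards [h1, h2, h3, ball_mem_nhds v one_pos] with y h4 h5 h6 h7
      rw [mem_ball, dist_eq_norm] at h7
      refine le_min ?_ (le_min ?_ ?_)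
      · refine le_trans ?_ h4
        gcongr
        exact min_le_left _ _
      · have : min a (min 1 (b * c)) ≤ 1 := (min_le_right _ _).trans (min_le_left _ _)
        nlinarith [norm_nonneg (y - v)]
      · rw [h6]
        by_cases hyv : y = v
        · rw [hyv]; simp
        · have h8 := h5 hyv
          have h9 : min a (min 1 (b * c)) ≤ b * c := (min_le_right _ _).trans (min_le_right _ _)
          calc min a (min 1 (b * c)) * ‖y - v‖ ≤ b * c * ‖y - v‖ := by gcongr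
            _ = b * (c * ‖y - v‖) := by ring
            _ ≤ σ y * (c * ‖y - v‖) := by gcongr) (by
      intro x hx
      obtain ⟨a, ha, h1⟩ := hη x hx
      have h2 : ∃ b > 0, ∀ᶠ y in 𝓝 x, y ∉ S → b ≤ σ y := by
        by_cases hxS : x ∈ S
        · obtain ⟨b, hb, h2⟩ := hσ2 x hxS
          refine ⟨b, hb, ?_⟩
          filter_upwards [h2] with y hy hyS
          exact hy (fun h => hyS (h ▸ hxS))
        · obtain ⟨b, hb, h2⟩ := hσ1 x hx hxS
          refine ⟨b, hb, ?_⟩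
          filter_upwards [h2] with y hy _ using hy
      obtain ⟨b, hb, h2⟩ := h2
      refine ⟨min (min 1 (a / K)) b, by positivity, ?_⟩
      filter_upwards [h1, h2] with y h3 h4
      by_cases hyS : y ∈ S
      · simp only [hyS, if_true]
        exact (min_le_left _ _).trans (min_le_left _ _)
      · simp only [hyS, if_false]
        refine min_le_min (min_le_min le_rfl ?_) (h4 hyS)
        gcongr)
  have hρ1 : ∀ x ∈ Ω \ S, 0 < ρ x ∧ ρ x < 1 := fun x hx =>
    ⟨(hρ x hx.1 hx.2).1, (hρ x hx.1 hx.2).2.1.trans_le ((min_le_right _ _).trans (min_le_left _ _))⟩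
  have hgrad : ∀ x ∈ Ω \ S, ‖fderiv ℝ ρ x‖ ≤ 1 ∧ K * ‖fderiv ℝ ρ x‖ ≤ η x ∧
      ‖fderiv ℝ ρ x‖ < σ x := by
    intro x hx
    have h1 := (hρ x hx.1 hx.2).2.2
    simp only [hx.2, if_false] at h1
    refine ⟨(h1.trans_le ((min_le_left _ _).trans (min_le_left _ _))).le, ?_,
      h1.trans_le (min_le_right _ _)⟩
    have h2 := h1.trans_le ((min_le_left _ _).trans (min_le_right _ _))
    rw [lt_div_iff₀ hK0] at h2
    linarith
  obtain ⟨m1, m2, m3, m4, -, m6⟩ := hM (Ω \ S) ρ f hopen hρs hρ1 hf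
  have hgood : ∀ x ∈ Ω \ S, Good K f x (ρ x) ‖fderiv ℝ ρ x‖ := by
    intro x hx
    have h1 := (hgrad x hx).2.2
    have h2 : 0 < σ x := (norm_nonneg _).trans_lt h1
    have hDx := (hD x hx.1 hx.2).1
    rcases hσG x h2 with h3 | h3
    · refine good_mono hK0.le h3 ?_ h1.le
      exact ((hρ x hx.1 hx.2).2.1.trans_le ((min_le_right _ _).trans (min_le_right _ _))).le
    · linarith
  let g : E3 → E3 := fun x => if x ∈ S then f x else M ρ f x
  have hgS : ∀ x ∈ S, g x = f x := fun x hx => if_pos hx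
  have hgn : ∀ x, x ∉ S → g x = M ρ f x := fun x hx => if_neg hx
  have hge : ∀ x ∈ Ω \ S, g =ᶠ[𝓝 x] M ρ f := by
    intro x hx
    filter_upwards [hopen.mem_nhds hx] with y hy
    exact hgn y hy.2
  refine ⟨ρ, g, ?_, hgS, ?_, ?_⟩
  · intro x hx hxS
    refine ⟨(hρ x hx hxS).1, (hρ x hx hxS).2.1.trans_le (min_le_left _ _), ?_, ?_⟩
    · exact (m1.contDiffAt (hopen.mem_nhds ⟨hx, hxS⟩)).congr_of_eventuallyEq (hge x ⟨hx, hxS⟩)
    · rw [(hge x ⟨hx, hxS⟩).fderiv_eq, injective_iff_map_eq_zero]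
      exact m2 x ⟨hx, hxS⟩ (hgood x ⟨hx, hxS⟩)
  · intro v hv
    have hvΩ : v ∈ Ω := hS.1 hv
    obtain ⟨R, hR, hRf⟩ := hhom v hv
    obtain ⟨r, hr, hrS⟩ := hS.2 v hvΩ
    obtain ⟨s, hs, hb⟩ := Metric.isOpen_iff.1 hΩ v hvΩ
    obtain ⟨c, hc, hcρ⟩ := hρv v hv
    obtain ⟨r₁, hr₁, hcρ'⟩ := Metric.eventually_nhds_iff_ball.1 hcρ
    refine ⟨min (R / (1 + c)) (min r₁ (min r s)), by positivity, fun y hy t ht => ?_⟩
    have hy1 : ‖y‖ < R / (1 + c) := hy.trans_le (min_le_left _ _)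
    have hy2 : ‖y‖ < r₁ := hy.trans_le ((min_le_right _ _).trans (min_le_left _ _))
    have hy3 : ‖y‖ < r :=
      hy.trans_le ((min_le_right _ _).trans ((min_le_right _ _).trans (min_le_left _ _)))
    have hy4 : ‖y‖ < s :=
      hy.trans_le ((min_le_right _ _).trans ((min_le_right _ _).trans (min_le_right _ _)))
    by_cases hy0 : y = 0
    · rw [hy0]; simp
    have hty : ‖t • y‖ ≤ ‖y‖ := by
      rw [norm_smul, Real.norm_of_nonneg ht.1.le]
      exact mul_le_of_le_one_left (norm_nonneg _) ht.2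
    have hmem : ∀ z : E3, z ≠ 0 → ‖z‖ ≤ ‖y‖ → v + z ∈ Ω \ S ∧ ρ (v + z) = c * ‖z‖ := by
      intro z hz0 hz
      refine ⟨⟨hb ?_, hrS _ ?_ (by simpa using hz0)⟩, ?_⟩
      · rw [mem_ball, dist_eq_norm, add_sub_cancel_left]; linarith
      · rw [mem_ball, dist_eq_norm, add_sub_cancel_left]; linarith
      · have := hcρ' (v + z) (by rw [mem_ball, dist_eq_norm, add_sub_cancel_left]; linarith)
        rwa [add_sub_cancel_left] at this
    have hty0 : t • y ≠ 0 := smul_ne_zero ht.1.ne' hy0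
    obtain ⟨a1, a2⟩ := hmem y hy0 le_rfl
    obtain ⟨b1, b2⟩ := hmem (t • y) hty0 hty
    rw [hgS v hv, hgn _ a1.2, hgn _ b1.2]
    apply m6 v y t ht.1 a1 b1
    · rw [a2, b2, norm_smul, Real.norm_of_nonneg ht.1.le]; ring
    · intro z hz
      have := hRf (z - v) (by
        rw [a2, mem_ball, dist_eq_norm] at hz
        rw [lt_div_iff₀ (by positivity)] at hy1
        calc ‖z - v‖ = ‖(z - (v + y)) + y‖ := by congr 1; abel
          _ ≤ ‖z - (v + y)‖ + ‖y‖ := norm_add_le _ _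
          _ < R := by linarith) t ht
      rwa [add_sub_cancel] at this
  · intro x hx hxS r L hr hL0 hL
    obtain ⟨h1, h2⟩ := m3 x ⟨hx, hxS⟩ r L hr hL0 hL
    obtain ⟨g1, g2, -⟩ := hgrad x ⟨hx, hxS⟩
    rw [(hge x ⟨hx, hxS⟩).fderiv_eq, hgn x hxS]
    refine ⟨h1, h2.trans ?_, fun w C hC => ?_⟩
    · gcongr
      linarith
    · refine (m4 x ⟨hx, hxS⟩ r L hr hL0 hL w C hC).trans ?_
      gcongr

end P073.SM
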