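import Vale.Agent.P073.SM.Spec2
import Vale.Agent.P073.SegCompl

/-!
# P073, block SMA: bijectivity (part BJ)
-/

namespace P073.SM

open Set Metric Topology Filter MeasureTheory
open scoped ENNReal ContDiff
open Vale.Agent.P073 (LipOn PII DirMonotoneAt bijective_of_near_id
  exists_openPartialHomeomorph_of_injective)
open Vale.Agent.P073.SMV (HomeoOn DiffeoOn RegAt ClassOne AdmMeas PosHom')

/-- fine closeness with an explicit distance -/
theorem bij_of_close {Ω Λ : Set E3} (hΩ : IsOpen Ω) (hΛ : IsOpen Λ)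
    (hΛc : IsPreconnected Λ) (hΛn : Λᶜ.Nonempty) {f h : E3 → E3} (hk : HomeoOn Ω Λ f h)
    {g : E3 → E3} (hg : ∀ x ∈ Ω, RegAt g x)
    (hgf : ∀ x ∈ Ω, ‖g x - f x‖ ≤ (1 / 4) * min (infDist (f x) Λᶜ) 1) :
    BijOn g Ω Λ ∧ ∃ k : E3 → E3, ContDiffOn ℝ ∞ k Λ ∧ InvOn k g Ω Λ := by
  have hgs : ContDiffOn ℝ ∞ g Ω := fun x hx => (hg x hx).1.contDiffWithinAt
  have hinj : ∀ x ∈ Ω, ∀ v, fderiv ℝ g x v = 0 → v = 0 := fun x hx v hv =>
    (hg x hx).2 (by rw [hv, map_zero])
  have hhΩ : ∀ y ∈ Λ, h y ∈ Ω := hk.maps'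
  have hnear : ∀ y ∈ Λ, ‖g (h y) - y‖ ≤ (1 / 4) * min (infDist y Λᶜ) 1 := by
    intro y hy
    have := hgf (h y) (hhΩ y hy)
    rwa [hk.right y hy] at this
  have hmaps : ∀ y ∈ Λ, g (h y) ∈ Λ := by
    intro y hy
    have hpos : 0 < infDist y Λᶜ :=
      (hΛ.isClosed_compl.notMem_iff_infDist_pos hΛn).1 (by simpa using hy)
    have h1 := hnear y hy
    have h2 : min (infDist y Λᶜ) 1 ≤ infDist y Λᶜ := min_le_left _ _
    apply ball_infDist_compl_subset (x := y)
    rw [mem_ball, dist_eq_norm]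
    linarith
  let p : Λ → Λ := fun y => ⟨g (h y), hmaps y y.2⟩
  have hpcont : Continuous p := by
    apply Continuous.subtype_mk
    have h1 : Continuous fun y : Λ => h y := hk.cont'.domRestrict
    exact hgs.continuousOn.comp_continuous h1 fun y => hhΩ y y.2
  have hgloc : IsLocalHomeomorphOn g Ω := by
    intro x hx
    obtain ⟨e, hxe, he, -, -⟩ := exists_openPartialHomeomorph_of_injective hΩ hgs hx (hinj x hx)
    exact ⟨e, hxe, funext fun z => (he z).symm⟩
  let e : Λ ≃ₜ Ω :=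
    { toFun := fun y => ⟨h y, hhΩ y y.2⟩
      invFun := fun x => ⟨f x, hk.maps x.2⟩
      left_inv := fun y => Subtype.ext (hk.right y y.2)
      right_inv := fun x => Subtype.ext (hk.left x x.2)
      continuous_toFun := by
        apply Continuous.subtype_mk
        exact hk.cont'.domRestrict
      continuous_invFun := by
        apply Continuous.subtype_mk
        exact hk.cont.domRestrict }
  have hploc : IsLocalHomeomorph p := by
    have h1 : IsLocalHomeomorph ((↑) : Λ → E3) := hΛ.isOpenEmbedding_subtypeVal.isLocalHomeomorph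
    have h2 : IsLocalHomeomorph ((↑) : Ω → E3) := hΩ.isOpenEmbedding_subtypeVal.isLocalHomeomorph
    have h3 : IsLocalHomeomorph (g ∘ ((↑) : Ω → E3)) := by
      rw [isLocalHomeomorph_iff_isLocalHomeomorphOn_univ]
      exact hgloc.comp h2.isLocalHomeomorphOn (fun x _ => x.2)
    have h4 : IsLocalHomeomorph ((g ∘ ((↑) : Ω → E3)) ∘ e) := h3.comp e.isLocalHomeomorph
    exact IsLocalHomeomorph.of_comp (f := p) (g := ((↑) : Λ → E3)) h4 h1 hpcont
  have hbij := bijective_of_near_id hΛ hΛc hΛn p hploc fun y => hnear y y.2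
  have hbijOn : BijOn g Ω Λ := by
    refine ⟨?_, ?_, ?_⟩
    · intro x hx
      have := hmaps (f x) (hk.maps hx)
      rwa [hk.left x hx] at this
    · intro x hx x' hx' hxx
      have : p ⟨f x, hk.maps hx⟩ = p ⟨f x', hk.maps hx'⟩ := by
        apply Subtype.ext
        simp only [p]
        rw [hk.left x hx, hk.left x' hx', hxx]
      have h2 := congrArg Subtype.val (hbij.1 this)
      have h3 : f x = f x' := h2
      rw [← hk.left x hx, h3, hk.left x' hx']
    · intro w hw
      obtain ⟨y, hy⟩ := hbij.2 ⟨w, hw⟩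
      exact ⟨h y, hhΩ y y.2, congrArg Subtype.val hy⟩
  have hinvOn : InvOn (Function.invFunOn g Ω) g Ω Λ := hbijOn.invOn_invFunOn
  refine ⟨hbijOn, Function.invFunOn g Ω, ?_, hinvOn⟩
  intro w hw
  apply ContDiffAt.contDiffWithinAt
  obtain ⟨x, hx, rfl⟩ := hbijOn.surjOn hw
  obtain ⟨e', hxe, he, hes, hsm⟩ :=
    exists_openPartialHomeomorph_of_injective hΩ hgs hx (hinj x hx)
  refine hsm.congr_of_eventuallyEq ?_
  have hgx : g x ∈ e'.target := by
    rw [← he x]; exact e'.map_source hxe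
  filter_upwards [e'.open_target.mem_nhds hgx, hΛ.mem_nhds hw] with z hz hzΛ
  have hzs : e'.symm z ∈ Ω := hes (e'.map_target hz)
  have hgz : g (e'.symm z) = z := by rw [← he]; exact e'.right_inv hz
  have hgz' : g (Function.invFunOn g Ω z) = z := hinvOn.2 hzΛ
  have hmem : Function.invFunOn g Ω z ∈ Ω := hbijOn.surjOn.mapsTo_invFunOn hzΛ
  exact hbijOn.injOn hmem hzs (hgz'.trans hgz.symm)

/-- a set with at most one point near every point of a compact set -/
theorem finite_inter_of_discIn {Ω S K : Set E3} (hd : ∀ x ∈ Ω, ∃ r > 0, ∀ y ∈ ball x r, y ≠ x →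
    y ∉ S) (hK : K ⊆ Ω) (hKc : IsCompact K) : (S ∩ K).Finite := by
  choose! r hr hrS using hd
  obtain ⟨t, ht, hKt⟩ := hKc.elim_nhds_subcover (fun x => ball x (r x))
    (fun x hx => ball_mem_nhds x (hr x (hK hx)))
  refine (t.finite_toSet).subset fun y hy => ?_
  obtain ⟨x, hxt, hyx⟩ := mem_iUnion₂.1 (hKt hy.2)
  by_contra hne
  have hyx' : y ≠ x := fun h => hne (h ▸ hxt)
  exact hrS x (hK (ht x hxt)) y hyx hyx' hy.1

/-- the lower bound for a conical homeomorphism at a point -/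
theorem Input.lower {Ω Λ : Set E3} {h k : E3 → E3} (H : Input Ω Λ h k) {v : E3} (hv : v ∈ Ω) :
    ∃ c > 0, ∃ r > 0, ball v r ⊆ Ω ∧ ∀ y ∈ ball v r, c * ‖y - v‖ ≤ ‖h y - h v‖ := by
  have Hv : ConicalAt h v := H.con.conicalAt H.openΩ hv
  obtain ⟨r0, hr0, h0⟩ := Hv
  obtain ⟨r1, hr1, h1⟩ := Metric.isOpen_iff.1 H.openΩ v hv
  set r := min r0 (r1 / 2) with hr
  have hrpos : 0 < r := lt_min hr0 (by positivity)
  have hrr1 : r < r1 := (min_le_right _ _).trans_lt (by linarith)
  have hinj : ∀ x ∈ Ω, ∀ y ∈ Ω, h x = h y → x = y := by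
    intro x hx y hy hxy
    rw [← H.homeo.left x hx, hxy, H.homeo.left y hy]
  have hmem : ∀ w : E3, ‖w‖ ≤ r → v + w ∈ Ω := fun w hw => h1 (by
    rw [mem_ball, dist_eq_norm, add_sub_cancel_left]; exact hw.trans_lt hrr1)
  obtain ⟨w0, hw0, hmin⟩ : ∃ w0 ∈ sphere (0 : E3) r, IsMinOn (fun w => ‖h (v + w) - h v‖)
      (sphere (0 : E3) r) w0 := by
    apply (isCompact_sphere (0 : E3) r).exists_isMinOn
    · exact NormedSpace.sphere_nonempty.2 hrpos.le
    · refine ContinuousOn.norm (ContinuousOn.sub ?_ continuousOn_const)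
      refine H.homeo.cont.comp (by fun_prop) fun w hw => hmem w ?_
      rw [mem_sphere_zero_iff_norm] at hw
      exact hw.le
  rw [mem_sphere_zero_iff_norm] at hw0
  set m := ‖h (v + w0) - h v‖ with hm
  have hmpos : 0 < m := by
    rw [hm, norm_pos_iff, sub_ne_zero]
    intro he
    have := hinj _ (hmem w0 hw0.le) v hv he
    rw [add_eq_left] at this
    rw [this, norm_zero] at hw0
    exact hrpos.ne hw0
  refine ⟨m / r, by positivity, r, hrpos, fun y hy => h1 (ball_subset_ball hrr1.le hy), ?_⟩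
  intro y hy
  rw [mem_ball, dist_eq_norm] at hy
  rcases eq_or_ne y v with rfl | hyv
  · simp
  set w := y - v with hw
  have hwpos : 0 < ‖w‖ := norm_pos_iff.2 (sub_ne_zero.2 hyv)
  set u := (r / ‖w‖) • w with hu
  have hun : ‖u‖ = r := by
    rw [hu, norm_smul, Real.norm_of_nonneg (by positivity), div_mul_cancel₀ _ hwpos.ne']
  have e1 := h0 u (by rw [hun]; exact min_le_left _ _) (‖w‖ / r)
    ⟨by positivity, (div_le_one hrpos).2 hy.le⟩
  have e2 : (‖w‖ / r) • u = w := by
    rw [hu, smul_smul, div_mul_div_comm, mul_comm, div_self (by positivity), one_smul]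
  have e3 : v + w = y := by rw [hw]; abel
  rw [e2, e3] at e1
  rw [e1, add_sub_cancel_left, norm_smul, Real.norm_of_nonneg (by positivity)]
  have e4 : m ≤ ‖h (v + u) - h v‖ := hmin (by rw [mem_sphere_zero_iff_norm]; exact hun)
  calc m / r * ‖w‖ = ‖w‖ / r * m := by ring
    _ ≤ _ := by gcongr

/-- the cone of a map which is homogeneous near `v` -/
theorem exists_cone {Ω S : Set E3} (hΩ : IsOpen Ω)
    (hd : ∀ x ∈ Ω, ∃ r > 0, ∀ y ∈ ball x r, y ≠ x → y ∉ S) {g : E3 → E3}
    (hg : ∀ x ∈ Ω, x ∉ S → RegAt g x) (hh : HomNear g S) {v : E3} (hv : v ∈ Ω) (hvS : v ∈ S) :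
    ∃ (H : E3 → E3) (r : ℝ), 0 < r ∧ PosHom' H ∧ (∀ x, x ≠ 0 → RegAt H x) ∧
      ∀ x, ‖x‖ ≤ r → g (v + x) = g v + H x := by
  obtain ⟨r0, hr0, h0⟩ := hh v hvS
  obtain ⟨r1, hr1, h1⟩ := Metric.isOpen_iff.1 hΩ v hv
  obtain ⟨r2, hr2, h2⟩ := hd v hv
  set r := min (r0 / 2) (min (r1 / 2) (r2 / 2)) with hr
  have hrpos : 0 < r := by rw [hr]; positivity
  have hrr0 : r < r0 := (min_le_left _ _).trans_lt (by linarith)
  have hrr1 : r < r1 := ((min_le_right _ _).trans (min_le_left _ _)).trans_lt (by linarith)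
  have hrr2 : r < r2 := ((min_le_right _ _).trans (min_le_right _ _)).trans_lt (by linarith)
  let H : E3 → E3 := fun x => (‖x‖ / r) • (g (v + (r / ‖x‖) • x) - g v)
  have hH : ∀ x, ‖x‖ ≤ r → g (v + x) = g v + H x := by
    intro x hx
    rcases eq_or_ne x 0 with rfl | hx0
    · simp [H]
    have hxpos : 0 < ‖x‖ := norm_pos_iff.2 hx0
    have hun : ‖(r / ‖x‖) • x‖ = r := by
      rw [norm_smul, Real.norm_of_nonneg (by positivity), div_mul_cancel₀ _ hxpos.ne']
    have e1 := h0 ((r / ‖x‖) • x) (by rw [hun]; exact hrr0) (‖x‖ / r)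
      ⟨by positivity, (div_le_one hrpos).2 hx⟩
    have e2 : (‖x‖ / r) • (r / ‖x‖) • x = x := by
      rw [smul_smul, div_mul_div_comm, mul_comm, div_self (by positivity), one_smul]
    rw [e2] at e1
    exact e1
  have hhom : PosHom' H := by
    intro c hc x
    rcases eq_or_ne x 0 with rfl | hx0
    · simp [H]
    have hxpos : 0 < ‖x‖ := norm_pos_iff.2 hx0
    have e1 : ‖c • x‖ = c * ‖x‖ := by rw [norm_smul, Real.norm_of_nonneg hc.le]
    have e2 : (r / (c * ‖x‖)) • c • x = (r / ‖x‖) • x := by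
      rw [smul_smul]
      congr 1
      field_simp
    simp only [H, e1, e2, smul_smul]
    congr 1
    ring
  refine ⟨H, r, hrpos, hhom, ?_, hH⟩
  intro x hx0
  have hxpos : 0 < ‖x‖ := norm_pos_iff.2 hx0
  set c := r / (2 * ‖x‖) with hc
  have hcpos : 0 < c := by positivity
  have hcx : ‖c • x‖ = r / 2 := by
    rw [norm_smul, Real.norm_of_nonneg hcpos.le, hc]
    field_simp
  have hmem : v + c • x ∈ Ω := h1 (by
    rw [mem_ball, dist_eq_norm, add_sub_cancel_left, hcx]; linarith)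
  have hnS : v + c • x ∉ S := h2 _ (by
    rw [mem_ball, dist_eq_norm, add_sub_cancel_left, hcx]; linarith) (by
    intro he
    rw [add_eq_left] at he
    rw [he, norm_zero] at hcx
    linarith)
  have hreg := hg _ hmem hnS
  have hev : H =ᶠ[𝓝 x] fun z => c⁻¹ • (g (v + c • z) - g v) := by
    have hc' : ∀ᶠ z in 𝓝 x, ‖c • z‖ < r := by
      have : Continuous fun z : E3 => ‖c • z‖ := by fun_prop
      exact this.continuousAt.eventually_lt_const (by show ‖c • x‖ < r; rw [hcx]; linarith)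
    filter_upwards [hc'] with z hz
    rw [hH _ hz.le, add_sub_cancel_left, hhom c hcpos, smul_smul, inv_mul_cancel₀ hcpos.ne',
      one_smul]
  have hfd : HasFDerivAt (fun z => c⁻¹ • (g (v + c • z) - g v)) (fderiv ℝ g (v + c • x)) x := by
    have e1 : HasFDerivAt g (fderiv ℝ g (v + c • x)) (v + c • x) :=
      (hreg.1.differentiableAt (by simp)).hasFDerivAt
    have e2 : HasFDerivAt (fun z : E3 => v + c • z) (c • ContinuousLinearMap.id ℝ E3) x :=
      ((hasFDerivAt_id x).const_smul c).const_add v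
    have e3 : HasFDerivAt (fun z => g (v + c • z)) _ x := HasFDerivAt.comp x e1 e2
    refine ((e3.sub_const (g v)).const_smul c⁻¹).congr_fderiv ?_
    ext1 w
    simp [smul_smul, inv_mul_cancel₀ hcpos.ne']
  refine ⟨?_, ?_⟩
  · refine ContDiffAt.congr_of_eventuallyEq ?_ hev
    have e1 : ContDiffAt ℝ ∞ (fun z : E3 => g (v + c • z)) x := by
      refine ContDiffAt.comp (g := g) (f := fun z : E3 => v + c • z) x hreg.1 ?_
      fun_prop
    exact (e1.sub contDiffAt_const).const_smul c⁻¹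
  · rw [hev.fderiv_eq, hfd.fderiv]
    exact hreg.2

/-- **BJ** -/
theorem specBJ : SpecBJ := by
  intro Ω Λ h k H
  set S := stratum h Ω 0 with hS
  have hSΩ : S ⊆ Ω := fun x hx => hx.1
  have hdisc : ∀ x ∈ Ω, ∃ r > 0, ∀ y ∈ ball x r, y ≠ x → y ∉ S := fun x hx =>
    stratum_zero_discrete H.openΩ H.con hx
  have hΩ' : IsOpen (Ω \ S) := by
    have h1 := isOpen_stratum_gt H.openΩ H.con 0
    have h2 : Ω \ S = {x ∈ Ω | 0 < Module.finrank ℝ (linSpace h x)} := by
      ext x
      constructor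
      · rintro ⟨hx, hxS⟩
        exact ⟨hx, Nat.pos_of_ne_zero fun h0 => hxS ⟨hx, h0⟩⟩
      · rintro ⟨hx, hpos⟩
        exact ⟨hx, fun hxS => hpos.ne' hxS.2⟩
    rw [h2]
    exact h1
  have hinj : ∀ x ∈ Ω, ∀ y ∈ Ω, h x = h y → x = y := by
    intro x hx y hy hxy
    rw [← H.homeo.left x hx, hxy, H.homeo.left y hy]
  set Λ' := Λ \ h '' S with hΛ'
  have himage : Λ' = Λ ∩ k ⁻¹' (Ω \ S) := by
    ext y
    constructor
    · rintro ⟨hy, hyS⟩
      exact ⟨hy, H.homeo.maps' hy, fun hkS => hyS ⟨k y, hkS, H.homeo.right y hy⟩⟩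
    · rintro ⟨hy, hky, hkS⟩
      refine ⟨hy, ?_⟩
      rintro ⟨x, hxS, rfl⟩
      rw [H.homeo.left x (hSΩ hxS)] at hkS
      exact hkS hxS
  have hΛ'o : IsOpen Λ' := by
    rw [himage]
    exact H.homeo.cont'.isOpen_inter_preimage H.openΛ hΩ'
  have hhomeo : HomeoOn (Ω \ S) Λ' h k := by
    refine ⟨?_, ?_, fun x hx => H.homeo.left x hx.1, fun y hy => H.homeo.right y hy.1,
      H.homeo.cont.mono sdiff_subset, H.homeo.cont'.mono sdiff_subset⟩
    · rintro x ⟨hx, hxS⟩
      rw [himage]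
      refine ⟨H.homeo.maps hx, ?_⟩
      rw [mem_preimage, H.homeo.left x hx]
      exact ⟨hx, hxS⟩
    · intro y hy
      rw [himage] at hy
      exact hy.2
  have himg2 : h '' (Ω \ S) = Λ' := by
    apply Subset.antisymm
    · rintro _ ⟨x, hx, rfl⟩
      exact hhomeo.maps hx
    · intro y hy
      exact ⟨k y, hhomeo.maps' hy, hhomeo.right y hy⟩
  have hΛ'c : IsPreconnected Λ' := by
    rw [← himg2]
    have hpre : IsPreconnected (Ω \ S) := by
      have hls : Vale.Agent.P073.Sep.LocSegs Ω S := by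
        intro z hz
        obtain ⟨r, hr, hrS⟩ := hdisc z hz
        refine ⟨r, hr, {(z, z)}, ?_⟩
        rintro y ⟨hy, hyS⟩
        have : y = z := by
          by_contra hne
          exact hrS y hy hne hyS
        rw [this]
        simp [Vale.Agent.P073.Sep.segs]
      exact hls.preconn_diff (by simp) H.openΩ H.connΩ.isPreconnected
    exact hpre.image h hhomeo.cont
  have hΛ'n : Λ'ᶜ.Nonempty := by
    rw [nonempty_compl]
    intro he
    have h1 : Bornology.IsBounded (univ : Set E3) := by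
      rw [← he]
      exact H.bddΛ.subset sdiff_subset
    exact NormedSpace.unbounded_univ ℝ E3 h1
  have hpos : ∀ y ∈ Λ', 0 < infDist y Λ'ᶜ := fun y hy =>
    (hΛ'o.isClosed_compl.notMem_iff_infDist_pos hΛ'n).1 (by simpa using hy)
  let δ : E3 → ℝ := fun x => (1 / 8) * min (infDist (h x) Λ'ᶜ) 1
  have hvc : ∀ v ∈ S, h v ∈ Λ'ᶜ := fun v hv hvΛ => hvΛ.2 ⟨v, hv, rfl⟩
  have hδle : ∀ v ∈ S, ∀ x, δ x ≤ (1 / 8) * ‖h x - h v‖ := by
    intro v hv x
    have h1 : infDist (h x) Λ'ᶜ ≤ dist (h x) (h v) := infDist_le_dist_of_mem (hvc v hv)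
    rw [dist_eq_norm] at h1
    have h2 : min (infDist (h x) Λ'ᶜ) 1 ≤ infDist (h x) Λ'ᶜ := min_le_left _ _
    show (1 / 8) * min (infDist (h x) Λ'ᶜ) 1 ≤ _
    linarith
  refine ⟨δ, ⟨?_, ?_⟩, ?_⟩
  · -- lower bound off the vertices
    intro x hx hxS
    have hxpos : 0 < δ x := by
      have := hpos (h x) (hhomeo.maps ⟨hx, hxS⟩)
      show 0 < (1 / 8) * min (infDist (h x) Λ'ᶜ) 1
      positivity
    have hc : ContinuousAt δ x := by
      have h1 : ContinuousAt h x := H.homeo.cont.continuousAt (H.openΩ.mem_nhds hx)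
      have h2 : ContinuousAt (fun x => infDist (h x) Λ'ᶜ) x :=
        (continuous_infDist_pt _).continuousAt.comp h1
      exact continuousAt_const.mul (h2.min continuousAt_const)
    refine ⟨δ x / 2, by positivity, ?_⟩
    filter_upwards [hc.eventually_const_lt (show δ x / 2 < δ x by linarith)] with y hy using hy.le
  · -- lower bound near the vertices
    intro v hv
    obtain ⟨c, hc, r, hr, hrΩ, hlow⟩ := H.lower (hSΩ hv)
    -- a ball around `h v`
    obtain ⟨r2, hr2, h2⟩ := hdisc v (hSΩ hv)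
    have hkv : ContinuousAt k (h v) :=
      H.homeo.cont'.continuousAt (H.openΛ.mem_nhds (H.homeo.maps (hSΩ hv)))
    obtain ⟨R, hR, hRΛ⟩ : ∃ R > 0, ∀ y ∈ ball (h v) R, y ≠ h v → y ∈ Λ' := by
      have e1 : ∀ᶠ y in 𝓝 (h v), k y ∈ ball v r2 := by
        apply hkv.eventually
        rw [H.homeo.left v (hSΩ hv)]
        exact ball_mem_nhds v hr2
      have e2 : ∀ᶠ y in 𝓝 (h v), y ∈ Λ := H.openΛ.mem_nhds (H.homeo.maps (hSΩ hv))
      obtain ⟨R, hR, hRb⟩ := Metric.eventually_nhds_iff_ball.1 (e1.and e2)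
      refine ⟨R, hR, fun y hy hyv => ?_⟩
      obtain ⟨a1, a2⟩ := hRb y hy
      rw [himage]
      refine ⟨a2, H.homeo.maps' a2, h2 _ a1 fun he => hyv ?_⟩
      rw [← H.homeo.right y a2, he]
    have hhv : ContinuousAt h v := H.homeo.cont.continuousAt (H.openΩ.mem_nhds (hSΩ hv))
    have e3 : ∀ᶠ y in 𝓝 v, dist (h y) (h v) < R / 2 :=
      hhv.eventually (ball_mem_nhds (h v) (by positivity))
    have e4 : ∀ᶠ y in 𝓝 v, c * ‖y - v‖ < 1 := by
      have : Continuous fun y : E3 => c * ‖y - v‖ := by fun_prop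
      exact this.continuousAt.eventually_lt_const (by simp)
    refine ⟨c / 8, by positivity, ?_⟩
    filter_upwards [e3, e4, ball_mem_nhds v hr] with y h3 h4 h5
    have h6 := hlow y h5
    have h7 : ‖h y - h v‖ ≤ infDist (h y) Λ'ᶜ := by
      rw [le_infDist hΛ'n]
      intro u hu
      rcases eq_or_ne u (h v) with rfl | hne
      · rw [dist_eq_norm]
      · have h8 : u ∉ ball (h v) R := fun hb => hu (hRΛ u hb hne)
        rw [mem_ball, not_lt] at h8
        have h9 := dist_triangle_left u (h v) (h y)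
        rw [← dist_eq_norm]
        linarith
    show c / 8 * ‖y - v‖ ≤ (1 / 8) * min (infDist (h y) Λ'ᶜ) 1
    have h10 : c * ‖y - v‖ ≤ min (infDist (h y) Λ'ᶜ) 1 := le_min (h6.trans h7) h4.le
    linarith
  · -- the map
    intro g hreg hgv hhom hclose
    obtain ⟨hbij, k0, hk0, hinv⟩ := bij_of_close hΩ' hΛ'o hΛ'c hΛ'n hhomeo
      (g := g) (fun x hx => hreg x hx.1 hx.2) (fun x hx => by
        refine (hclose x hx.1 hx.2).le.trans ?_
        show (1 / 8) * min (infDist (h x) Λ'ᶜ) 1 ≤ _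
        have : 0 ≤ min (infDist (h x) Λ'ᶜ) 1 := le_min infDist_nonneg zero_le_one
        linarith)
    -- the difference at all points
    have hdiff : ∀ v ∈ S, ∀ x ∈ Ω, ‖g x - h x‖ ≤ (1 / 8) * ‖h x - h v‖ := by
      intro v hv x hx
      by_cases hxS : x ∈ S
      · rw [hgv x hxS, sub_self, norm_zero]
        positivity
      · exact (hclose x hx hxS).le.trans (hδle v hv x)
    classical
    let k' : E3 → E3 := fun y => if y ∈ Λ' then k0 y else k y
    have hmaps : MapsTo g Ω Λ := by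
      intro x hx
      by_cases hxS : x ∈ S
      · rw [hgv x hxS]; exact H.homeo.maps hx
      · exact (hbij.mapsTo ⟨hx, hxS⟩).1
    have hk'1 : ∀ y ∈ Λ', k' y ∈ Ω \ S ∧ g (k' y) = y := by
      intro y hy
      simp only [k', if_pos hy]
      obtain ⟨x, hx, rfl⟩ := hbij.surjOn hy
      rw [hinv.1 hx]
      exact ⟨hx, rfl⟩
    have hk'2 : ∀ y ∈ Λ, y ∉ Λ' → k' y ∈ S ∧ g (k' y) = y := by
      intro y hy hyΛ
      have hyS : y ∈ h '' S := by
        by_contra hno
        exact hyΛ ⟨hy, hno⟩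
      obtain ⟨x, hxS, rfl⟩ := hyS
      simp only [k', if_neg hyΛ]
      rw [H.homeo.left x (hSΩ hxS)]
      exact ⟨hxS, hgv x hxS⟩
    have hright : ∀ y ∈ Λ, g (k' y) = y := by
      intro y hy
      by_cases hyΛ : y ∈ Λ'
      · exact (hk'1 y hyΛ).2
      · exact (hk'2 y hy hyΛ).2
    have hmaps' : MapsTo k' Λ Ω := by
      intro y hy
      by_cases hyΛ : y ∈ Λ'
      · exact (hk'1 y hyΛ).1.1
      · exact hSΩ (hk'2 y hy hyΛ).1
    have hleft : ∀ x ∈ Ω, k' (g x) = x := by
      intro x hx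
      by_cases hxS : x ∈ S
      · have hn : g x ∉ Λ' := by rw [hgv x hxS]; exact hvc x hxS
        simp only [k', if_neg hn]
        rw [hgv x hxS, H.homeo.left x hx]
      · have hn : g x ∈ Λ' := hbij.mapsTo ⟨hx, hxS⟩
        simp only [k', if_pos hn]
        exact hinv.1 ⟨hx, hxS⟩
    have hcont : ContinuousOn g Ω := by
      intro x hx
      apply ContinuousAt.continuousWithinAt
      by_cases hxS : x ∈ S
      · have hhx : ContinuousAt h x := H.homeo.cont.continuousAt (H.openΩ.mem_nhds hx)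
        have e1 : Tendsto (fun y => (1 / 8) * ‖h y - h x‖) (𝓝 x) (𝓝 0) := by
          have : Tendsto (fun y => (1 / 8) * ‖h y - h x‖) (𝓝 x) (𝓝 ((1 / 8) * ‖h x - h x‖)) :=
            ((hhx.tendsto.sub_const (h x)).norm.const_mul (1 / 8))
          simpa using this
        have e2 : Tendsto (fun y => g y - h y) (𝓝 x) (𝓝 0) := by
          refine squeeze_zero_norm' ?_ e1
          filter_upwards [H.openΩ.mem_nhds hx] with y hy using hdiff x hxS y hy
        have e3 : Tendsto (fun y => (g y - h y) + h y) (𝓝 x) (𝓝 (0 + h x)) :=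
          e2.add hhx.tendsto
        rw [zero_add, ← hgv x hxS] at e3
        simpa [ContinuousAt] using e3
      · exact (hreg x hx hxS).1.continuousAt
    have hcont' : ContinuousOn k' Λ := by
      intro y hy
      apply ContinuousAt.continuousWithinAt
      by_cases hyΛ : y ∈ Λ'
      · have e1 : k' =ᶠ[𝓝 y] k0 := by
          filter_upwards [hΛ'o.mem_nhds hyΛ] with z hz
          simp only [k', if_pos hz]
        exact (hk0.continuousOn.continuousAt (hΛ'o.mem_nhds hyΛ)).congr e1.symm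
      · obtain ⟨hvS, hvy⟩ := hk'2 y hy hyΛ
        set v := k' y with hv
        have hvΩ := hSΩ hvS
        rw [hgv v hvS] at hvy
        -- `h (k' z) → h v`
        have e1 : ∀ z ∈ Λ, ‖h (k' z) - h v‖ ≤ 2 * ‖z - y‖ := by
          intro z hz
          have a1 := hdiff v hvS (k' z) (hmaps' hz)
          rw [hright z hz] at a1
          have a2 : ‖h (k' z) - h v‖ ≤ ‖z - h (k' z)‖ + ‖z - y‖ := by
            have : h (k' z) - h v = -(z - h (k' z)) + (z - y) := by rw [hvy]; abel
            rw [this]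
            refine (norm_add_le _ _).trans ?_
            rw [norm_neg]
          have a3 := norm_nonneg (z - y)
          linarith
        have e2 : Tendsto (fun z => h (k' z)) (𝓝 y) (𝓝 (h v)) := by
          rw [tendsto_iff_norm_sub_tendsto_zero]
          have e3 : Tendsto (fun z : E3 => 2 * ‖z - y‖) (𝓝 y) (𝓝 0) := by
            have : Continuous fun z : E3 => 2 * ‖z - y‖ := by fun_prop
            simpa using this.tendsto y
          refine squeeze_zero' (Eventually.of_forall fun _ => norm_nonneg _) ?_ e3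
          filter_upwards [H.openΛ.mem_nhds hy] with z hz using e1 z hz
        have e4 : ContinuousAt k (h v) :=
          H.homeo.cont'.continuousAt (H.openΛ.mem_nhds (H.homeo.maps hvΩ))
        have e5 : Tendsto (fun z => k (h (k' z))) (𝓝 y) (𝓝 (k (h v))) := e4.tendsto.comp e2
        rw [H.homeo.left v hvΩ] at e5
        refine (e5.congr' ?_)
        filter_upwards [H.openΛ.mem_nhds hy] with z hz
        exact H.homeo.left _ (hmaps' hz)
    exact ⟨k', ⟨⟨hmaps, hmaps', hleft, hright, hcont, hcont'⟩, hSΩ,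
      fun K hK hKc => finite_inter_of_discIn hdisc hK hKc, hreg,
      fun v hv => exists_cone H.openΩ hdisc hreg hhom (hSΩ hv) hv⟩⟩

end P073.SM
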