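import Vale.Agent.P073.SM.Spec

/-!
# P073, block SMA, part DM: two `C¹` maps glued along a plane are directionally monotone
-/

namespace P073.SM

open Set Metric Topology Filter
open scoped ContDiff InnerProductSpace NNReal
open Vale.Agent.P073 (DirMonotoneAt)

/-- a closed half space form of the gluing hypothesis: values of increments -/
theorem exists_crossing {ℓ : E3 →L[ℝ] ℝ} {p x h : E3} {t : ℝ} (ht : 0 < t)
    (h1 : 0 ≤ ℓ (x - p)) (h2 : ℓ (x + t • h - p) ≤ 0) :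
    ∃ u ∈ Icc 0 t, ℓ (x + u • h - p) = 0 := by
  have hc : ContinuousOn (fun u : ℝ => ℓ (x + u • h - p)) (Icc 0 t) := by fun_prop
  have := intermediate_value_Icc' ht.le hc
  obtain ⟨u, hu, hu0⟩ := this (show (0:ℝ) ∈ Icc (ℓ (x + t • h - p)) (ℓ (x + (0:ℝ) • h - p)) from
    ⟨h2, by simpa using h1⟩)
  exact ⟨u, hu, hu0⟩

theorem exists_normal {a b : E3} (hab : ∀ s ∈ Icc (0:ℝ) 1, s • a + (1 - s) • b ≠ 0) :
    ∃ n : E3, 2 ≤ ⟪n, a⟫_ℝ ∧ 2 ≤ ⟪n, b⟫_ℝ := by
  have h0 : (0 : E3) ∉ segment ℝ a b := by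
    rintro ⟨s, s', hs, hs', hss, h⟩
    refine hab s ⟨hs, by linarith⟩ ?_
    rw [← h]
    congr 2
    linarith
  have hcl : IsClosed (segment ℝ a b) := by
    rw [segment_eq_image']
    exact (isCompact_Icc.image (by fun_prop)).isClosed
  obtain ⟨φ, u, hu1, hu2⟩ := geometric_hahn_banach_point_closed (convex_segment a b) hcl h0
  rw [map_zero] at hu1
  refine ⟨(2 / u) • (InnerProductSpace.toDual ℝ E3).symm φ, ?_, ?_⟩
  · rw [inner_smul_left, InnerProductSpace.toDual_symm_apply]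
    have := hu2 a (left_mem_segment ℝ a b)
    simp only [conj_trivial]
    rw [div_mul_eq_mul_div, le_div_iff₀ hu1]
    linarith
  · rw [inner_smul_left, InnerProductSpace.toDual_symm_apply]
    have := hu2 b (right_mem_segment ℝ a b)
    simp only [conj_trivial]
    rw [div_mul_eq_mul_div, le_div_iff₀ hu1]
    linarith

/-- increments of the glued map along a segment which starts in the positive half space -/
theorem glued_incr {f G G' : E3 → E3} {A A' : E3 →L[ℝ] E3} {ℓ : E3 →L[ℝ] ℝ} {p : E3} {r ε : ℝ}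
    (hf : ∀ x ∈ ball p r, (0 ≤ ℓ (x - p) → f x = G x) ∧ (ℓ (x - p) ≤ 0 → f x = G' x))
    (hG : ∀ x ∈ ball p r, ∀ y ∈ ball p r, ‖G y - G x - A (y - x)‖ ≤ ε * ‖y - x‖)
    (hG' : ∀ x ∈ ball p r, ∀ y ∈ ball p r, ‖G' y - G' x - A' (y - x)‖ ≤ ε * ‖y - x‖)
    {x h : E3} {t : ℝ} (ht : 0 < t) (hx : x ∈ ball p r) (hy : x + t • h ∈ ball p r)
    (hxl : 0 ≤ ℓ (x - p)) :
    ∃ u ∈ Icc 0 t, ‖f (x + t • h) - f x - (u • A h + (t - u) • A' h)‖ ≤ ε * (t * ‖h‖) := by
  by_cases hyl : 0 ≤ ℓ (x + t • h - p)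
  · refine ⟨t, ⟨ht.le, le_refl _⟩, ?_⟩
    have := hG x hx _ hy
    rw [add_sub_cancel_left, norm_smul, Real.norm_of_nonneg ht.le, map_smul] at this
    rw [(hf x hx).1 hxl, (hf _ hy).1 hyl, sub_self, zero_smul, add_zero]
    exact this
  · push Not at hyl
    obtain ⟨u, hu, hu0⟩ := exists_crossing ht hxl hyl.le
    have hz : x + u • h ∈ ball p r := by
      have h1 := (convex_ball p r).add_smul_mem hx hy (t := u / t)
        ⟨div_nonneg hu.1 ht.le, (div_le_one ht).2 hu.2⟩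
      rwa [smul_smul, div_mul_cancel₀ _ ht.ne'] at h1
    refine ⟨u, hu, ?_⟩
    have h1 := hG x hx _ hz
    have h2 := hG' _ hz _ hy
    have e1 : x + t • h - (x + u • h) = (t - u) • h := by module
    rw [add_sub_cancel_left, norm_smul, Real.norm_of_nonneg hu.1, map_smul] at h1
    rw [e1, norm_smul, Real.norm_of_nonneg (sub_nonneg.2 hu.2), map_smul] at h2
    rw [(hf x hx).1 hxl, (hf _ hy).2 hyl.le]
    have e2 : G (x + u • h) = G' (x + u • h) := by
      rw [← (hf _ hz).1 hu0.ge, ← (hf _ hz).2 hu0.le]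
    have e3 : G' (x + t • h) - G x - (u • A h + (t - u) • A' h) =
        (G' (x + t • h) - G' (x + u • h) - (t - u) • A' h) +
        (G (x + u • h) - G x - u • A h) := by
      rw [e2]; abel
    rw [e3]
    calc _ ≤ _ := norm_add_le _ _
      _ ≤ ε * ((t - u) * ‖h‖) + ε * (u * ‖h‖) := add_le_add h2 h1
      _ = ε * (t * ‖h‖) := by ring

theorem specDM : SpecDM := by
  intro f G G' p ℓ hG hG' hf hinj
  have hsG := hG.hasStrictFDerivAt (by simp)
  have hsG' := hG'.hasStrictFDerivAt (by simp)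
  set A := fderiv ℝ G p with hA
  set A' := fderiv ℝ G' p with hA'
  -- the estimate with a given `ε`
  have key : ∀ ε : ℝ, 0 < ε → ∃ r > 0, ∀ x h : E3, ∀ t : ℝ, 0 < t → x ∈ ball p r →
      x + t • h ∈ ball p r → ∃ u ∈ Icc 0 t,
      ‖f (x + t • h) - f x - (u • A h + (t - u) • A' h)‖ ≤ ε * (t * ‖h‖) := by
    intro ε hε
    have e1 := hsG.isLittleO.def hε
    have e2 := hsG'.isLittleO.def hε
    have e3 : ∀ᶠ q : E3 × E3 in 𝓝 (p, p), ((0 ≤ ℓ (q.1 - p) → f q.1 = G q.1) ∧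
        (ℓ (q.1 - p) ≤ 0 → f q.1 = G' q.1)) :=
      (continuous_fst.tendsto (p, p)).eventually hf
    obtain ⟨r, hr, hb⟩ := Metric.eventually_nhds_iff_ball.1 (e1.and (e2.and e3))
    have hb' : ∀ x ∈ ball p r, ∀ y ∈ ball p r, (y, x) ∈ ball (p, p) r := by
      intro x hx y hy
      rw [← ball_prod_same]
      exact ⟨hy, hx⟩
    have hf' : ∀ x ∈ ball p r, (0 ≤ ℓ (x - p) → f x = G x) ∧ (ℓ (x - p) ≤ 0 → f x = G' x) :=
      fun x hx => (hb _ (hb' x hx x hx)).2.2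
    have hG1 : ∀ x ∈ ball p r, ∀ y ∈ ball p r, ‖G y - G x - A (y - x)‖ ≤ ε * ‖y - x‖ :=
      fun x hx y hy => (hb _ (hb' x hx y hy)).1
    have hG2 : ∀ x ∈ ball p r, ∀ y ∈ ball p r, ‖G' y - G' x - A' (y - x)‖ ≤ ε * ‖y - x‖ :=
      fun x hx y hy => (hb _ (hb' x hx y hy)).2.1
    refine ⟨r, hr, fun x h t ht hx hy => ?_⟩
    rcases le_total 0 (ℓ (x - p)) with hxl | hxl
    · exact glued_incr hf' hG1 hG2 ht hx hy hxl
    · -- exchange the roles
      obtain ⟨u, hu, h1⟩ := glued_incr (f := f) (G := G') (G' := G) (A := A') (A' := A) (ℓ := -ℓ)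
        (p := p) (r := r) (ε := ε)
        (fun x hx => ⟨fun h => (hf' x hx).2 (by simpa using h),
          fun h => (hf' x hx).1 (by simpa using h)⟩) hG2 hG1 ht hx hy (by simpa using hxl)
      refine ⟨t - u, ⟨sub_nonneg.2 hu.2, by linarith [hu.1]⟩, ?_⟩
      rw [sub_sub_cancel, add_comm ((t - u) • A h)]
      exact h1
  constructor
  · -- Lipschitz
    obtain ⟨r, hr, hk⟩ := key 1 one_pos
    refine ⟨ball p r, ball_mem_nhds p hr, (‖A‖₊ + ‖A'‖₊ + 1), ?_⟩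
    refine LipschitzOnWith.of_dist_le_mul fun y hy x hx => ?_
    obtain ⟨u, hu, h1⟩ := hk x (y - x) 1 one_pos hx (by rwa [one_smul, add_sub_cancel])
    rw [one_smul, add_sub_cancel, one_mul, one_mul] at h1
    rw [dist_eq_norm, dist_eq_norm]
    push_cast
    have n1 : ‖A (y - x)‖ ≤ ‖A‖ * ‖y - x‖ := A.le_opNorm _
    have n2 : ‖A' (y - x)‖ ≤ ‖A'‖ * ‖y - x‖ := A'.le_opNorm _
    have e1 : f y - f x = (f y - f x - (u • A (y - x) + (1 - u) • A' (y - x))) +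
        (u • A (y - x) + (1 - u) • A' (y - x)) := by abel
    rw [e1]
    have n3 : ‖u • A (y - x)‖ ≤ ‖A‖ * ‖y - x‖ := by
      rw [norm_smul, Real.norm_of_nonneg hu.1]
      exact (mul_le_of_le_one_left (norm_nonneg _) hu.2).trans n1
    have n4 : ‖(1 - u) • A' (y - x)‖ ≤ ‖A'‖ * ‖y - x‖ := by
      rw [norm_smul, Real.norm_of_nonneg (sub_nonneg.2 hu.2)]
      exact (mul_le_of_le_one_left (norm_nonneg _) (by linarith [hu.1])).trans n2
    calc _ ≤ ‖f y - f x - (u • A (y - x) + (1 - u) • A' (y - x))‖ +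
          ‖u • A (y - x) + (1 - u) • A' (y - x)‖ := norm_add_le _ _
      _ ≤ ‖y - x‖ + (‖u • A (y - x)‖ + ‖(1 - u) • A' (y - x)‖) :=
          add_le_add h1 (norm_add_le _ _)
      _ ≤ ‖y - x‖ + (‖A‖ * ‖y - x‖ + ‖A'‖ * ‖y - x‖) := by gcongr
      _ = (‖A‖ + ‖A'‖ + 1) * ‖y - x‖ := by ring
  · intro h hh
    obtain ⟨n, hn1, hn2⟩ := exists_normal (a := A h) (b := A' h) fun s hs h0 =>
      hh (hinj s hs h h0)
    have hε : 0 < 1 / (1 + ‖n‖ * ‖h‖) := by positivity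
    obtain ⟨r, hr, hk⟩ := key _ hε
    refine ⟨n, ball p r, ball_mem_nhds p hr, fun x hx t ht hy => ?_⟩
    obtain ⟨u, hu, h1⟩ := hk x h t ht hx hy
    have e1 : f (x + t • h) - f x = (f (x + t • h) - f x - (u • A h + (t - u) • A' h)) +
        (u • A h + (t - u) • A' h) := by abel
    rw [e1, inner_add_right, inner_add_right, inner_smul_right, inner_smul_right]
    have h2 : -(‖n‖ * ‖f (x + t • h) - f x - (u • A h + (t - u) • A' h)‖) ≤
        ⟪n, f (x + t • h) - f x - (u • A h + (t - u) • A' h)⟫_ℝ :=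
      (abs_le.1 (abs_real_inner_le_norm _ _)).1
    have h3 : ‖n‖ * ‖f (x + t • h) - f x - (u • A h + (t - u) • A' h)‖ ≤ t := by
      calc _ ≤ ‖n‖ * (1 / (1 + ‖n‖ * ‖h‖) * (t * ‖h‖)) := by gcongr
        _ = t * ((‖n‖ * ‖h‖) / (1 + ‖n‖ * ‖h‖)) := by ring
        _ ≤ t * 1 := by
            gcongr
            rw [div_le_one (by positivity)]
            linarith
        _ = t := mul_one t
    have h4 : u * 2 ≤ u * ⟪n, A h⟫_ℝ := mul_le_mul_of_nonneg_left hn1 hu.1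
    have h5 : (t - u) * 2 ≤ (t - u) * ⟪n, A' h⟫_ℝ :=
      mul_le_mul_of_nonneg_left hn2 (sub_nonneg.2 hu.2)
    linarith

end P073.SM
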