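import Vale.Agent.P073.SM.Spec2
import Vale.Agent.P073.SM.DM

/-!
# P073, block SMA, part CR: points of the strata 2 and 3 are directionally monotone
-/

namespace P073.SM

open Set Metric Topology Filter Module
open Vale.Agent.P073 (DirMonotoneAt)
open Vale.Agent.P073.SMV (HomeoOn)

/-- the tangent cone map of a conical homeomorphism is injective -/
theorem tcone_inj {Ω Λ : Set E3} {h k : E3 → E3} (H : Input Ω Λ h k) {x : E3} (hx : x ∈ Ω)
    {v w : E3} (hvw : tcone h x v = tcone h x w) : v = w := by
  have hC := H.con.conicalAt H.openΩ hx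
  obtain ⟨r, hr, hrH⟩ := hC.exists_tcone
  obtain ⟨ρ, hρ, hb⟩ := Metric.isOpen_iff.1 H.openΩ x hx
  set s : ℝ := min r (ρ / 2) / (‖v‖ + ‖w‖ + 1) with hs
  have hpos : 0 < ‖v‖ + ‖w‖ + 1 := by positivity
  have hm : 0 < min r (ρ / 2) := lt_min hr (by linarith)
  have hs0 : 0 < s := div_pos hm hpos
  have hsn : ∀ u : E3, ‖u‖ ≤ ‖v‖ + ‖w‖ + 1 → ‖s • u‖ ≤ min r (ρ / 2) := by
    intro u hu
    rw [norm_smul, Real.norm_of_nonneg hs0.le, hs, div_mul_eq_mul_div, div_le_iff₀ hpos]
    exact mul_le_mul_of_nonneg_left hu hm.le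
  have hsv := hsn v (by linarith [norm_nonneg w])
  have hsw := hsn w (by linarith [norm_nonneg v])
  have hmem : ∀ u : E3, ‖s • u‖ ≤ min r (ρ / 2) → x + s • u ∈ Ω := by
    intro u hu
    apply hb
    rw [mem_ball, dist_eq_norm, add_sub_cancel_left]
    have := hu.trans (min_le_right _ _)
    linarith
  have e1 := hrH (s • v) (hsv.trans (min_le_left _ _))
  have e2 := hrH (s • w) (hsw.trans (min_le_left _ _))
  rw [hC.tcone_smul hs0.le] at e1 e2
  have e3 : h (x + s • v) = h (x + s • w) := by rw [e1, e2, hvw]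
  have e4 : x + s • v = x + s • w := by
    rw [← H.homeo.left _ (hmem v hsv), ← H.homeo.left _ (hmem w hsw), e3]
  have e5 : s • v = s • w := add_left_cancel e4
  exact smul_right_injective _ hs0.ne' e5

theorem fderiv_affine (c : E3) (L : E3 →L[ℝ] E3) (x p : E3) :
    fderiv ℝ (fun y => c + L (y - x)) p = L := by
  have h1 : HasFDerivAt (fun y : E3 => y - x) (ContinuousLinearMap.id ℝ E3) p :=
    (hasFDerivAt_id p).sub_const x
  have h2 := (L.hasFDerivAt (x := p - x)).comp p h1
  have h3 : HasFDerivAt (fun y => c + L (y - x)) (L.comp (ContinuousLinearMap.id ℝ E3)) p :=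
    h2.const_add c
  rw [h3.fderiv, ContinuousLinearMap.comp_id]

theorem contDiffAt_affine (c : E3) (L : E3 →L[ℝ] E3) (x p : E3) :
    ContDiffAt ℝ 1 (fun y => c + L (y - x)) p := by
  fun_prop

theorem specCR : SpecCR := by
  intro Ω Λ h k H x hx h2
  have hC := H.con.conicalAt H.openΩ hx
  obtain ⟨r, hr, hrH⟩ := hC.exists_tcone
  have h3 : finrank ℝ E3 = 3 := finrank_euclideanSpace_fin
  have hle : finrank ℝ (linSpace h x) ≤ 3 := (Submodule.finrank_le _).trans_eq h3
  have hball : ∀ᶠ y in 𝓝 x, h y = h x + tcone h x (y - x) := by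
    filter_upwards [ball_mem_nhds x hr] with y hy
    have h4 := hrH (y - x) (by rw [← dist_eq_norm]; exact (mem_ball.1 hy).le)
    rwa [add_sub_cancel] at h4
  rcases (by omega : finrank ℝ (linSpace h x) = 3 ∨ finrank ℝ (linSpace h x) = 2) with h4 | h4
  · -- affine
    obtain ⟨L, hL⟩ := tcone_isLinear_of_finrank_eq (h := h) (x := x) (h4.trans h3.symm)
    set L' : E3 →L[ℝ] E3 := LinearMap.toContinuousLinearMap L with hL'
    have hL2 : ∀ v, L' v = tcone h x v := fun v => (hL v).symm
    refine specDM h (fun y => h x + L' (y - x)) (fun y => h x + L' (y - x)) x 0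
      (contDiffAt_affine _ _ _ _) (contDiffAt_affine _ _ _ _) ?_ ?_
    · filter_upwards [hball] with y hy
      have hy' : h y = h x + L' (y - x) := by rw [hL2]; exact hy
      exact ⟨fun _ => hy', fun _ => hy'⟩
    · intro s _ v hv
      rw [fderiv_affine] at hv
      have h5 : L' v = 0 := by
        have : s • L' v + (1 - s) • L' v = L' v := by module
        rw [← this, hv]
      rw [hL2] at h5
      exact tcone_inj H hx (h5.trans (tcone_zero h x).symm)
  · -- a crease
    obtain ⟨n, hn⟩ : ∃ n, n ∉ linSpace h x := by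
      by_contra hcon
      push Not at hcon
      have : linSpace h x = ⊤ := eq_top_iff.2 fun v _ => hcon v
      rw [this, finrank_top, h3] at h4
      omega
    -- the functional
    obtain ⟨ℓ, hℓn, hℓW⟩ : ∃ ℓ : E3 →ₗ[ℝ] ℝ, ℓ n = 1 ∧ ∀ w ∈ linSpace h x, ℓ w = 0 := by
      obtain ⟨f, hf1, hf2⟩ := Submodule.exists_le_ker_of_notMem hn
      refine ⟨(f n)⁻¹ • f, by simp [hf1], fun w hw => ?_⟩
      have := hf2 hw
      rw [LinearMap.mem_ker] at this
      simp [this]
    have hker : ∀ v, v - ℓ v • n ∈ linSpace h x := by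
      have h5 : linSpace h x = LinearMap.ker ℓ := by
        apply Submodule.eq_of_le_of_finrank_eq
        · intro w hw
          exact LinearMap.mem_ker.2 (hℓW w hw)
        · have h6 : LinearMap.range ℓ = ⊤ := by
            rw [LinearMap.range_eq_top]
            intro a
            exact ⟨a • n, by simp [hℓn]⟩
          have h7 := LinearMap.finrank_range_add_finrank_ker ℓ
          rw [h6, finrank_top, finrank_self, h3] at h7
          omega
      intro v
      rw [h5, LinearMap.mem_ker, map_sub, map_smul, hℓn]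
      simp
    -- the linear part
    set Pr : E3 →ₗ[ℝ] linSpace h x :=
      (LinearMap.id - ℓ.smulRight n).codRestrict (linSpace h x) (fun v => by
        simpa using hker v) with hPr
    have hPr' : ∀ v, ((Pr v : linSpace h x) : E3) = v - ℓ v • n := by
      intro v; simp [hPr]
    set T := tcone h x with hT
    set Lp : E3 →ₗ[ℝ] E3 := (tconeLin h x).comp Pr + ℓ.smulRight (T n) with hLp
    set Lm : E3 →ₗ[ℝ] E3 := (tconeLin h x).comp Pr - ℓ.smulRight (T (-n)) with hLm
    have hLp' : ∀ v, Lp v = T (v - ℓ v • n) + ℓ v • T n := by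
      intro v; simp [hLp, hPr', hT]
    have hLm' : ∀ v, Lm v = T (v - ℓ v • n) - ℓ v • T (-n) := by
      intro v; simp [hLm, hPr', hT]
    have hTv : ∀ v, T v = T (v - ℓ v • n) + (max (ℓ v) 0) • T n + (max (-ℓ v) 0) • T (-n) := by
      intro v
      have := tcone_codim_one hC (n := n) (hker v) (ℓ v)
      rwa [sub_add_cancel] at this
    set Lp2 : E3 →L[ℝ] E3 := LinearMap.toContinuousLinearMap Lp with hLp2
    set Lm2 : E3 →L[ℝ] E3 := LinearMap.toContinuousLinearMap Lm with hLm2
    set ℓ2 : E3 →L[ℝ] ℝ := LinearMap.toContinuousLinearMap ℓ with hℓ2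
    have eLp : ∀ v, Lp2 v = Lp v := fun _ => rfl
    have eLm : ∀ v, Lm2 v = Lm v := fun _ => rfl
    have eℓ : ∀ v, ℓ2 v = ℓ v := fun _ => rfl
    refine specDM h (fun y => h x + Lp2 (y - x)) (fun y => h x + Lm2 (y - x)) x ℓ2
      (contDiffAt_affine _ _ _ _) (contDiffAt_affine _ _ _ _) ?_ ?_
    · filter_upwards [hball] with y hy
      rw [eℓ, eLp, eLm]
      constructor
      · intro hpos
        rw [hy, hTv, max_eq_left hpos, max_eq_right (neg_nonpos.2 hpos), zero_smul, add_zero,
          hLp']
      · intro hneg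
        rw [hy, hTv, max_eq_right hneg, max_eq_left (neg_nonneg.2 hneg), zero_smul, add_zero,
          hLm', neg_smul]
        abel
    · intro s hs v hv
      rw [fderiv_affine, fderiv_affine, eLp, eLm, hLp', hLm'] at hv
      by_cases ha : ℓ v = 0
      · rw [ha] at hv
        simp only [zero_smul, sub_zero, add_zero] at hv
        have h5 : T v = 0 := by
          have : s • T v + (1 - s) • T v = T v := by module
          rw [← this, hv]
        exact tcone_inj H hx (h5.trans (tcone_zero h x).symm)
      · exfalso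
        set a := ℓ v with haa
        set w := v - a • n with hw
        have hwW : w ∈ linSpace h x := hker v
        have hwW' : a⁻¹ • w ∈ linSpace h x := Submodule.smul_mem _ _ hwW
        have e1 : T (a⁻¹ • w) + s • T n = (1 - s) • T (-n) := by
          have h6 : T (a⁻¹ • w) = a⁻¹ • T w := tcone_smul_of_mem hwW _
          have h7 : T w + a • (s • T n - (1 - s) • T (-n)) = 0 := by
            rw [← hv]; module
          have h8 : a⁻¹ • (T w + a • (s • T n - (1 - s) • T (-n))) = 0 := by
            rw [h7, smul_zero]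
          rw [smul_add, smul_smul, inv_mul_cancel₀ ha, one_smul, ← h6] at h8
          have h9 : T (a⁻¹ • w) + s • T n - (1 - s) • T (-n) = 0 := by
            rw [← h8]; abel
          exact sub_eq_zero.1 h9
        have e2 : T (s • n + a⁻¹ • w) = T ((1 - s) • (-n)) := by
          have f1 : T (s • n + a⁻¹ • w) = T (s • n) + T (a⁻¹ • w) := tcone_add_of_mem hwW' _
          have f2 : T (s • n) = s • T n := hC.tcone_smul hs.1 n
          have f3 : T ((1 - s) • (-n)) = (1 - s) • T (-n) :=
            hC.tcone_smul (sub_nonneg.2 hs.2) (-n)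
          rw [f1, f2, f3, add_comm, e1]
        have e3 := tcone_inj H hx e2
        have e4 : n = -(a⁻¹ • w) := by
          have : n = (s • n + a⁻¹ • w) - (1 - s) • (-n) - a⁻¹ • w := by module
          rw [this, e3]
          module
        exact hn (by rw [e4]; exact Submodule.neg_mem _ hwW')

end P073.SM
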