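import Vale.Agent.P073.SM.Spec

/-!
# P073, SMA: translation to the form of SMV/Spec.lean
-/

namespace P073.SM

open Set Metric Topology Filter MeasureTheory
open Vale.Agent.P073.SMV (HomeoOn SpecEF)

theorem input_of_conHomeo {Ω Λ : Set E3} (h : ConHomeo Ω Λ) (h1 : IsOpen Ω) (h2 : IsConnected Ω)
    (h3 : Bornology.IsBounded Ω) (h4 : IsOpen Λ) (h5 : Bornology.IsBounded Λ) :
    Input Ω Λ h.toFun h.invFun where
  openΩ := h1
  openΛ := h4
  bddΩ := h3
  bddΛ := h5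
  connΩ := h2
  homeo := ⟨h.mapsTo, h.mapsTo_inv, h.left_inv, h.right_inv, h.cont, h.cont_inv⟩
  con := h.conical

/-- `SpecEF` from its pointwise form. -/
theorem specEF_of (H : SpecEF') : SpecEF := by
  intro Ω Λ h p μ τ η ε hp h1 h2 h3 h4 h5 hcon hη hεc hε
  exact H Ω Λ h.toFun h.invFun (input_of_conHomeo h h1 h2 h3 h4 h5) p μ τ η ε hp hcon.1 hcon.2.1
    hcon.2.2 hη hεc hε

end P073.SM
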