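import Vale.Agent.P073.SM.EX2

/-!
# P073, block SM, part EX: the edge form
-/

namespace P073.SM.EX

open Set Metric Topology Filter
open scoped ComplexConjugate

/-- a linear piece of `g` on a half plane through `z` is seen in every direction -/
theorem piece {X : Type*} [NormedAddCommGroup X] [NormedSpace ℝ X] {g : ℂ → X} {A : ℂ →L[ℝ] X}
    {ℓ : ℂ →L[ℝ] ℝ} {z : ℂ} (hz : ℓ z = 0) (H : ∀ᶠ w in 𝓝 z, 0 ≤ ℓ w → g w = A w) (u : ℂ) :
    ∃ s : ℝ, s ≠ 0 ∧ g (z + s • u) - g z = s • A u := by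
  have hc : Tendsto (fun s : ℝ => z + s • u) (𝓝 0) (𝓝 z) := by
    have h1 : Continuous (fun s : ℝ => z + s • u) := by fun_prop
    have := h1.tendsto 0
    simpa using this
  have h0 : g z = A z := H.self_of_nhds hz.ge
  obtain ⟨ε, hε, hb⟩ := Metric.eventually_nhds_iff_ball.1 (hc.eventually H)
  rcases le_total 0 (ℓ u) with h1 | h1
  · refine ⟨ε / 2, by positivity, ?_⟩
    have := hb (ε / 2) (by
      rw [mem_ball_zero_iff, Real.norm_of_nonneg (by linarith)]; linarith) (by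
      rw [map_add, map_smul, hz, smul_eq_mul, zero_add]; positivity)
    rw [this, h0, map_add, map_smul, add_sub_cancel_left]
  · refine ⟨-(ε / 2), by simpa using hε.ne', ?_⟩
    have := hb (-(ε / 2)) (by
      rw [mem_ball_zero_iff, norm_neg, Real.norm_of_nonneg (by linarith)]; linarith) (by
      rw [map_add, map_smul, hz, smul_eq_mul, zero_add]; nlinarith)
    rw [this, h0, map_add, map_smul, add_sub_cancel_left]

theorem piece_le {X : Type*} [NormedAddCommGroup X] [NormedSpace ℝ X] {g : ℂ → X} {A : ℂ →L[ℝ] X}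
    {ℓ : ℂ →L[ℝ] ℝ} {z : ℂ} (hz : ℓ z = 0) (H : ∀ᶠ w in 𝓝 z, 0 ≤ ℓ w → g w = A w) {C : ℝ}
    (hC : ∀ v w, ‖g v - g w‖ ≤ C * ‖v - w‖) (u : ℂ) : ‖A u‖ ≤ C * ‖u‖ := by
  obtain ⟨s, hs, h1⟩ := piece hz H u
  have h2 := hC (z + s • u) z
  rw [h1, add_sub_cancel_left, norm_smul, norm_smul] at h2
  have hs' : 0 < ‖s‖ := norm_pos_iff.2 hs
  refine le_of_mul_le_mul_left ?_ hs'
  calc _ ≤ _ := h2
    _ = _ := by ring

theorem piece_ge {X : Type*} [NormedAddCommGroup X] [NormedSpace ℝ X] {g : ℂ → X} {A : ℂ →L[ℝ] X}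
    {ℓ : ℂ →L[ℝ] ℝ} {z : ℂ} (hz : ℓ z = 0) (H : ∀ᶠ w in 𝓝 z, 0 ≤ ℓ w → g w = A w) {c : ℝ}
    (hC : ∀ v w, c * ‖v - w‖ ≤ ‖g v - g w‖) (u : ℂ) : c * ‖u‖ ≤ ‖A u‖ := by
  obtain ⟨s, hs, h1⟩ := piece hz H u
  have h2 := hC (z + s • u) z
  rw [h1, add_sub_cancel_left, norm_smul, norm_smul] at h2
  have hs' : 0 < ‖s‖ := norm_pos_iff.2 hs
  refine le_of_mul_le_mul_left ?_ hs'
  calc ‖s‖ * (c * ‖u‖) = c * (‖s‖ * ‖u‖) := by ring
    _ ≤ _ := h2

/-- the planar form of a map of `ℂ × ℝ` commuting with the translations of `ℝ` -/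
theorem planar_of (G : ℂ × ℝ → ℂ × ℝ) (g1 : ∀ z x, G (z, x) = G (z, 0) + (0, x))
    {c C : ℝ} (hc : 0 < c) (g2 : ∀ p q, c * ‖p - q‖ ≤ ‖G p - G q‖)
    (g2' : ∀ p q, ‖G p - G q‖ ≤ C * ‖p - q‖)
    (g3 : ∀ t : ℝ, 0 ≤ t → ∀ p, G (t • p) = t • G p)
    (g4 : ∀ᶠ p in 𝓝 ((-1 : ℂ), (0:ℝ)), G p = p)
    (g5 : ∀ z : ℂ, z ≠ 0 → ∃ (N N' : ℂ × ℝ →L[ℝ] ℂ × ℝ) (ℓ : ℂ × ℝ →L[ℝ] ℝ), ℓ (z, 0) = 0 ∧
      ∀ᶠ p in 𝓝 (z, (0:ℝ)), (0 ≤ ℓ p → G p = N p) ∧ (ℓ p ≤ 0 → G p = N' p)) :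
    Planar (fun z => (G (z, 0)).1) (fun z => (G (z, 0)).2) (min (c ^ 2) c) C := by
  set F : ℂ → ℂ := fun z => (G (z, 0)).1 with hF
  set f : ℂ → ℝ := fun z => (G (z, 0)).2 with hf
  have hG : ∀ z x, G (z, x) = (F z, f z + x) := by
    intro z x
    rw [g1]
    ext <;> simp [hF, hf]
  have hlow : ∀ z w, c * ‖z - w‖ ≤ ‖F z - F w‖ := by
    intro z w
    have h1 := g2 (z, f w - f z) (w, 0)
    rw [hG, hG, Prod.mk_sub_mk, Prod.mk_sub_mk] at h1
    have h2 : f z + (f w - f z) - (f w + 0) = 0 := by ring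
    rw [h2, Prod.norm_mk, Prod.norm_mk, norm_zero, max_eq_left (norm_nonneg (F z - F w))] at h1
    refine le_trans ?_ h1
    gcongr
    exact le_max_left _ _
  have hup : ∀ z w, ‖F z - F w‖ ≤ C * ‖z - w‖ ∧ ‖f z - f w‖ ≤ C * ‖z - w‖ := by
    intro z w
    have h1 := g2' (z, 0) (w, 0)
    rw [hG, hG, Prod.mk_sub_mk, Prod.mk_sub_mk, sub_self, add_zero, add_zero, Prod.norm_mk,
      Prod.norm_mk, norm_zero, max_eq_left (norm_nonneg (z - w))] at h1
    exact ⟨(le_max_left _ _).trans h1, (le_max_right _ _).trans h1⟩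
  have hhom : ∀ t : ℝ, 0 ≤ t → ∀ z, F (t • z) = t • F z ∧ f (t • z) = t • f z := by
    intro t ht z
    have h1 := g3 t ht (z, 0)
    rw [Prod.smul_mk, smul_zero, hG, hG, Prod.smul_mk, add_zero, add_zero] at h1
    exact ⟨congrArg Prod.fst h1, congrArg Prod.snd h1⟩
  have hF0 : F 0 = 0 := by
    have := (hhom 0 le_rfl 0).1
    rwa [zero_smul, zero_smul] at this
  have hf0 : f 0 = 0 := by
    have := (hhom 0 le_rfl 0).2
    rwa [zero_smul, zero_smul] at this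
  have hC0 : 0 < C := by
    have h1 := (hlow 1 0).trans (hup 1 0).1
    rw [sub_zero, norm_one] at h1
    linarith
  have hinj : Function.Injective F := by
    intro z w hzw
    have h1 := hlow z w
    rw [hzw, sub_self, norm_zero] at h1
    have h2 : ‖z - w‖ ≤ 0 := by
      by_contra hcon
      push Not at hcon
      nlinarith
    exact sub_eq_zero.1 (norm_le_zero_iff.1 h2)
  have hcontF : Continuous F := by
    refine (LipschitzWith.of_dist_le_mul (K := ⟨C, hC0.le⟩) fun z w => ?_).continuous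
    rw [dist_eq_norm, dist_eq_norm]
    exact (hup z w).1
  have hcontf : Continuous f := by
    refine (LipschitzWith.of_dist_le_mul (K := ⟨C, hC0.le⟩) fun z w => ?_).continuous
    rw [dist_eq_norm, dist_eq_norm]
    exact (hup z w).2
  obtain ⟨ε, hε, hb⟩ := Metric.eventually_nhds_iff_ball.1 g4
  have hid : ∀ z ∈ ball (-1 : ℂ) ε, F z = z ∧ f z = 0 := by
    intro z hz
    have h1 := hb (z, 0) (by
      rw [mem_ball, dist_eq_norm, Prod.mk_sub_mk, sub_self, Prod.norm_mk, norm_zero,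
        max_eq_left (norm_nonneg _), ← dist_eq_norm]
      exact hz)
    rw [hG, add_zero] at h1
    exact ⟨congrArg Prod.fst h1, congrArg Prod.snd h1⟩
  -- the local pieces
  have hloc : ∀ z : ℂ, z ≠ 0 → ∃ (A A' : ℂ →L[ℝ] ℂ) (α α' : ℂ →L[ℝ] ℝ) (ℓ : ℂ →L[ℝ] ℝ), ℓ z = 0 ∧
      (∀ᶠ w in 𝓝 z, (0 ≤ ℓ w → F w = A w ∧ f w = α w) ∧ (ℓ w ≤ 0 → F w = A' w ∧ f w = α' w)) := by
    intro z hz
    obtain ⟨N, N', ℓ, hℓ, H⟩ := g5 z hz
    let i : ℂ →L[ℝ] ℂ × ℝ := ContinuousLinearMap.inl ℝ ℂ ℝ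
    refine ⟨(ContinuousLinearMap.fst ℝ ℂ ℝ).comp (N.comp i),
      (ContinuousLinearMap.fst ℝ ℂ ℝ).comp (N'.comp i),
      (ContinuousLinearMap.snd ℝ ℂ ℝ).comp (N.comp i),
      (ContinuousLinearMap.snd ℝ ℂ ℝ).comp (N'.comp i), ℓ.comp i, by simpa [i] using hℓ, ?_⟩
    have hc : Tendsto (fun w : ℂ => (w, (0:ℝ))) (𝓝 z) (𝓝 (z, (0:ℝ))) :=
      (by fun_prop : Continuous (fun w : ℂ => (w, (0:ℝ)))).tendsto z
    filter_upwards [hc.eventually H] with w hw
    refine ⟨fun h => ?_, fun h => ?_⟩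
    · have h1 := hw.1 (by simpa [i] using h)
      rw [hG, add_zero] at h1
      exact ⟨by simpa [i] using congrArg Prod.fst h1, by simpa [i] using congrArg Prod.snd h1⟩
    · have h1 := hw.2 (by simpa [i] using h)
      rw [hG, add_zero] at h1
      exact ⟨by simpa [i] using congrArg Prod.fst h1, by simpa [i] using congrArg Prod.snd h1⟩
  choose A A' α α' ℓ hℓ H using hloc
  have Hp : ∀ z hz, ∀ᶠ w in 𝓝 z, 0 ≤ ℓ z hz w → F w = A z hz w := fun z hz => by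
    filter_upwards [H z hz] with w hw h using (hw.1 h).1
  have Hpα : ∀ z hz, ∀ᶠ w in 𝓝 z, 0 ≤ ℓ z hz w → f w = α z hz w := fun z hz => by
    filter_upwards [H z hz] with w hw h using (hw.1 h).2
  have Hn : ∀ z hz, ∀ᶠ w in 𝓝 z, 0 ≤ (-(ℓ z hz)) w → F w = A' z hz w := fun z hz => by
    filter_upwards [H z hz] with w hw h using (hw.2 (by simpa using h)).1
  have Hnα : ∀ z hz, ∀ᶠ w in 𝓝 z, 0 ≤ (-(ℓ z hz)) w → f w = α' z hz w := fun z hz => by
    filter_upwards [H z hz] with w hw h using (hw.2 (by simpa using h)).2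
  have hℓ' : ∀ z hz, (-(ℓ z hz)) z = 0 := fun z hz => by simp [hℓ z hz]
  have hU : ∀ z w, ‖F z - F w‖ ≤ C * ‖z - w‖ := fun z w => (hup z w).1
  have hUf : ∀ z w, ‖f z - f w‖ ≤ C * ‖z - w‖ := fun z w => (hup z w).2
  have hJA : ∀ z hz, c ^ 2 ≤ |J (A z hz)| := fun z hz =>
    abs_J_ge hc (piece_ge (hℓ z hz) (Hp z hz) hlow)
  have hJA' : ∀ z hz, c ^ 2 ≤ |J (A' z hz)| := fun z hz =>
    abs_J_ge hc (piece_ge (hℓ' z hz) (Hn z hz) hlow)
  have hc2 : 0 < c ^ 2 := by positivity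
  have hD : ∀ z : ℂ, ∀ hz : z ≠ 0, ∃ D : LocData F z, D.A = A z hz ∧ D.A' = A' z hz := by
    intro z hz
    obtain ⟨N, hN1, hN2, hN3⟩ := _root_.mem_nhds_iff.1 (H z hz)
    exact ⟨⟨A z hz, A' z hz, ℓ z hz, N, hN2, hN3, hℓ z hz, fun w hw h => ((hN1 hw).1 h).1,
      fun w hw h => ((hN1 hw).2 h).1⟩, rfl, rfl⟩
  choose D hDA hDA' using hD
  have hor := orientation hinj (isOpen_ball (x := (-1:ℂ)) (ε := ε)) (mem_ball_self hε)
    (by norm_num) (fun z hz => (hid z hz).1) D (fun z hz => by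
      rw [hDA, hDA']
      constructor
      · intro h0; have := hJA z hz; rw [h0, abs_zero] at this; linarith
      · intro h0; have := hJA' z hz; rw [h0, abs_zero] at this; linarith)
  have hposA : ∀ z hz, c ^ 2 ≤ J (A z hz) := by
    intro z hz
    have h1 := (hor z hz).1
    rw [hDA] at h1
    have h2 := hJA z hz
    rwa [abs_of_pos h1] at h2
  have hposA' : ∀ z hz, c ^ 2 ≤ J (A' z hz) := by
    intro z hz
    have h1 := (hor z hz).2
    rw [hDA'] at h1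
    have h2 := hJA' z hz
    rwa [abs_of_pos h1] at h2
  have hIm : ∀ (B : ℂ →L[ℝ] ℂ) (z : ℂ), c ^ 2 ≤ J B →
      min (c ^ 2) c * ‖z‖ ^ 2 ≤ (B (Complex.I * z) * (starRingEnd ℂ) (B z)).im := by
    intro B z hB
    rw [im_mul_conj, im_I_mul]
    gcongr
    exact (min_le_left _ _).trans hB
  refine ⟨lt_min hc2 hc, ?_, ?_, hinj, hcontF, hcontf, ?_, ?_, ?_, ?_, ?_⟩
  · intro t ht z
    have := (hhom t ht z).1
    rwa [Complex.real_smul, Complex.real_smul] at this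
  · intro t ht z
    have := (hhom t ht z).2
    rwa [Complex.real_smul, smul_eq_mul] at this
  · refine ⟨ε / 2, by positivity, fun z hz1 hz2 => ?_⟩
    set t := |z.re| with ht
    have ht0 : 0 < t := abs_pos.2 hz1.ne
    have hmem : t⁻¹ • z ∈ ball (-1 : ℂ) ε := by
      rw [mem_ball, dist_eq_norm]
      have h1 : t⁻¹ • z - -1 = ((z.im / t : ℝ) : ℂ) * Complex.I := by
        apply Complex.ext
        · have hre : z.re = -t := by
            have : t = -z.re := abs_of_neg hz1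
            linarith
          have e1 : t⁻¹ * t = 1 := inv_mul_cancel₀ ht0.ne'
          rw [Complex.sub_re, Complex.smul_re, hre, smul_eq_mul, mul_neg, e1]
          simp
        · rw [Complex.sub_im, Complex.smul_im, smul_eq_mul, Complex.mul_I_im, Complex.ofReal_re,
            Complex.neg_im, Complex.one_im]
          ring
      rw [h1, norm_mul, Complex.norm_I, mul_one, Complex.norm_real, Real.norm_eq_abs, abs_div,
        abs_of_pos ht0, div_lt_iff₀ ht0]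
      nlinarith
    have h1 := hid _ hmem
    have h2 := hhom t ht0.le (t⁻¹ • z)
    rw [smul_smul, mul_inv_cancel₀ ht0.ne', one_smul, h1.1, h1.2, smul_smul,
      mul_inv_cancel₀ ht0.ne', one_smul, smul_zero] at h2
    exact h2
  · intro z
    have := hlow z 0
    rw [hF0, sub_zero, sub_zero] at this
    refine le_trans ?_ this
    gcongr
    exact min_le_right _ _
  · intro z
    have := (hup z 0).1
    rwa [hF0, sub_zero, sub_zero] at this
  · intro z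
    have := (hup z 0).2
    rwa [hf0, sub_zero, sub_zero, Real.norm_eq_abs] at this
  · intro z hz
    refine ⟨A z hz, A' z hz, α z hz, α' z hz, ℓ z hz, hℓ z hz, H z hz, ?_, ?_, ?_, ?_,
      hIm _ _ (hposA z hz), hIm _ _ (hposA' z hz)⟩
    · exact ContinuousLinearMap.opNorm_le_bound _ hC0.le (piece_le (hℓ z hz) (Hp z hz) hU)
    · exact ContinuousLinearMap.opNorm_le_bound _ hC0.le (piece_le (hℓ' z hz) (Hn z hz) hU)
    · exact ContinuousLinearMap.opNorm_le_bound _ hC0.le (piece_le (hℓ z hz) (Hpα z hz) hUf)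
    · exact ContinuousLinearMap.opNorm_le_bound _ hC0.le (piece_le (hℓ' z hz) (Hnα z hz) hUf)

open Vale.Agent.P073.SMV (HomeoOn) in
/-- **(EX)** -/
theorem specEX_aux {Ω Λ : Set E3} {h k : E3 → E3} (I : Input Ω Λ h k) {y : E3}
    (hy1 : y ∈ stratum h Ω 1) :
    ∃ N : EdgeForm (tcone h y), ∀ v, (N.Ψ v).1 = 0 ↔ v ∈ linSpace h y := by
  have hy : y ∈ Ω := hy1.1
  have hrank : Module.finrank ℝ (linSpace h y) = 1 := hy1.2
  have Hy := I.con.conicalAt I.openΩ hy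
  have hE3 : Module.finrank ℝ E3 = 3 := finrank_euclideanSpace_fin
  -- the direction `a`
  obtain ⟨⟨a, haV⟩, ha0', haspan⟩ := finrank_eq_one_iff'.1 hrank
  have ha0 : a ≠ 0 := fun h0 => ha0' (Subtype.ext h0)
  have hspan : ∀ w ∈ linSpace h y, ∃ t : ℝ, t • a = w := by
    intro w hw
    obtain ⟨t, ht⟩ := haspan ⟨w, hw⟩
    exact ⟨t, congrArg Subtype.val ht⟩
  obtain ⟨r, hr, hb, hform, hin, hout, hle⟩ := exists_stratum_nhd I.openΩ I.con hy
  -- the regular direction `u₀`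
  obtain ⟨y', hy'Ω, hy'd, hy'top⟩ := exists_top_near' I.openΩ I.con hy hr
  obtain ⟨u₀, rfl⟩ : ∃ u₀, y' = y + u₀ := ⟨y' - y, by abel⟩
  rw [dist_eq_norm, add_sub_cancel_left] at hy'd
  have hu₀ : u₀ ∉ linSpace h y := by
    intro hu
    have h1 := (hin u₀ hy'd hu).2
    rw [hy'top] at h1
    rw [← h1, finrank_top, hE3] at hrank
    omega
  have Hy' := I.con.conicalAt I.openΩ hy'Ω
  obtain ⟨L0, hL0, hL0'⟩ := eventually_affine_of_top Hy' hy'top
  have hL0u : L0 u₀ = tcone h y u₀ := by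
    rw [← hL0]; exact tcone_near_self Hy hform hy'd Hy'
  have hL0a : L0 a = tcone h y a := by
    rw [← hL0]; exact tcone_near_eq_of_mem hform hy'd Hy' haV
  have hnear : ∀ᶠ w in 𝓝 u₀, tcone h y w = L0 w := by
    have e1 : ∀ᶠ w in 𝓝 u₀, ‖w‖ < r := (continuous_norm.continuousAt).eventually_lt_const hy'd
    have e2 : Tendsto (fun w : E3 => y + w) (𝓝 u₀) (𝓝 (y + u₀)) :=
      (by fun_prop : Continuous (fun w : E3 => y + w)).tendsto u₀
    filter_upwards [e1, e2.eventually hL0'] with w h1 h2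
    rw [hform w h1.le, hform u₀ hy'd.le, add_sub_add_left_eq_sub, map_sub, hL0u,
      add_assoc, add_sub_cancel] at h2
    exact add_left_cancel h2
  have hL0inj : Function.Injective L0 := by
    rw [injective_iff_map_eq_zero]
    intro w hw
    have hc : Tendsto (fun s : ℝ => u₀ + s • w) (𝓝[>] 0) (𝓝 u₀) := by
      have h1 : Continuous (fun s : ℝ => u₀ + s • w) := by fun_prop
      have := h1.tendsto 0
      rw [zero_smul, add_zero] at this
      exact this.mono_left nhdsWithin_le_nhds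
    obtain ⟨s, hs, h1⟩ := eventually_unique (hc.eventually hnear)
    rw [map_add, map_smul, hw, smul_zero, add_zero, hL0u] at h1
    have h2 := tcone_injective I hy h1
    have h3 : s • w = 0 := by simpa using h2
    exact (smul_eq_zero.1 h3).resolve_left hs.ne'
  let A0l : E3 ≃ₗ[ℝ] E3 := LinearEquiv.ofInjectiveEndo L0 hL0inj
  let A0 : E3 ≃L[ℝ] E3 := A0l.toContinuousLinearEquiv
  have hA0 : ∀ v, A0 v = L0 v := fun v => rfl
  -- the vector `u₁`
  obtain ⟨u₁, hu₁⟩ : ∃ u₁ : E3, u₁ ∉ Submodule.span ℝ ({u₀, a} : Set E3) := by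
    by_contra hcon
    push Not at hcon
    have htop : Submodule.span ℝ ({u₀, a} : Set E3) = ⊤ := Submodule.eq_top_iff'.2 hcon
    have h1 := finrank_span_le_card (R := ℝ) ({u₀, a} : Set E3)
    rw [htop, finrank_top, hE3] at h1
    have h2 : ({u₀, a} : Set E3).toFinset.card ≤ 2 := by
      classical
      calc ({u₀, a} : Set E3).toFinset.card = ({u₀, a} : Finset E3).card := by
            congr 1; ext; simp
        _ ≤ 2 := Finset.card_le_two
    omega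
  -- the linear coordinates
  let Θl : ℂ × ℝ →ₗ[ℝ] E3 :=
    { toFun := fun p => (-p.1.re) • u₀ + p.1.im • u₁ + p.2 • a
      map_add' := by
        intro p q
        simp only [Prod.fst_add, Prod.snd_add, Complex.add_re, Complex.add_im]
        module
      map_smul' := by
        intro t p
        simp only [Prod.smul_fst, Prod.smul_snd, Complex.smul_re, Complex.smul_im, smul_eq_mul,
          RingHom.id_apply]
        module }
  have hΘl : ∀ z x, Θl (z, x) = (-z.re) • u₀ + z.im • u₁ + x • a := fun z x => rfl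
  have hΘinj : Function.Injective Θl := by
    rw [injective_iff_map_eq_zero]
    rintro ⟨z, x⟩ h0
    rw [hΘl] at h0
    have him : z.im = 0 := by
      by_contra hne
      apply hu₁
      have : u₁ = (z.im)⁻¹ • (z.re • u₀ - x • a) := by
        rw [eq_inv_smul_iff₀ hne, ← sub_eq_zero, ← h0]; module
      rw [this]
      apply Submodule.smul_mem
      exact Submodule.sub_mem _ (Submodule.smul_mem _ _ (Submodule.subset_span (by simp)))
        (Submodule.smul_mem _ _ (Submodule.subset_span (by simp)))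
    rw [him, zero_smul, add_zero] at h0
    have hre : z.re = 0 := by
      by_contra hne
      apply hu₀
      have : u₀ = (z.re)⁻¹ • (x • a) := by
        rw [eq_inv_smul_iff₀ hne, ← sub_eq_zero, ← neg_eq_zero, ← h0]; module
      rw [this]
      exact Submodule.smul_mem _ _ (Submodule.smul_mem _ _ haV)
    rw [hre, neg_zero, zero_smul, zero_add] at h0
    have hx := (smul_eq_zero.1 h0).resolve_right ha0
    exact Prod.ext (Complex.ext hre him) hx
  let Θe : (ℂ × ℝ) ≃ₗ[ℝ] E3 := LinearMap.linearEquivOfInjective Θl hΘinj (by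
    rw [Module.finrank_prod, Complex.finrank_real_complex, Module.finrank_self, hE3])
  let Θ : (ℂ × ℝ) ≃L[ℝ] E3 := Θe.toContinuousLinearEquiv
  have hΘ : ∀ z x, Θ (z, x) = (-z.re) • u₀ + z.im • u₁ + x • a := fun z x => rfl
  have hΘsplit : ∀ z x, Θ (z, x) = Θ (z, 0) + x • a := by
    intro z x; rw [hΘ, hΘ]; module
  have hΘa : Θ (0, 1) = a := by rw [hΘ]; simp
  -- the map in coordinates
  let G : ℂ × ℝ → ℂ × ℝ := fun p => Θ.symm (A0.symm (tcone h y (Θ p)))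
  have hG : ∀ p, G p = Θ.symm (A0.symm (tcone h y (Θ p))) := fun p => rfl
  have hGinv : ∀ p, A0 (Θ (G p)) = tcone h y (Θ p) := by
    intro p
    rw [hG, Θ.apply_symm_apply, A0.apply_symm_apply]
  have g1 : ∀ z x, G (z, x) = G (z, 0) + (0, x) := by
    intro z x
    rw [hG, hG, hΘsplit z x, tcone_add_of_mem (Submodule.smul_mem _ _ haV),
      tcone_smul_of_mem haV, ← hL0a, ← hA0, map_add, map_add, map_smul, map_smul,
      A0.symm_apply_apply, add_right_inj, ← hΘa, Θ.symm_apply_apply]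
    simp
  obtain ⟨C1, hC10, hC1⟩ := tcone_lip I hy
  obtain ⟨c1, hc10, hc1⟩ := tcone_antilip I hy
  let Le : (ℂ × ℝ) ≃L[ℝ] E3 := Θ.trans A0
  have hLe : ∀ p, Le p = A0 (Θ p) := fun p => rfl
  have hLG : ∀ p, Le (G p) = tcone h y (Θ p) := hGinv
  -- bounds
  obtain ⟨m1, hm1, hm1'⟩ : ∃ m > 0, ∀ p : ℂ × ℝ, m * ‖p‖ ≤ ‖Θ p‖ := by
    refine ⟨(‖(Θ.symm : E3 →L[ℝ] ℂ × ℝ)‖ + 1)⁻¹, by positivity, fun p => ?_⟩
    rw [inv_mul_le_iff₀ (by positivity)]
    have h1 := (Θ.symm : E3 →L[ℝ] ℂ × ℝ).le_opNorm (Θ p)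
    rw [ContinuousLinearEquiv.coe_coe, Θ.symm_apply_apply] at h1
    nlinarith [norm_nonneg (Θ p)]
  obtain ⟨m2, hm2, hm2'⟩ : ∃ m > 0, ∀ p : ℂ × ℝ, m * ‖p‖ ≤ ‖Le p‖ := by
    refine ⟨(‖(Le.symm : E3 →L[ℝ] ℂ × ℝ)‖ + 1)⁻¹, by positivity, fun p => ?_⟩
    rw [inv_mul_le_iff₀ (by positivity)]
    have h1 := (Le.symm : E3 →L[ℝ] ℂ × ℝ).le_opNorm (Le p)
    rw [ContinuousLinearEquiv.coe_coe, Le.symm_apply_apply] at h1
    nlinarith [norm_nonneg (Le p)]
  have hM1 : ∀ p : ℂ × ℝ, ‖Θ p‖ ≤ ‖(Θ : ℂ × ℝ →L[ℝ] E3)‖ * ‖p‖ :=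
    fun p => (Θ : ℂ × ℝ →L[ℝ] E3).le_opNorm p
  have hM2 : ∀ p : ℂ × ℝ, ‖Le p‖ ≤ (‖(Le : ℂ × ℝ →L[ℝ] E3)‖ + 1) * ‖p‖ := by
    intro p
    have := (Le : ℂ × ℝ →L[ℝ] E3).le_opNorm p
    rw [ContinuousLinearEquiv.coe_coe] at this
    nlinarith [norm_nonneg p]
  have hM20 : 0 < ‖(Le : ℂ × ℝ →L[ℝ] E3)‖ + 1 := by positivity
  have g2 : ∀ p q, c1 * m1 / (‖(Le : ℂ × ℝ →L[ℝ] E3)‖ + 1) * ‖p - q‖ ≤ ‖G p - G q‖ := by
    intro p q
    have h1 := hc1 (Θ p) (Θ q)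
    rw [← map_sub, ← hLG, ← hLG, ← map_sub] at h1
    have h2 := hm1' (p - q)
    have h3 := hM2 (G p - G q)
    rw [div_mul_eq_mul_div, div_le_iff₀ hM20]
    calc c1 * m1 * ‖p - q‖ = c1 * (m1 * ‖p - q‖) := by ring
      _ ≤ c1 * ‖Θ (p - q)‖ := by gcongr
      _ ≤ _ := h1
      _ ≤ _ := h3
      _ = _ := by ring
  have g2' : ∀ p q, ‖G p - G q‖ ≤ m2⁻¹ * (C1 * ‖(Θ : ℂ × ℝ →L[ℝ] E3)‖) * ‖p - q‖ := by
    intro p q
    have h1 := hC1 (Θ p) (Θ q)
    rw [← map_sub, ← hLG, ← hLG, ← map_sub] at h1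
    have h2 := hM1 (p - q)
    have h3 := hm2' (G p - G q)
    rw [mul_assoc, le_inv_mul_iff₀ hm2]
    calc m2 * ‖G p - G q‖ ≤ _ := h3
      _ ≤ _ := h1
      _ ≤ C1 * (‖(Θ : ℂ × ℝ →L[ℝ] E3)‖ * ‖p - q‖) := by gcongr
      _ = _ := by ring
  have g3 : ∀ t : ℝ, 0 ≤ t → ∀ p, G (t • p) = t • G p := by
    intro t ht p
    rw [hG, hG, map_smul, Hy.tcone_smul ht, map_smul, map_smul]
  have g4 : ∀ᶠ p in 𝓝 ((-1 : ℂ), (0:ℝ)), G p = p := by
    have hc : Tendsto (fun p : ℂ × ℝ => Θ p) (𝓝 (-1, 0)) (𝓝 u₀) := by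
      have h1 := Θ.continuous.tendsto ((-1 : ℂ), (0:ℝ))
      have h2 : Θ ((-1 : ℂ), (0:ℝ)) = u₀ := by rw [hΘ]; simp
      rwa [h2] at h1
    filter_upwards [hc.eventually hnear] with p hp
    rw [hG, hp, ← hA0, A0.symm_apply_apply, Θ.symm_apply_apply]
  have g5 : ∀ z : ℂ, z ≠ 0 → ∃ (N N' : ℂ × ℝ →L[ℝ] ℂ × ℝ) (ℓ : ℂ × ℝ →L[ℝ] ℝ), ℓ (z, 0) = 0 ∧
      ∀ᶠ p in 𝓝 (z, (0:ℝ)), (0 ≤ ℓ p → G p = N p) ∧ (ℓ p ≤ 0 → G p = N' p) := by
    intro z hz
    have hv : Θ (z, 0) ∉ linSpace h y := by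
      intro hmem
      obtain ⟨t, ht⟩ := hspan _ hmem
      have h1 : Θ (z, 0) = Θ (0, t) := by rw [← ht, hΘ 0 t]; simp
      have h2 := Θ.injective h1
      exact hz (congrArg Prod.fst h2)
    obtain ⟨s, hs, -, hsr⟩ := exists_small r hr ‖Θ (z, 0)‖
    have hsv : ‖s • Θ (z, 0)‖ < r := by
      rw [norm_smul, Real.norm_of_nonneg hs.le]; exact hsr
    have hsv' : s • Θ (z, 0) ∉ linSpace h y := fun hmem =>
      hv ((Submodule.smul_mem_iff _ hs.ne').1 hmem)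
    have hk := hout _ hsv hsv'
    rw [hrank] at hk
    obtain ⟨M, M', ℓ, hℓ, H⟩ := tcone_local I hy hb hform hsv hk
    have hℓ0 : ℓ (Θ (z, 0)) = 0 := by
      rw [map_smul, smul_eq_mul] at hℓ
      exact (mul_eq_zero.1 hℓ).resolve_left hs.ne'
    let P : E3 →L[ℝ] ℂ × ℝ := (Θ.symm : E3 →L[ℝ] ℂ × ℝ).comp (A0.symm : E3 →L[ℝ] E3)
    refine ⟨P.comp (M.comp (Θ : ℂ × ℝ →L[ℝ] E3)), P.comp (M'.comp (Θ : ℂ × ℝ →L[ℝ] E3)),
      ℓ.comp (Θ : ℂ × ℝ →L[ℝ] E3), hℓ0, ?_⟩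
    have hc : Tendsto (fun p : ℂ × ℝ => s • Θ p) (𝓝 (z, 0)) (𝓝 (s • Θ (z, 0))) :=
      (by fun_prop : Continuous (fun p : ℂ × ℝ => s • Θ p)).tendsto (z, (0:ℝ))
    filter_upwards [hc.eventually H] with p hp
    rw [map_smul, Hy.tcone_smul hs.le, smul_eq_mul, map_smul, map_smul] at hp
    constructor
    · intro h1
      have h2 : 0 ≤ ℓ (Θ p) := h1
      have h3 := smul_right_injective E3 hs.ne' (hp.1 (by positivity))
      rw [hG, h3]; rfl
    · intro h1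
      have h2 : ℓ (Θ p) ≤ 0 := h1
      have h3 := smul_right_injective E3 hs.ne' (hp.2 (by nlinarith))
      rw [hG, h3]; rfl
  have hplanar := planar_of G g1 (c := c1 * m1 / (‖(Le : ℂ × ℝ →L[ℝ] E3)‖ + 1))
    (C := m2⁻¹ * (C1 * ‖(Θ : ℂ × ℝ →L[ℝ] E3)‖)) (by positivity) g2 g2' g3 g4 g5
  refine ⟨⟨Θ.symm, Le, _, _, _, _, ?_, hplanar⟩, ?_⟩
  · intro v
    obtain ⟨⟨z, x⟩, rfl⟩ := Θ.surjective v
    rw [Θ.symm_apply_apply, ← hLG, g1]
    congr 1
    exact Prod.ext (by rw [Prod.fst_add, add_zero]) (by rw [Prod.snd_add, add_comm])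
  · intro v
    obtain ⟨⟨z, x⟩, rfl⟩ := Θ.surjective v
    rw [Θ.symm_apply_apply]
    constructor
    · intro h0
      have h1 : z = 0 := h0
      rw [h1, hΘ, Complex.zero_re, Complex.zero_im, neg_zero, zero_smul, zero_smul, add_zero,
        zero_add]
      exact Submodule.smul_mem _ _ haV
    · intro hmem
      obtain ⟨t, ht⟩ := hspan _ hmem
      have h1 : Θ (z, x) = Θ (0, t) := by
        rw [← ht, hΘ 0 t, Complex.zero_re, Complex.zero_im, neg_zero, zero_smul, zero_smul,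
          add_zero, zero_add]
      have h2 := Θ.injective h1
      exact congrArg Prod.fst h2

end P073.SM.EX

namespace P073.SM

/-- **(EX)** existence of the edge form -/
theorem specEX : SpecEX := fun _ _ _ _ I _ hy => EX.specEX_aux I hy

end P073.SM
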