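import Vale.Agent.P073.SM.TBa
import Vale.Agent.P073.SM.EX3

/-!
# P073, SMA, part GS: existence of the germ data
-/

namespace P073.SM

open Set

/-- the data `D` fit to the positively homogeneous map `T` -/
def GD.Fits (D : GD) (T : E3 → E3) : Prop :=
  (∀ v, T v = D.L (D.F (D.Ψ v).1, (D.Ψ v).2 + D.f (D.Ψ v).1)) ∧
    ∀ v, (D.Ψ v).1 = 0 ↔ ∀ (s : ℝ) (u : E3), T (u + s • v) = T u + s • T v

theorem EdgeForm.exists_gd {T : E3 → E3} (N : EdgeForm T) :
    ∃ D : GD, D.Ψ = N.Ψ ∧ ∀ v, T v = D.L (D.F (D.Ψ v).1, (D.Ψ v).2 + D.f (D.Ψ v).1) := by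
  set c : ℝ := cst (m1 N.m N.B) (B1 N.m N.B) with hc
  have hc0 : 0 < 4 * (|c| + 1) := by positivity
  obtain ⟨θ, a, ha0, ha1, hs, h1, h0, hm, hslow⟩ :=
    exists_slow (q := 1 / (4 * (|c| + 1))) (by positivity)
  have hq1 : 1 / (4 * (|c| + 1)) ≤ 1 := by
    rw [div_le_one hc0]
    have := abs_nonneg c
    linarith
  have hqc : 2 * (1 / (4 * (|c| + 1))) * c < 1 := by
    have h2 : 2 * (1 / (4 * (|c| + 1))) * c = c / (2 * (|c| + 1)) := by
      field_simp
      ring
    rw [h2, div_lt_one (by positivity)]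
    have := le_abs_self c
    have := abs_nonneg c
    linarith
  exact ⟨{ Ψ := N.Ψ, L := N.L, F := N.F, f := N.f, m := N.m, B := N.B, θ := θ, a := a,
           q := 1 / (4 * (|c| + 1)), planar := N.planar, a_pos := ha0, a_lt := ha1, q1 := hq1,
           qc := hqc, smooth := hs, one := h1, zero := h0, mem := hm, slow := hslow },
    rfl, N.form⟩

theorem specGS : SpecGS := by
  classical
  intro Ω Λ h k H hne
  have hex : ∀ y ∈ stratum h Ω 1, ∃ D : GD, D.Fits (tcone h y) := by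
    intro y hy
    obtain ⟨N, hN⟩ := specEX Ω Λ h k H y hy
    obtain ⟨D, hD1, hD2⟩ := N.exists_gd
    refine ⟨D, hD2, fun v => ?_⟩
    rw [hD1, hN v]
    exact mem_linSpace
  obtain ⟨y₀, hy₀⟩ := hne
  let D₀ : GD := (hex y₀ hy₀).choose
  let pick : (E3 → E3) → GD := fun T => if hT : ∃ D : GD, D.Fits T then hT.choose else D₀
  have hpick : ∀ y ∈ stratum h Ω 1, (pick (tcone h y)).Fits (tcone h y) := by
    intro y hy
    have e : pick (tcone h y) = (hex y hy).choose := dif_pos (hex y hy)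
    rw [e]
    exact (hex y hy).choose_spec
  refine ⟨fun y => pick (tcone h y), ?_, ?_, ?_⟩
  · intro y hy v
    exact (hpick y hy).1 v
  · intro y hy v
    rw [(hpick y hy).2 v]
    exact mem_linSpace.symm
  · intro y _ y' _ hyy
    simp only [hyy]

end P073.SM
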