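import Vale.Agent.P073.SM.Spec3
import Vale.Agent.P073.ConicalStrata2

/-!
# P073, block SMA, part RC (helper489): the conical radius
-/

namespace P073.SM.RC

open Set Metric Topology Filter MeasureTheory

variable {Ω : Set E3} {h : E3 → E3}

/-- the set of admissible radii -/
def RS (h : E3 → E3) (Ω : Set E3) (y : E3) : Set ℝ :=
  {r : ℝ | 0 ≤ r ∧ r ≤ 1 ∧ ball y r ⊆ Ω ∧ ∀ v, ‖v‖ < r → h (y + v) = h y + tcone h y v}

theorem bddAbove_RS (h : E3 → E3) (Ω : Set E3) (y : E3) : BddAbove (RS h Ω y) :=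
  ⟨1, fun _ hr => hr.2.1⟩

theorem le_rc {y : E3} {r : ℝ} (hr : r ∈ RS h Ω y) : r ≤ rc h Ω y := le_csSup (bddAbove_RS h Ω y) hr

theorem rc_le_one (h : E3 → E3) (Ω : Set E3) (y : E3) : rc h Ω y ≤ 1 := by
  refine csSup_le ⟨0, le_refl _, zero_le_one, by simp, fun v hv => ?_⟩ fun r hr => hr.2.1
  exact absurd hv (not_lt.2 (norm_nonneg v))

theorem exists_lt {y : E3} {s : ℝ} (hs : s < rc h Ω y) : ∃ r ∈ RS h Ω y, s < r := by
  refine exists_lt_of_lt_csSup ⟨0, le_refl _, zero_le_one, by simp, fun v hv => ?_⟩ hs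
  exact absurd hv (not_lt.2 (norm_nonneg v))

theorem ball_rc (y : E3) : ball y (rc h Ω y) ⊆ Ω := by
  intro z hz
  obtain ⟨r, hr, hlt⟩ := exists_lt (mem_ball.1 hz)
  exact hr.2.2.1 hlt

theorem form_rc {y v : E3} (hv : ‖v‖ < rc h Ω y) : h (y + v) = h y + tcone h y v := by
  obtain ⟨r, hr, hlt⟩ := exists_lt hv
  exact hr.2.2.2 v hlt

theorem mem_of_lt {y v : E3} (hv : ‖v‖ < rc h Ω y) : y + v ∈ Ω :=
  ball_rc (h := h) y (by rw [mem_ball, dist_eq_norm, add_sub_cancel_left]; exact hv)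

section

variable (hΩ : IsOpen Ω) (H : ConicalOn h Ω)

include hΩ H

theorem rc_pos {y : E3} (hy : y ∈ Ω) : 0 < rc h Ω y := by
  obtain ⟨r, hr, hb, hf, -⟩ := exists_stratum_nhd hΩ H hy
  have h1 : min r 1 ∈ RS h Ω y := ⟨(lt_min hr one_pos).le, min_le_right _ _,
    (ball_subset_ball (min_le_left _ _)).trans hb,
    fun v hv => hf v (hv.le.trans (min_le_left _ _))⟩
  exact (lt_min hr one_pos).trans_le (le_rc h1)

omit hΩ H in
theorem closed_form {y v : E3} (hv : ‖v‖ < rc h Ω y) :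
    ∃ r, ‖v‖ < r ∧ r < rc h Ω y ∧ ∀ u : E3, ‖u‖ ≤ r → h (y + u) = h y + tcone h y u := by
  obtain ⟨r, hr1, hr2⟩ := exists_between hv
  exact ⟨r, hr1, hr2, fun u hu => form_rc (hu.trans_lt hr2)⟩

theorem con {y : E3} (hy : y ∈ Ω) : ConicalAt h y := H.conicalAt hΩ hy

theorem linSpace_le {y v : E3} (hy : y ∈ Ω) (hv : ‖v‖ < rc h Ω y) :
    linSpace h y ≤ linSpace h (y + v) := by
  obtain ⟨r, hr1, -, hf⟩ := closed_form hv
  exact linSpace_le_near (con hΩ H hy) hf hr1 (con hΩ H (mem_of_lt hv))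

theorem finrank_lt {y v : E3} (hy : y ∈ Ω) (hv : ‖v‖ < rc h Ω y) (hvl : v ∉ linSpace h y) :
    Module.finrank ℝ (linSpace h y) < Module.finrank ℝ (linSpace h (y + v)) := by
  obtain ⟨r, hr1, -, hf⟩ := closed_form hv
  exact finrank_linSpace_near_lt (con hΩ H hy) hf hr1 (con hΩ H (mem_of_lt hv)) hvl

theorem tcone_eq {y v : E3} (hy : y ∈ Ω) (hv : ‖v‖ < rc h Ω y) (hvl : v ∈ linSpace h y) :
    tcone h (y + v) = tcone h y := by
  obtain ⟨r, hr1, -, hf⟩ := closed_form hv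
  exact tcone_near_of_mem (con hΩ H hy) hf hr1 (con hΩ H (mem_of_lt hv)) hvl

omit hΩ H in
theorem linSpace_congr {x y : E3} (he : tcone h x = tcone h y) : linSpace h x = linSpace h y := by
  ext w
  rw [mem_linSpace, mem_linSpace, he]

theorem tcone_scale {y v : E3} (hy : y ∈ Ω) (hv : ‖v‖ < rc h Ω y) {t : ℝ} (ht : t ∈ Ioc (0:ℝ) 1) :
    tcone h (y + t • v) = tcone h (y + v) := by
  obtain ⟨r, hr1, -, hf⟩ := closed_form hv
  have h1 : ‖t • v‖ < rc h Ω y := by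
    rw [norm_smul, Real.norm_of_nonneg ht.1.le]
    calc t * ‖v‖ ≤ 1 * ‖v‖ := by gcongr; exact ht.2
      _ < rc h Ω y := by rw [one_mul]; exact hv
  exact tcone_near_scale (con hΩ H hy) hf hr1 (con hΩ H (mem_of_lt hv)) ht
    (con hΩ H (mem_of_lt h1))

theorem edge_iff {y w : E3} (hy : y ∈ stratum h Ω 1) (hw : ‖w‖ < rc h Ω y) :
    y + w ∈ stratum h Ω 1 ↔ w ∈ linSpace h y := by
  constructor
  · intro h1
    by_contra hc
    have h2 := finrank_lt hΩ H hy.1 hw hc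
    rw [hy.2, h1.2] at h2
    exact lt_irrefl _ h2
  · intro h1
    refine ⟨mem_of_lt hw, ?_⟩
    rw [linSpace_congr (tcone_eq hΩ H hy.1 hw h1)]
    exact hy.2

theorem rc_along {y w : E3} (hy : y ∈ Ω) (hw : ‖w‖ < rc h Ω y) (hwl : w ∈ linSpace h y) :
    rc h Ω y - ‖w‖ ≤ rc h Ω (y + w) := by
  refine le_rc ⟨by linarith, by linarith [rc_le_one h Ω y, norm_nonneg w], ?_, ?_⟩
  · intro z hz
    rw [mem_ball, dist_eq_norm] at hz
    refine ball_rc (h := h) y ?_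
    rw [mem_ball, dist_eq_norm]
    calc ‖z - y‖ = ‖(z - (y + w)) + w‖ := by congr 1; abel
      _ ≤ ‖z - (y + w)‖ + ‖w‖ := norm_add_le _ _
      _ < rc h Ω y := by linarith
  · intro v hv
    have h1 : ‖w + v‖ < rc h Ω y := (norm_add_le _ _).trans_lt (by linarith)
    rw [tcone_eq hΩ H hy hw hwl, add_assoc, form_rc h1, form_rc hw, add_comm w v,
      tcone_add_of_mem hwl]
    abel

theorem vertex_le {v y : E3} (hv : v ∈ stratum h Ω 0) (hy : y ∈ stratum h Ω 1) :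
    rc h Ω y ≤ ‖y - v‖ := by
  by_contra hc
  have h1 : ‖v - y‖ < rc h Ω y := by rw [norm_sub_rev]; exact not_le.1 hc
  have h2 := linSpace_le hΩ H hy.1 h1
  rw [add_sub_cancel] at h2
  have h3 := Submodule.finrank_mono h2
  rw [hy.2, hv.2] at h3
  omega

theorem hom_h {v w : E3} (hv : v ∈ Ω) (hw : ‖w‖ < rc h Ω v) {t : ℝ} (ht : t ∈ Ioc (0:ℝ) 1) :
    h (v + t • w) = h v + t • (h (v + w) - h v) := by
  have h1 : ‖t • w‖ < rc h Ω v := by
    rw [norm_smul, Real.norm_of_nonneg ht.1.le]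
    calc t * ‖w‖ ≤ 1 * ‖w‖ := by gcongr; exact ht.2
      _ < rc h Ω v := by rw [one_mul]; exact hw
  rw [form_rc h1, form_rc hw, (con hΩ H hv).tcone_smul ht.1.le, add_sub_cancel_left]

theorem hom_stratum {v w : E3} (hv : v ∈ Ω) (hw : ‖w‖ < rc h Ω v) {t : ℝ}
    (ht : t ∈ Ioc (0:ℝ) 1) (k : ℕ) : v + t • w ∈ stratum h Ω k ↔ v + w ∈ stratum h Ω k := by
  have h1 : ‖t • w‖ < rc h Ω v := by
    rw [norm_smul, Real.norm_of_nonneg ht.1.le]
    calc t * ‖w‖ ≤ 1 * ‖w‖ := by gcongr; exact ht.2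
      _ < rc h Ω v := by rw [one_mul]; exact hw
  have h2 := linSpace_congr (tcone_scale hΩ H hv hw ht)
  constructor
  · rintro ⟨-, h3⟩
    exact ⟨mem_of_lt hw, by rw [← h2]; exact h3⟩
  · rintro ⟨-, h3⟩
    exact ⟨mem_of_lt h1, by rw [h2]; exact h3⟩

/-- no other vertex in the conical ball of a vertex -/
theorem not_vertex {v w : E3} (hv : v ∈ Ω) (hw : ‖w‖ < rc h Ω v) (hw0 : w ≠ 0) :
    v + w ∉ stratum h Ω 0 := by
  rintro ⟨-, h1⟩
  obtain ⟨r, hr1, -, hf⟩ := closed_form hw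
  have h2 := self_mem_linSpace_near (con hΩ H hv) hf hr1 (con hΩ H (mem_of_lt hw))
  rw [Submodule.finrank_eq_zero.1 h1, Submodule.mem_bot] at h2
  exact hw0 h2

theorem closed_strata {x : E3} (hx : x ∈ Ω) (h0 : x ∉ stratum h Ω 0) (h1 : x ∉ stratum h Ω 1) :
    ∃ d > 0, ∀ y ∈ ball x d, y ∉ stratum h Ω 1 := by
  have h2 : x ∈ {x ∈ Ω | 1 < Module.finrank ℝ (linSpace h x)} := by
    refine ⟨hx, ?_⟩
    by_contra hc
    have h3 : Module.finrank ℝ (linSpace h x) = 0 ∨ Module.finrank ℝ (linSpace h x) = 1 := by omega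
    rcases h3 with h3 | h3
    · exact h0 ⟨hx, h3⟩
    · exact h1 ⟨hx, h3⟩
  obtain ⟨d, hd, hb⟩ := Metric.isOpen_iff.1 (isOpen_stratum_gt hΩ H 1) x h2
  refine ⟨d, hd, fun y hy h3 => ?_⟩
  have h4 := (hb hy).2
  rw [h3.2] at h4
  exact lt_irrefl _ h4

/-- local facts at a point which is not a vertex -/
theorem local_edge {x : E3} (hx : x ∈ Ω) (h0 : x ∉ stratum h Ω 0) :
    ∃ d > 0, ∃ m > 0, ∃ T : E3 → E3, ∀ y ∈ ball x d, y ∈ stratum h Ω 1 →
      m ≤ rc h Ω y ∧ tcone h y = T := by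
  by_cases h1 : x ∈ stratum h Ω 1
  · have hr := rc_pos hΩ H hx
    refine ⟨rc h Ω x / 2, half_pos hr, rc h Ω x / 2, half_pos hr, tcone h x, fun y hy hy1 => ?_⟩
    rw [mem_ball, dist_eq_norm] at hy
    have h2 : ‖y - x‖ < rc h Ω x := by linarith
    have h3 : x + (y - x) ∈ stratum h Ω 1 := by rwa [add_sub_cancel]
    have h4 := (edge_iff hΩ H h1 h2).1 h3
    have h5 := rc_along hΩ H hx h2 h4
    have h6 := tcone_eq hΩ H hx h2 h4
    rw [add_sub_cancel] at h5 h6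
    exact ⟨by linarith, h6⟩
  · obtain ⟨d, hd, hb⟩ := closed_strata hΩ H hx h0 h1
    exact ⟨d, hd, 1, one_pos, fun _ => 0, fun y hy hy1 => absurd hy1 (hb y hy)⟩

/-- compactness on a sphere around a vertex -/
theorem sphere_edge {v : E3} (hv : v ∈ Ω) {ρ : ℝ} (hρ : 0 < ρ) (hρr : ρ < rc h Ω v) :
    ∃ m > 0, ∃ F : Set (E3 → E3), F.Finite ∧ ∀ y ∈ sphere v ρ, y ∈ stratum h Ω 1 →
      m ≤ rc h Ω y ∧ tcone h y ∈ F := by
  refine (isCompact_sphere v ρ).induction_on (p := fun s => ∃ m > 0, ∃ F : Set (E3 → E3),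
    F.Finite ∧ ∀ y ∈ s, y ∈ stratum h Ω 1 → m ≤ rc h Ω y ∧ tcone h y ∈ F)
    ⟨1, one_pos, ∅, finite_empty, by simp⟩ ?_ ?_ ?_
  · rintro s t hst ⟨m, hm, F, hF, h1⟩
    exact ⟨m, hm, F, hF, fun y hy => h1 y (hst hy)⟩
  · rintro s t ⟨m, hm, F, hF, h1⟩ ⟨m', hm', F', hF', h1'⟩
    refine ⟨min m m', lt_min hm hm', F ∪ F', hF.union hF', ?_⟩
    rintro y (hy | hy) hy1
    · obtain ⟨a, b⟩ := h1 y hy hy1
      exact ⟨(min_le_left _ _).trans a, Or.inl b⟩
    · obtain ⟨a, b⟩ := h1' y hy hy1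
      exact ⟨(min_le_right _ _).trans a, Or.inr b⟩
  · intro x hx
    rw [mem_sphere, dist_eq_norm] at hx
    have hxv : ‖x - v‖ < rc h Ω v := by rw [hx]; exact hρr
    have hxΩ : x ∈ Ω := by
      have := mem_of_lt hxv
      rwa [add_sub_cancel] at this
    have hx0 : x ∉ stratum h Ω 0 := by
      have := not_vertex hΩ H hv hxv (fun h0 => by rw [h0, norm_zero] at hx; exact hρ.ne hx)
      rwa [add_sub_cancel] at this
    obtain ⟨d, hd, m, hm, T, h1⟩ := local_edge hΩ H hxΩ hx0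
    refine ⟨ball x d, mem_nhdsWithin_of_mem_nhds (ball_mem_nhds x hd), m, hm, {T},
      finite_singleton T, fun y hy hy1 => ?_⟩
    obtain ⟨a, b⟩ := h1 y hy hy1
    exact ⟨a, b⟩

/-- scaling of the conical radius near a vertex -/
theorem rc_scale {v w : E3} (hv : v ∈ stratum h Ω 0) (hw : 2 * ‖w‖ < rc h Ω v) {t : ℝ}
    (ht : t ∈ Ioc (0:ℝ) 1) (hvw : v + w ∈ stratum h Ω 1) :
    t * rc h Ω (v + w) ≤ rc h Ω (v + t • w) := by
  have hw' : ‖w‖ < rc h Ω v := by linarith [norm_nonneg w]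
  have hle : rc h Ω (v + w) ≤ ‖w‖ := by
    have := vertex_le hΩ H hv hvw
    rwa [add_sub_cancel_left] at this
  have hpos : 0 < rc h Ω (v + w) := rc_pos hΩ H hvw.1
  -- rescaling of a point
  have key : ∀ u : E3, ‖u‖ < t * rc h Ω (v + w) → ‖t⁻¹ • u‖ < rc h Ω (v + w) ∧
      ‖w + t⁻¹ • u‖ < rc h Ω v ∧ v + t • w + u = v + t • (w + t⁻¹ • u) := by
    intro u hu
    have h1 : ‖t⁻¹ • u‖ < rc h Ω (v + w) := by
      rw [norm_smul, norm_inv, Real.norm_of_nonneg ht.1.le, inv_mul_lt_iff₀ ht.1]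
      exact hu
    refine ⟨h1, ?_, ?_⟩
    · calc ‖w + t⁻¹ • u‖ ≤ ‖w‖ + ‖t⁻¹ • u‖ := norm_add_le _ _
        _ < rc h Ω v := by linarith
    · rw [smul_add, smul_smul, mul_inv_cancel₀ ht.1.ne', one_smul, add_assoc]
  refine le_rc ⟨by have := ht.1; positivity, ?_, ?_, ?_⟩
  · calc t * rc h Ω (v + w) ≤ 1 * 1 := by
          gcongr
          · exact ht.2
          · exact rc_le_one _ _ _
      _ = 1 := one_mul 1
  · intro z hz
    rw [mem_ball, dist_eq_norm] at hz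
    obtain ⟨h1, h2, h3⟩ := key _ hz
    rw [add_sub_cancel] at h3
    rw [h3]
    refine mem_of_lt (h := h) ?_
    rw [norm_smul, Real.norm_of_nonneg ht.1.le]
    calc t * ‖w + t⁻¹ • (z - (v + t • w))‖ ≤ 1 * ‖w + t⁻¹ • (z - (v + t • w))‖ := by
          gcongr
          exact ht.2
      _ < rc h Ω v := by rw [one_mul]; exact h2
  · intro u hu
    obtain ⟨h1, h2, h3⟩ := key u hu
    rw [h3, hom_h hΩ H hv.1 h2 ht, hom_h hΩ H hv.1 hw' ht, tcone_scale hΩ H hv.1 hw' ht,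
      ← add_assoc v w, form_rc h1, (con hΩ H hvw.1).tcone_smul (inv_pos.2 ht.1).le,
      add_sub_right_comm, smul_add t, smul_smul t, mul_inv_cancel₀ ht.1.ne', one_smul, add_assoc]

omit hΩ H in
theorem rescale {v y : E3} {ρ : ℝ} (hρ : 0 < ρ) (hy : y ∈ ball v ρ) (hyv : y ≠ v) :
    ∃ w : E3, ∃ t ∈ Ioc (0:ℝ) 1, ‖w‖ = ρ ∧ y = v + t • w ∧ t = ‖y - v‖ / ρ := by
  have h1 : 0 < ‖y - v‖ := norm_pos_iff.2 (sub_ne_zero.2 hyv)
  rw [mem_ball, dist_eq_norm] at hy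
  refine ⟨(ρ / ‖y - v‖) • (y - v), ‖y - v‖ / ρ, ⟨by positivity, (div_le_one hρ).2 hy.le⟩, ?_, ?_,
    rfl⟩
  · rw [norm_smul, Real.norm_of_nonneg (by positivity), div_mul_cancel₀ _ h1.ne']
  · rw [smul_smul, div_mul_div_cancel₀ hρ.ne', div_self h1.ne', one_smul, add_sub_cancel]

end

end P073.SM.RC

namespace P073.SM

open Set Metric Topology Filter MeasureTheory
open RC

/-- **(RC)** -/
theorem specRC : SpecRC := by
  intro Ω Λ h k hI
  have hΩ := hI.openΩ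
  have H := hI.con
  refine ⟨?_, ?_, ?_, ?_, ?_, ?_, ?_, ?_⟩
  · intro y hy
    exact ⟨rc_pos hΩ H hy, rc_le_one _ _ _, ball_rc y, fun v hv => form_rc hv⟩
  · intro y hy w hw
    exact edge_iff hΩ H hy hw
  · intro y hy w hw hwr
    have h1 := tcone_eq hΩ H hy.1 hwr hw
    exact ⟨h1, linSpace_congr h1, rc_along hΩ H hy.1 hwr hw⟩
  · intro v hv y hy
    exact vertex_le hΩ H hv hy
  · intro v hv
    refine ⟨rc h Ω v, rc_pos hΩ H hv.1, ball_rc v, fun w hw t ht => ?_⟩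
    exact ⟨hom_stratum hΩ H hv.1 hw ht 1, tcone_scale hΩ H hv.1 hw ht, hom_h hΩ H hv.1 hw ht⟩
  · intro v hv
    have hr := rc_pos hΩ H hv.1
    set ρ := rc h Ω v / 4 with hρ
    have hρ0 : 0 < ρ := by positivity
    obtain ⟨m, hm, F, -, h1⟩ := sphere_edge hΩ H hv.1 hρ0 (by linarith : ρ < rc h Ω v)
    refine ⟨m / ρ, by positivity, ?_⟩
    filter_upwards [ball_mem_nhds v hρ0] with y hy hy1
    have hyv : y ≠ v := by
      rintro rfl
      have := hy1.2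
      rw [hv.2] at this
      omega
    obtain ⟨w, t, ht, hw, rfl, ht'⟩ := rescale hρ0 hy hyv
    have hw' : ‖w‖ < rc h Ω v := by rw [hw]; linarith
    have h2 : v + w ∈ stratum h Ω 1 := (hom_stratum hΩ H hv.1 hw' ht 1).1 hy1
    have h3 := (h1 (v + w) (by rw [mem_sphere, dist_eq_norm, add_sub_cancel_left, hw]) h2).1
    have h4 := rc_scale hΩ H hv (by rw [hw]; linarith) ht h2
    have h5 : ‖v + t • w - v‖ = t * ρ := by
      rw [add_sub_cancel_left, norm_smul, Real.norm_of_nonneg ht.1.le, hw]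
    rw [h5]
    calc m / ρ * (t * ρ) = t * m := by field_simp
      _ ≤ t * rc h Ω (v + w) := by gcongr; exact ht.1.le
      _ ≤ rc h Ω (v + t • w) := h4
  · intro x hx h0 h1
    exact closed_strata hΩ H hx h0 h1
  · intro x hx
    by_cases h0 : x ∈ stratum h Ω 0
    · have hr := rc_pos hΩ H hx
      set ρ := rc h Ω x / 4 with hρ
      have hρ0 : 0 < ρ := by positivity
      obtain ⟨m, hm, F, hF, h1⟩ := sphere_edge hΩ H hx hρ0 (by linarith : ρ < rc h Ω x)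
      refine ⟨ρ, hρ0, hF.subset ?_⟩
      rintro T ⟨y, ⟨hy1, hy⟩, rfl⟩
      have hyv : y ≠ x := by
        rintro rfl
        have := hy1.2
        rw [h0.2] at this
        omega
      obtain ⟨w, t, ht, hw, rfl, ht'⟩ := rescale hρ0 hy hyv
      have hw' : ‖w‖ < rc h Ω x := by rw [hw]; linarith
      have h2 : x + w ∈ stratum h Ω 1 := (hom_stratum hΩ H hx hw' ht 1).1 hy1
      rw [tcone_scale hΩ H hx hw' ht]
      exact (h1 (x + w) (by rw [mem_sphere, dist_eq_norm, add_sub_cancel_left, hw]) h2).2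
    · obtain ⟨d, hd, m, hm, T, h1⟩ := local_edge hΩ H hx h0
      refine ⟨d, hd, (finite_singleton T).subset ?_⟩
      rintro T' ⟨y, ⟨hy1, hy⟩, rfl⟩
      exact (h1 y hy hy1).2

end P073.SM
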