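import Vale.Agent.P073.SM.TBa
import Vale.Agent.P073.SM.SC
import Vale.Agent.P073.SM.RC

/-!
# P073, block SMA, part KS (helper67): the tube radius
-/

namespace P073.SM

open Set Metric Topology Filter
open scoped ContDiff

/-- functions of the germ data are locally bounded on the edges -/
theorem GermSys.bdd {Ω : Set E3} {h : E3 → E3} {𝒟 : E3 → GD} (R : RcProps Ω h)
    (G : GermSys Ω h 𝒟) (φ : GD → ℝ) {x : E3} (hx : x ∈ Ω) :
    ∃ B > 0, ∀ᶠ y in 𝓝 x, y ∈ stratum h Ω 1 → φ (𝒟 y) ≤ B := by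
  classical
  obtain ⟨r, hr, hf⟩ := R.germs x hx
  have hfin : {D : GD | ∃ y ∈ stratum h Ω 1 ∩ ball x r, 𝒟 y = D}.Finite := by
    let Φ : (E3 → E3) → GD := fun T =>
      if H : ∃ y ∈ stratum h Ω 1, tcone h y = T then 𝒟 H.choose else 𝒟 x
    refine (hf.image Φ).subset ?_
    rintro D ⟨y, hy, rfl⟩
    refine ⟨tcone h y, ⟨y, hy, rfl⟩, ?_⟩
    have H : ∃ y' ∈ stratum h Ω 1, tcone h y' = tcone h y := ⟨y, hy.1, rfl⟩
    simp only [Φ]
    rw [dif_pos H]
    exact G.germ _ H.choose_spec.1 _ hy.1 H.choose_spec.2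
  obtain ⟨B, hB⟩ := (hfin.image φ).bddAbove
  refine ⟨max B 1, lt_of_lt_of_le one_pos (le_max_right _ _), ?_⟩
  filter_upwards [ball_mem_nhds x hr] with y hy hy1
  exact (hB ⟨𝒟 y, ⟨y, ⟨hy1, hy⟩, rfl⟩, rfl⟩).trans (le_max_left _ _)

/-- the radius of the balls on which `δ` is at least the radius -/
noncomputable def rdel (δ : E3 → ℝ) (y : E3) : ℝ :=
  sSup {r : ℝ | 0 ≤ r ∧ r ≤ 1 ∧ ∀ p, ‖p - y‖ < r → r ≤ δ p}

theorem le_rdel {δ : E3 → ℝ} {y : E3} {r : ℝ} (h0 : 0 ≤ r) (h1 : r ≤ 1)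
    (h : ∀ p, ‖p - y‖ < r → r ≤ δ p) : r ≤ rdel δ y :=
  le_csSup ⟨1, fun _ hr => hr.2.1⟩ ⟨h0, h1, h⟩

theorem rdel_nonempty (δ : E3 → ℝ) (y : E3) :
    {r : ℝ | 0 ≤ r ∧ r ≤ 1 ∧ ∀ p, ‖p - y‖ < r → r ≤ δ p}.Nonempty :=
  ⟨0, le_refl _, zero_le_one, fun _ hp => absurd hp (not_lt.2 (norm_nonneg _))⟩

theorem rdel_le_one (δ : E3 → ℝ) (y : E3) : rdel δ y ≤ 1 :=
  csSup_le (rdel_nonempty δ y) fun _ hr => hr.2.1

theorem lt_rdel {δ : E3 → ℝ} {y : E3} {s : ℝ} (hs : s < rdel δ y) :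
    ∀ p, ‖p - y‖ ≤ s → s < δ p := by
  intro p hp
  obtain ⟨r, hr, hlt⟩ := exists_lt_of_lt_csSup (rdel_nonempty δ y) hs
  exact hlt.trans_le (hr.2.2 p (hp.trans_lt hlt))

/-- lower bounds of `rdel` -/
theorem rdel_lower {Ω S : Set E3} {δ : E3 → ℝ} (H : LowerBd Ω S δ) {x : E3} (hx : x ∈ Ω)
    (hxS : x ∉ S) : ∃ a > 0, ∀ᶠ y in 𝓝 x, a ≤ rdel δ y := by
  obtain ⟨a, ha, he⟩ := H.1 x hx hxS
  obtain ⟨s, hs, hb⟩ := Metric.eventually_nhds_iff_ball.1 he
  have h0 : 0 < min (min a (s / 2)) 1 := lt_min (lt_min ha (half_pos hs)) one_pos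
  refine ⟨_, h0, ?_⟩
  filter_upwards [ball_mem_nhds x (half_pos hs)] with y hy
  refine le_rdel h0.le (min_le_right _ _) fun p hp => ?_
  have h1 : p ∈ ball x s := by
    rw [mem_ball] at hy ⊢
    calc dist p x ≤ dist p y + dist y x := dist_triangle _ _ _
      _ < s / 2 + s / 2 := by
        have : dist p y < s / 2 := by
          rw [dist_eq_norm]
          exact hp.trans_le ((min_le_left _ _).trans (min_le_right _ _))
        linarith
      _ = s := by ring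
  exact ((min_le_left _ _).trans (min_le_left _ _)).trans (hb p h1)

theorem rdel_lower' {Ω S : Set E3} {δ : E3 → ℝ} (H : LowerBd Ω S δ) {v : E3} (hv : v ∈ S) :
    ∃ a > 0, ∀ᶠ y in 𝓝 v, a * ‖y - v‖ ≤ rdel δ y := by
  obtain ⟨c, hc, he⟩ := H.2 v hv
  obtain ⟨s, hs, hb⟩ := Metric.eventually_nhds_iff_ball.1 he
  have h0 : 0 < min (c / 2) (1 / 2) := lt_min (half_pos hc) (by norm_num)
  refine ⟨_, h0, ?_⟩
  have hs2 : 0 < min (s / 2) 1 := lt_min (half_pos hs) one_pos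
  filter_upwards [ball_mem_nhds v hs2] with y hy
  rw [mem_ball, dist_eq_norm] at hy
  have hy1 : ‖y - v‖ < s / 2 := hy.trans_le (min_le_left _ _)
  have hy2 : ‖y - v‖ < 1 := hy.trans_le (min_le_right _ _)
  have hn := norm_nonneg (y - v)
  have hle : min (c / 2) (1 / 2) * ‖y - v‖ ≤ ‖y - v‖ / 2 := by
    have : min (c / 2) (1 / 2) * ‖y - v‖ ≤ 1 / 2 * ‖y - v‖ :=
      mul_le_mul_of_nonneg_right (min_le_right _ _) hn
    linarith
  refine le_rdel (by positivity) (by linarith) fun p hp => ?_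
  have h3 : ‖p - v‖ ≤ ‖p - y‖ + ‖y - v‖ := by
    calc ‖p - v‖ = ‖(p - y) + (y - v)‖ := by rw [sub_add_sub_cancel]
      _ ≤ _ := norm_add_le _ _
  have h4 : ‖y - v‖ ≤ ‖p - y‖ + ‖p - v‖ := by
    calc ‖y - v‖ = ‖(p - v) - (p - y)‖ := by congr 1; abel
      _ ≤ ‖p - v‖ + ‖p - y‖ := norm_sub_le _ _
      _ = _ := add_comm _ _
  have h5 : p ∈ ball v s := by
    rw [mem_ball, dist_eq_norm]
    linarith
  have h6 := hb p h5
  have h7 : ‖y - v‖ / 2 ≤ ‖p - v‖ := by linarith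
  calc min (c / 2) (1 / 2) * ‖y - v‖ ≤ c / 2 * ‖y - v‖ :=
        mul_le_mul_of_nonneg_right (min_le_left _ _) hn
    _ = c * (‖y - v‖ / 2) := by ring
    _ ≤ c * ‖p - v‖ := mul_le_mul_of_nonneg_left h7 hc.le
    _ ≤ δ p := h6

open Classical in
/-- the combined bound for the tube radius -/
noncomputable def dcomb (Ω : Set E3) (h : E3 → E3) (𝒟 : E3 → GD) (δ : E3 → ℝ) (y : E3) : ℝ :=
  if y ∈ stratum h Ω 1 then min ((𝒟 y).kf * rc h Ω y) (rdel δ y / (𝒟 y).M) else 1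

theorem dcomb_lower {Ω : Set E3} {h : E3 → E3} {𝒟 : E3 → GD} (R : RcProps Ω h)
    (G : GermSys Ω h 𝒟) (δ : E3 → ℝ) {x : E3} (hx : x ∈ Ω) (g : E3 → ℝ) (hg : ∀ y, 0 ≤ g y)
    (h1 : ∀ᶠ y in 𝓝 x, y ∈ stratum h Ω 1 → g y ≤ rc h Ω y)
    (h2 : ∀ᶠ y in 𝓝 x, g y ≤ rdel δ y) (h3 : ∀ᶠ y in 𝓝 x, g y ≤ 1) :
    ∃ c > 0, ∀ᶠ y in 𝓝 x, c * g y ≤ dcomb Ω h 𝒟 δ y := by
  obtain ⟨B1, hB1, e1⟩ := G.bdd R (fun D => 1 / D.kf) hx
  obtain ⟨B2, hB2, e2⟩ := G.bdd R GD.M hx
  have h0 : 0 < min (min (1 / B1) (1 / B2)) 1 :=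
    lt_min (lt_min (by positivity) (by positivity)) one_pos
  refine ⟨_, h0, ?_⟩
  filter_upwards [e1, e2, h1, h2, h3] with y a1 a2 b1 b2 b3
  have hgy := hg y
  unfold dcomb
  split_ifs with hy
  · refine le_min ?_ ?_
    · have k1 := (𝒟 y).kf_pos
      have k2 : 1 / B1 ≤ (𝒟 y).kf := by
        have := a1 hy
        rw [div_le_iff₀ k1] at this
        rw [div_le_iff₀ hB1]
        linarith
      calc min (min (1 / B1) (1 / B2)) 1 * g y ≤ 1 / B1 * g y :=
            mul_le_mul_of_nonneg_right ((min_le_left _ _).trans (min_le_left _ _)) hgy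
        _ ≤ (𝒟 y).kf * rc h Ω y := mul_le_mul k2 (b1 hy) hgy k1.le
    · have k1 : 0 < (𝒟 y).M := one_pos.trans_le (𝒟 y).one_le_M
      have k2 : 1 / B2 ≤ 1 / (𝒟 y).M := one_div_le_one_div_of_le k1 (a2 hy)
      have k3 : 0 ≤ 1 / (𝒟 y).M := by positivity
      calc min (min (1 / B1) (1 / B2)) 1 * g y ≤ 1 / B2 * g y :=
            mul_le_mul_of_nonneg_right ((min_le_left _ _).trans (min_le_right _ _)) hgy
        _ ≤ 1 / (𝒟 y).M * rdel δ y := mul_le_mul k2 b2 hgy k3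
        _ = rdel δ y / (𝒟 y).M := by ring
  · calc min (min (1 / B1) (1 / B2)) 1 * g y ≤ 1 * 1 :=
          mul_le_mul (min_le_right _ _) b3 hgy zero_le_one
      _ = 1 := one_mul _

theorem specKS : SpecKS := by
  intro Ω Λ h k H R 𝒟 G δ hδ
  have hdisc : DiscIn Ω (stratum h Ω 0) := ⟨fun x hx => hx.1, fun x hx =>
    stratum_zero_discrete H.openΩ H.con hx⟩
  classical
  obtain ⟨κ, κs, κb, κr⟩ := specSC Ω (stratum h Ω 0) H.openΩ hdisc (dcomb Ω h 𝒟 δ)
    (fun y => if y ∈ stratum h Ω 1 then 1 / (1 + ‖(𝒟 y).dir‖) else 1) (by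
      intro x hx hx0
      obtain ⟨d, hd, m, hm, T, hT⟩ := RC.local_edge H.openΩ H.con hx hx0
      obtain ⟨a, ha, he⟩ := rdel_lower hδ hx hx0
      have h0 : 0 < min (min m a) 1 := lt_min (lt_min hm ha) one_pos
      obtain ⟨c, hc, hce⟩ := dcomb_lower R G δ hx (fun _ => min (min m a) 1) (fun _ => h0.le)
        (by
          filter_upwards [ball_mem_nhds x hd] with y hy hy1
          exact ((min_le_left _ _).trans (min_le_left _ _)).trans (hT y hy hy1).1)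
        (by
          filter_upwards [he] with y hy
          exact ((min_le_left _ _).trans (min_le_right _ _)).trans hy)
        (Eventually.of_forall fun y => min_le_right _ _)
      exact ⟨_, mul_pos hc h0, hce⟩) (by
      intro v hv
      obtain ⟨m, hm, hme⟩ := R.lower v hv
      obtain ⟨a, ha, he⟩ := rdel_lower' hδ hv
      have h0 : 0 < min (min m a) 1 := lt_min (lt_min hm ha) one_pos
      obtain ⟨c, hc, hce⟩ := dcomb_lower R G δ hv.1 (fun y => min (min m a) 1 * ‖y - v‖)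
        (fun y => mul_nonneg h0.le (norm_nonneg _))
        (by
          filter_upwards [hme] with y hy hy1
          exact (mul_le_mul_of_nonneg_right ((min_le_left _ _).trans (min_le_left _ _))
            (norm_nonneg _)).trans (hy hy1))
        (by
          filter_upwards [he] with y hy
          exact (mul_le_mul_of_nonneg_right ((min_le_left _ _).trans (min_le_right _ _))
            (norm_nonneg _)).trans hy)
        (by
          filter_upwards [ball_mem_nhds v one_pos] with y hy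
          rw [mem_ball, dist_eq_norm] at hy
          calc min (min m a) 1 * ‖y - v‖ ≤ 1 * 1 :=
                mul_le_mul (min_le_right _ _) hy.le (norm_nonneg _) zero_le_one
            _ = 1 := one_mul _)
      refine ⟨c * min (min m a) 1, mul_pos hc h0, ?_⟩
      filter_upwards [hce] with y hy
      rw [mul_assoc]; exact hy) (by
      intro x hx
      obtain ⟨B, hB, he⟩ := G.bdd R (fun D => 1 + ‖D.dir‖) hx
      refine ⟨min (1 / B) 1, lt_min (by positivity) one_pos, ?_⟩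
      filter_upwards [he] with y hy
      split_ifs with h1
      · have h2 : 0 < 1 + ‖(𝒟 y).dir‖ := by positivity
        exact (min_le_left _ _).trans (one_div_le_one_div_of_le h2 (hy h1))
      · exact min_le_right _ _)
  have h01 : ∀ y ∈ stratum h Ω 1, y ∉ stratum h Ω 0 := by
    intro y hy hy0
    have h1 := hy.2
    rw [hy0.2] at h1
    exact absurd h1 (by norm_num)
  have hval : ∀ y ∈ stratum h Ω 1, dcomb Ω h 𝒟 δ y =
      min ((𝒟 y).kf * rc h Ω y) (rdel δ y / (𝒟 y).M) := by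
    intro y hy
    unfold dcomb
    rw [if_pos hy]
  refine ⟨κ, ⟨κs, fun x hx hx0 => (κb x hx hx0).1, ?_, ?_, κr⟩, ?_⟩
  · intro y hy
    have h1 := (κb y hy.1 (h01 y hy)).2.1
    rw [hval y hy] at h1
    exact (h1.trans_le (min_le_left _ _)).le
  · intro y hy
    have h1 := (κb y hy.1 (h01 y hy)).2.2
    rw [if_pos hy] at h1
    have h2 : 0 < 1 + ‖(𝒟 y).dir‖ := by positivity
    have h3 : ‖fderiv ℝ κ y‖ * ‖(𝒟 y).dir‖ ≤ 1 / (1 + ‖(𝒟 y).dir‖) * (1 + ‖(𝒟 y).dir‖) :=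
      mul_le_mul h1.le (by linarith) (norm_nonneg _) (by positivity)
    rwa [one_div_mul_cancel h2.ne'] at h3
  · intro y hy
    have h1 := (κb y hy.1 (h01 y hy)).2.1
    rw [hval y hy] at h1
    have k1 : 0 < (𝒟 y).M := one_pos.trans_le (𝒟 y).one_le_M
    have h2 : (𝒟 y).M * κ y < rdel δ y := by
      have := h1.trans_le (min_le_right _ _)
      rw [lt_div_iff₀ k1] at this
      linarith
    exact ⟨h2.le.trans (rdel_le_one δ y), lt_rdel h2⟩

end P073.SM
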