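import Vale.Agent.P073.SM.Spec2

/-!
# P073, block SMA, part LP: local Lipschitz bounds off a discrete set
-/

namespace P073.SM

open Set Metric Topology Filter
open Vale.Agent.P073 (LipOn)

/-- a continuous curve with right increments bounded by `C` -/
theorem lip_seg {g : ℝ → E3} {C a b : ℝ} (hab : a ≤ b) (hc : ContinuousOn g (Icc a b))
    (h : ∀ t ∈ Ico a b, ∀ᶠ s in 𝓝[>] t, ‖g s - g t‖ ≤ C * (s - t)) :
    ‖g b - g a‖ ≤ C * (b - a) := by
  have hsub : Icc a b ⊆ {t | t ∈ Icc a b ∧ ‖g t - g a‖ ≤ C * (t - a)} := by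
    refine IsClosed.Icc_subset_of_forall_exists_gt ?_ ?_ ?_
    · have h1 : IsClosed {t | t ∈ Icc a b ∧ ‖g t - g a‖ ≤ C * (t - a)} := by
        have h2 : ContinuousOn (fun t => ‖g t - g a‖) (Icc a b) :=
          (hc.sub continuousOn_const).norm
        exact isClosed_Icc.isClosed_le h2 (by fun_prop)
      exact h1.inter isClosed_Icc
    · exact ⟨left_mem_Icc.2 hab, by simp⟩
    · rintro t ⟨⟨ht, ht1⟩, hta, htb⟩ y hy
      have hy' : t < y := hy
      have h1 := h t ⟨hta, htb⟩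
      have h2 : Ioo t (min y b) ∈ 𝓝[>] t := Ioo_mem_nhdsGT (lt_min hy' htb)
      obtain ⟨s, hs1, hs2⟩ := (h1.and h2).exists
      refine ⟨s, ⟨⟨by linarith [hs2.1], (hs2.2.trans_le (min_le_right _ _)).le⟩, ?_⟩,
        hs2.1, (hs2.2.trans_le (min_le_left _ _)).le⟩
      calc ‖g s - g a‖ = ‖(g s - g t) + (g t - g a)‖ := by rw [sub_add_sub_cancel]
        _ ≤ ‖g s - g t‖ + ‖g t - g a‖ := norm_add_le _ _
        _ ≤ C * (s - t) + C * (t - a) := add_le_add hs1 ht1
        _ = C * (s - a) := by ring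
  exact (hsub (right_mem_Icc.2 hab)).2

/-- the bounds are needed only off the left end points of small intervals -/
theorem lip_seg' {g : ℝ → E3} {C a b : ℝ} (hab : a ≤ b) (hc : ContinuousOn g (Icc a b))
    (h : ∀ t ∈ Ico a b, ∃ u > t, ∀ s ∈ Ioo t u, s < b → ∀ᶠ s' in 𝓝[>] s,
      ‖g s' - g s‖ ≤ C * (s' - s)) :
    ‖g b - g a‖ ≤ C * (b - a) := by
  refine lip_seg hab hc fun t ht => ?_
  obtain ⟨u, hu, h1⟩ := h t ht
  have h2 : Ioo t (min u b) ∈ 𝓝[>] t := Ioo_mem_nhdsGT (lt_min hu ht.2)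
  filter_upwards [h2] with s hs
  have hsb : s < b := hs.2.trans_le (min_le_right _ _)
  have hsu : s < u := hs.2.trans_le (min_le_left _ _)
  -- for `t'` in `(t, s)`
  have h3 : ∀ᶠ t' in 𝓝[>] t, ‖g s - g t'‖ ≤ C * (s - t') := by
    filter_upwards [Ioo_mem_nhdsGT hs.1] with t' ht'
    refine lip_seg ht'.2.le (hc.mono (Icc_subset_Icc (ht.1.trans ht'.1.le) hsb.le)) ?_
    intro r hr
    exact h1 r ⟨ht'.1.trans_le hr.1, hr.2.trans hsu⟩ (hr.2.trans hsb)
  have h4 : ContinuousWithinAt g (Icc a b) t := hc t ⟨ht.1, ht.2.le⟩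
  have h5 : Tendsto g (𝓝[>] t) (𝓝 (g t)) := by
    refine h4.mono_left ?_
    have h6 : Ioo t b ∈ 𝓝[>] t := Ioo_mem_nhdsGT ht.2
    refine nhdsWithin_le_iff.2 ?_
    exact mem_of_superset h6 fun r hr => ⟨ht.1.trans hr.1.le, hr.2.le⟩
  have h7 : Tendsto (fun t' => ‖g s - g t'‖) (𝓝[>] t) (𝓝 ‖g s - g t‖) :=
    (tendsto_const_nhds.sub h5).norm
  have h8 : Tendsto (fun t' : ℝ => C * (s - t')) (𝓝[>] t) (𝓝 (C * (s - t))) := by
    have : Continuous fun t' : ℝ => C * (s - t') := by fun_prop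
    exact this.continuousAt.tendsto.mono_left nhdsWithin_le_nhds
  exact le_of_tendsto_of_tendsto h7 h8 h3

theorem specLP : SpecLP := by
  intro U S f L hconv hU hL hf hS hloc x hx y hy
  -- the curve from `y` to `x`
  set v : E3 := x - y with hv
  set g : ℝ → E3 := fun t => f (y + t • v) with hg
  have hmem : ∀ t ∈ Icc (0:ℝ) 1, y + t • v ∈ U := by
    intro t ht
    exact hconv.add_smul_sub_mem hy hx ht
  have hc : ContinuousOn g (Icc 0 1) := by
    refine hf.comp (by fun_prop) hmem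
  have key : ‖g 1 - g 0‖ ≤ (L * ‖v‖) * (1 - 0) := by
    refine lip_seg' zero_le_one hc fun t ht => ?_
    obtain ⟨r, hr, hrS⟩ := hS _ (hmem t ⟨ht.1, ht.2.le⟩)
    rcases eq_or_ne v 0 with hv0 | hv0
    · refine ⟨t + 1, by linarith, fun s _ _ => Eventually.of_forall fun s' => ?_⟩
      simp [hg, hv0]
    have hvpos : 0 < ‖v‖ := norm_pos_iff.2 hv0
    refine ⟨t + r / ‖v‖, by linarith [div_pos hr hvpos], fun s hs hs1 => ?_⟩
    have hsI : s ∈ Icc (0:ℝ) 1 := ⟨ht.1.trans hs.1.le, hs1.le⟩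
    have hsS : y + s • v ∉ S := by
      refine hrS _ ?_ ?_
      · rw [mem_ball, dist_eq_norm]
        have e : y + s • v - (y + t • v) = (s - t) • v := by module
        rw [e, norm_smul, Real.norm_of_nonneg (by linarith [hs.1])]
        have := hs.2
        rw [← lt_div_iff₀ hvpos]
        linarith
      · intro h
        have e : (s - t) • v = 0 := by
          have : (s - t) • v = y + s • v - (y + t • v) := by module
          rw [this, h, sub_self]
        rcases smul_eq_zero.1 e with h1 | h1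
        · linarith [hs.1]
        · exact hv0 h1
    obtain ⟨ρ, hρ, hlip⟩ := hloc _ (hmem s hsI) hsS
    have h1 : ∀ᶠ s' in 𝓝[>] s, y + s' • v ∈ ball (y + s • v) ρ := by
      have : Continuous fun s' : ℝ => y + s' • v := by fun_prop
      exact (this.continuousAt.mono_left nhdsWithin_le_nhds).eventually
        (ball_mem_nhds _ hρ)
    filter_upwards [h1, self_mem_nhdsWithin] with s' h2 h3
    have h4 := hlip _ h2 _ (mem_ball_self hρ)
    have e : y + s' • v - (y + s • v) = (s' - s) • v := by module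
    rw [e, norm_smul, Real.norm_of_nonneg (sub_nonneg.2 (le_of_lt h3))] at h4
    calc ‖g s' - g s‖ ≤ L * ((s' - s) * ‖v‖) := h4
      _ = L * ‖v‖ * (s' - s) := by ring
  have e1 : g 1 = f x := by simp [hg, hv]
  have e0 : g 0 = f y := by simp [hg]
  rw [e1, e0, sub_zero, mul_one] at key
  exact key

end P073.SM
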