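import Vale.Agent.P073.SM.Spec

/-!
# P073, block SMA, part ME: from the pointwise form to the integral form
-/

namespace P073.SM

open Set Metric Topology Filter MeasureTheory
open scoped ENNReal ContDiff
open Vale.Agent.P073 (LipOn PII DirMonotoneAt)
open Vale.Agent.P073.SMV (HomeoOn DiffeoOn RegAt ClassOne AdmMeas)

namespace ME

/-- The dimension of the linearity space. -/
noncomputable def dm (h : E3 → E3) (x : E3) : ℕ := Module.finrank ℝ (linSpace h x)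

/-- The points with a point of a smaller stratum at distance less than `σ`. -/
def Bad (h : E3 → E3) (Ω : Set E3) (σ : ℝ) : Set E3 :=
  {x | x ∈ Ω ∧ ∃ y ∈ ball x σ, y ∈ Ω ∧ dm h y < dm h x}

theorem isOpen_bad {h : E3 → E3} {Ω : Set E3} (hΩ : IsOpen Ω) (H : ConicalOn h Ω) (σ : ℝ) :
    IsOpen (Bad h Ω σ) := by
  have e : Bad h Ω σ = ⋃ j : ℕ, ({x ∈ Ω | j < Module.finrank ℝ (linSpace h x)} ∩
      ⋃ y ∈ {y | y ∈ Ω ∧ dm h y ≤ j}, ball y σ) := by
    ext x
    constructor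
    · rintro ⟨hx, y, hy, hyΩ, hlt⟩
      refine mem_iUnion.2 ⟨dm h y, ⟨hx, hlt⟩, ?_⟩
      exact mem_biUnion (show y ∈ {y' | y' ∈ Ω ∧ dm h y' ≤ dm h y} from ⟨hyΩ, le_rfl⟩)
        (mem_ball_comm.1 hy)
    · intro hx
      obtain ⟨j, ⟨hxΩ, hj⟩, hx2⟩ := mem_iUnion.1 hx
      simp only [mem_iUnion] at hx2
      obtain ⟨y, ⟨hyΩ, hyj⟩, hyx⟩ := hx2
      exact ⟨hxΩ, y, mem_ball_comm.1 hyx, hyΩ, lt_of_le_of_lt hyj hj⟩
  rw [e]
  refine isOpen_iUnion fun j => (isOpen_stratum_gt hΩ H j).inter ?_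
  exact isOpen_biUnion fun y _ => isOpen_ball

theorem bad_mono {h : E3 → E3} {Ω : Set E3} {σ σ' : ℝ} (hσ : σ ≤ σ') :
    Bad h Ω σ ⊆ Bad h Ω σ' := by
  rintro x ⟨hx, y, hy, h2⟩
  exact ⟨hx, y, ball_subset_ball hσ hy, h2⟩

theorem exists_not_bad {h : E3 → E3} {Ω : Set E3} (hΩ : IsOpen Ω) (H : ConicalOn h Ω) {x : E3}
    (hx : x ∈ Ω) : ∃ σ > 0, x ∉ Bad h Ω σ := by
  rcases Nat.eq_zero_or_pos (dm h x) with h0 | h0
  · exact ⟨1, one_pos, fun ⟨_, y, _, _, hlt⟩ => by omega⟩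
  · obtain ⟨j, hj⟩ : ∃ j, dm h x = j + 1 := ⟨dm h x - 1, by omega⟩
    have h1 : IsOpen {y ∈ Ω | j < Module.finrank ℝ (linSpace h y)} := isOpen_stratum_gt hΩ H j
    have h2 : x ∈ {y ∈ Ω | j < Module.finrank ℝ (linSpace h y)} := by
      refine ⟨hx, ?_⟩
      have : Module.finrank ℝ (linSpace h x) = j + 1 := hj
      omega
    obtain ⟨σ, hσ, hb⟩ := Metric.isOpen_iff.1 h1 x h2
    refine ⟨σ, hσ, ?_⟩
    rintro ⟨_, y, hy, _, hlt⟩
    have h3 : j < dm h y := (hb hy).2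
    omega

theorem iInter_bad {h : E3 → E3} {Ω K : Set E3} (hΩ : IsOpen Ω) (H : ConicalOn h Ω) :
    ⋂ m : ℕ, (Bad h Ω (1 / ((m : ℝ) + 1)) ∩ K) = ∅ := by
  rw [eq_empty_iff_forall_notMem]
  intro x hx
  rw [mem_iInter] at hx
  obtain ⟨σ, hσ, hn⟩ := exists_not_bad hΩ H (hx 0).1.1
  obtain ⟨m, hm⟩ := exists_nat_one_div_lt hσ
  exact hn (bad_mono hm.le (hx m).1)

theorem tendsto_bad {h : E3 → E3} {Ω K : Set E3} (hΩ : IsOpen Ω) (H : ConicalOn h Ω)
    (hK : MeasurableSet K) {μ : Measure E3} (hμ : μ K ≠ ⊤) :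
    Tendsto (fun m : ℕ => μ (Bad h Ω (1 / ((m : ℝ) + 1)) ∩ K)) atTop (𝓝 0) := by
  have h1 := tendsto_measure_iInter_atTop (μ := μ)
    (s := fun m : ℕ => Bad h Ω (1 / ((m : ℝ) + 1)) ∩ K)
    (fun m => ((isOpen_bad hΩ H _).measurableSet.inter hK).nullMeasurableSet) (by
      intro m m' hm
      refine inter_subset_inter_left _ (bad_mono ?_)
      exact Nat.one_div_le_one_div hm) ⟨0, ne_top_of_le_ne_top hμ (measure_mono inter_subset_right)⟩
  rwa [iInter_bad hΩ H, measure_empty] at h1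

theorem exists_tcone_bound_compact {h : E3 → E3} {Ω K : Set E3} (hΩ : IsOpen Ω)
    (H : ConicalOn h Ω) (hK : IsCompact K) (hKΩ : K ⊆ Ω) :
    ∃ T : ℝ, 0 ≤ T ∧ ∀ x ∈ K, ∀ w, ‖tcone h x w‖ ≤ T * ‖w‖ := by
  refine hK.induction_on (p := fun s => ∃ T : ℝ, 0 ≤ T ∧ ∀ x ∈ s, ∀ w, ‖tcone h x w‖ ≤ T * ‖w‖)
    ⟨0, le_rfl, by simp⟩ ?_ ?_ ?_
  · rintro s t hst ⟨T, hT, h1⟩
    exact ⟨T, hT, fun x hx => h1 x (hst hx)⟩
  · rintro s t ⟨T, hT, h1⟩ ⟨T', hT', h2⟩
    refine ⟨max T T', le_max_of_le_left hT, ?_⟩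
    rintro x (hx | hx) w
    · exact (h1 x hx w).trans (mul_le_mul_of_nonneg_right (le_max_left _ _) (norm_nonneg _))
    · exact (h2 x hx w).trans (mul_le_mul_of_nonneg_right (le_max_right _ _) (norm_nonneg _))
  · intro x hx
    obtain ⟨δ, hδ, -, M, hM, h1⟩ := exists_tcone_bound hΩ H (hKΩ hx)
    exact ⟨ball x δ, mem_nhdsWithin_of_mem_nhds (ball_mem_nhds x hδ), M, hM, h1⟩

/-! ### The exhaustion -/

/-- The exhaustion. -/
def KK (Ω : Set E3) (n : ℕ) : Set E3 := {x | 1 ≤ (n : ℝ) * infDist x Ωᶜ}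

theorem kk_mono (Ω : Set E3) : Monotone (KK Ω) := by
  intro n n' hn x hx
  simp only [KK, Set.mem_ofPred_eq] at hx ⊢
  refine hx.trans (mul_le_mul_of_nonneg_right (by exact_mod_cast hn) infDist_nonneg)

theorem kk_sub {Ω : Set E3} (n : ℕ) : KK Ω n ⊆ Ω := by
  intro x hx
  by_contra hn
  simp only [KK, Set.mem_ofPred_eq] at hx
  rw [infDist_zero_of_mem (show x ∈ Ωᶜ from hn), mul_zero] at hx
  linarith

theorem kk_closed (Ω : Set E3) (n : ℕ) : IsClosed (KK Ω n) :=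
  isClosed_le continuous_const (continuous_const.mul (continuous_infDist_pt _))

theorem kk_compact {Ω : Set E3} (hΩ : Bornology.IsBounded Ω) (n : ℕ) : IsCompact (KK Ω n) :=
  Metric.isCompact_of_isClosed_isBounded (kk_closed Ω n) (hΩ.subset (kk_sub n))

theorem compl_nonempty {Ω : Set E3} (hΩ : Bornology.IsBounded Ω) : (Ωᶜ).Nonempty := by
  rw [nonempty_compl]
  rintro rfl
  exact NoncompactSpace.noncompact_univ (X := E3)
    (Metric.isCompact_of_isClosed_isBounded isClosed_univ hΩ)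

theorem infDist_pos {Ω : Set E3} (ho : IsOpen Ω) (hΩ : Bornology.IsBounded Ω) {x : E3}
    (hx : x ∈ Ω) : 0 < infDist x Ωᶜ := by
  rw [← ho.isClosed_compl.notMem_iff_infDist_pos (compl_nonempty hΩ)]
  exact fun h => h hx

theorem exists_kk {Ω : Set E3} (ho : IsOpen Ω) (hΩ : Bornology.IsBounded Ω) {x : E3}
    (hx : x ∈ Ω) : ∃ n, x ∈ KK Ω n := by
  have h1 := infDist_pos ho hΩ hx
  obtain ⟨n, hn⟩ := exists_nat_ge (1 / infDist x Ωᶜ)
  refine ⟨n, ?_⟩
  rw [div_le_iff₀ h1] at hn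
  exact hn

theorem kk_nhds {Ω : Set E3} (ho : IsOpen Ω) (hΩ : Bornology.IsBounded Ω) {x : E3} {n : ℕ}
    (hx : x ∈ KK Ω n) : ∀ᶠ z in 𝓝 x, z ∈ KK Ω (n + 1) := by
  have h1 := infDist_pos ho hΩ (kk_sub n hx)
  have h2 : 1 < ((n + 1 : ℕ) : ℝ) * infDist x Ωᶜ := by
    simp only [KK, Set.mem_ofPred_eq] at hx
    push_cast
    linarith
  have h3 : Continuous fun z => ((n + 1 : ℕ) : ℝ) * infDist z Ωᶜ :=
    continuous_const.mul (continuous_infDist_pt _)
  filter_upwards [h3.continuousAt.eventually (lt_mem_nhds h2)] with z hz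
  exact hz.le

theorem iUnion_kk {Ω : Set E3} (ho : IsOpen Ω) (hΩ : Bornology.IsBounded Ω) :
    ⋃ n, KK Ω n = Ω := by
  refine Subset.antisymm (iUnion_subset fun n => kk_sub n) fun x hx => ?_
  obtain ⟨n, hn⟩ := exists_kk ho hΩ hx
  exact mem_iUnion.2 ⟨n, hn⟩

/-- A continuous function with prescribed bounds on the shells. -/
theorem exists_scale {Ω : Set E3} (ho : IsOpen Ω) (hΩ : Bornology.IsBounded Ω) {ε : E3 → ℝ}
    (hε : ContinuousOn ε Ω) (hε0 : ∀ x ∈ Ω, 0 < ε x) (σ : ℕ → ℝ) (hσ : Antitone σ)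
    (hσ0 : ∀ n, 0 < σ n) :
    ∃ s : E3 → ℝ, ContinuousOn s Ω ∧ (∀ x ∈ Ω, 0 < s x) ∧ (∀ x ∈ Ω, s x ≤ ε x) ∧
      ∀ n, ∀ x ∈ disjointed (KK Ω) n, s x ≤ σ n := by
  set N : E3 → ℕ := fun x => sInf {n | x ∈ KK Ω n} with hN
  obtain ⟨κ, hκ, hκ1, -⟩ := Vale.Agent.P073.exists_kappa_of_local ho
    (δ := fun x => min (ε x) (σ (N x))) (by
    intro y hy
    obtain ⟨n, hn⟩ := exists_kk ho hΩ hy
    refine ⟨min (ε y / 2) (σ (n + 1)), lt_min (half_pos (hε0 y hy)) (hσ0 _), ?_⟩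
    have h1 : ∀ᶠ z in 𝓝 y, ε y / 2 < ε z :=
      (hε.continuousAt (ho.mem_nhds hy)).eventually (lt_mem_nhds (half_lt_self (hε0 y hy)))
    filter_upwards [h1, kk_nhds ho hΩ hn] with z hz1 hz2
    exact min_le_min hz1.le (hσ (Nat.sInf_le hz2)))
  refine ⟨κ, hκ.continuous.continuousOn, fun x hx => (hκ1 x hx).1,
    fun x hx => (hκ1 x hx).2.1.le.trans (min_le_left _ _), fun n x hx => ?_⟩
  have hxK : x ∈ KK Ω n := disjointed_subset _ _ hx
  have hxΩ : x ∈ Ω := kk_sub n hxK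
  have hNx : N x = n := by
    refine le_antisymm (Nat.sInf_le hxK) ?_
    by_contra hlt
    push Not at hlt
    have h1 : x ∈ KK Ω (N x) := Nat.sInf_mem (s := {n | x ∈ KK Ω n}) ⟨n, hxK⟩
    rw [disjointed_eq_inter_compl] at hx
    exact (mem_iInter₂.1 hx.2 (N x) hlt) h1
  have h2 := (hκ1 x hxΩ).2.1.le.trans (min_le_right _ _)
  rwa [hNx] at h2

end ME

open ME

/-- **(ME)** From the pointwise form to the integral form. -/
theorem specME : SpecME := by
  intro hPT Ω Λ h k hin p μ τ η ε hp hadm hfin hτ hη hε hε0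
  have ho := hin.openΩ
  have hb := hin.bddΩ
  have hcon := hin.con
  obtain ⟨C, hC, hC0, hPT2⟩ := hPT Ω Λ h k hin
  -- bounds on the exhaustion
  have hbd : ∀ n, ∃ B : ℝ, 0 ≤ B ∧ ∀ x ∈ KK Ω n, C x ≤ B ∧ ∀ w, ‖tcone h x w‖ ≤ B * ‖w‖ := by
    intro n
    obtain ⟨T, hT, hT2⟩ := exists_tcone_bound_compact ho hcon (kk_compact hb n) (kk_sub n)
    obtain ⟨c, hc⟩ := (kk_compact hb n).bddAbove_image (hC.mono (kk_sub n))
    refine ⟨max c T, le_max_of_le_right hT, fun x hx => ⟨?_, fun w => ?_⟩⟩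
    · exact (hc (mem_image_of_mem C hx)).trans (le_max_left _ _)
    · exact (hT2 x hx w).trans (mul_le_mul_of_nonneg_right (le_max_right _ _) (norm_nonneg _))
  choose B hB0 hB using hbd
  -- the error on a shell
  set err : ℕ → ℕ → ℕ → ℝ≥0∞ := fun n i m =>
    ENNReal.ofReal (1 / ((m : ℝ) + 1) * ‖τ i‖) ^ p * μ i (KK Ω n) +
      ENNReal.ofReal (2 * B n * ‖τ i‖) ^ p * μ i (Bad h Ω (1 / ((m : ℝ) + 1)) ∩ KK Ω n) with herr
  have hKt : ∀ i n, μ i (KK Ω n) ≠ ⊤ := fun i n =>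
    ((hadm i).fin _ (kk_sub n) (kk_compact hb n)).ne
  have herr0 : ∀ n i, Tendsto (err n i) atTop (𝓝 0) := by
    intro n i
    have h1 : Tendsto (fun m : ℕ => ENNReal.ofReal (1 / ((m : ℝ) + 1) * ‖τ i‖) ^ p * μ i (KK Ω n))
        atTop (𝓝 0) := by
      have h2 : Tendsto (fun m : ℕ => ENNReal.ofReal (1 / ((m : ℝ) + 1) * ‖τ i‖)) atTop (𝓝 0) := by
        have h3 := (tendsto_one_div_add_atTop_nhds_zero_nat (𝕜 := ℝ)).mul_const ‖τ i‖
        rw [zero_mul] at h3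
        have h4 := ENNReal.tendsto_ofReal h3
        rwa [ENNReal.ofReal_zero] at h4
      have h5 := h2.ennrpow_const p
      rw [ENNReal.zero_rpow_of_pos hp] at h5
      have h6 := ENNReal.Tendsto.mul_const h5 (Or.inr (hKt i n))
      rwa [zero_mul] at h6
    have h2 : Tendsto (fun m : ℕ => ENNReal.ofReal (2 * B n * ‖τ i‖) ^ p *
        μ i (Bad h Ω (1 / ((m : ℝ) + 1)) ∩ KK Ω n)) atTop (𝓝 0) := by
      have h3 := ENNReal.Tendsto.const_mul (a := ENNReal.ofReal (2 * B n * ‖τ i‖) ^ p)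
        (tendsto_bad ho hcon (kk_closed Ω n).measurableSet (hKt i n))
        (Or.inr (ENNReal.rpow_ne_top_of_nonneg hp.le ENNReal.ofReal_ne_top))
      rwa [mul_zero] at h3
    have h3 := h1.add h2
    rwa [add_zero] at h3
  -- the choice of the fineness
  have hm : ∀ n, ∃ m : ℕ, ∀ m' ≥ m, ∀ i, μ i (KK Ω n) ≠ 0 →
      err n i m' ≤ ENNReal.ofReal (η i) / 2 ^ (n + 1) := by
    intro n
    have h1 : ∀ᶠ m' in atTop, ∀ i ∈ {i | μ i (KK Ω n) ≠ 0},
        err n i m' ≤ ENNReal.ofReal (η i) / 2 ^ (n + 1) := by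
      rw [(hfin _ (kk_sub n) (kk_compact hb n)).eventually_all]
      intro i _
      refine (ENNReal.tendsto_nhds_zero.1 (herr0 n i)) _ ?_
      exact ENNReal.div_pos (ENNReal.ofReal_pos.2 (hη i)).ne' (by finiteness)
    exact eventually_atTop.1 h1
  choose m0 hm0 using hm
  set mm : ℕ → ℕ := fun n => (Finset.range (n + 1)).sup m0 with hmm
  have hmm1 : Monotone mm := fun n n' hn =>
    Finset.sup_mono (Finset.range_mono (by omega))
  have hmm2 : ∀ n, m0 n ≤ mm n := fun n =>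
    Finset.le_sup (f := m0) (Finset.mem_range.2 (Nat.lt_succ_self n))
  obtain ⟨s, hs, hs0, hsε, hsσ⟩ := exists_scale ho hb hε hε0
    (fun n => 1 / ((mm n : ℝ) + 1)) (fun n n' hn => Nat.one_div_le_one_div (hmm1 hn))
    (fun n => Nat.one_div_pos_of_nat)
  obtain ⟨g, k', hg, hg1, hg2, hg3⟩ := hPT2 s hs hs0
  refine ⟨stratum h Ω 0, g, k', hg, fun x hx => (hg1 x hx).trans (hsε x hx), fun i => ?_⟩
  set S := stratum h Ω 0 with hS
  -- the vertices are null
  have hSnull : μ i S = 0 := by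
    have hc : S.Countable := by
      have : S = ⋃ n, (S ∩ KK Ω n) := by
        rw [← inter_iUnion, iUnion_kk ho hb, inter_eq_left.2 hg.sub]
      rw [this]
      exact countable_iUnion fun n => (hg.fin _ (kk_sub n) (kk_compact hb n)).countable
    rw [← biUnion_of_singleton S, measure_biUnion_null_iff hc]
    exact fun x hx => (hadm i).noAtoms x (hg.sub hx)
  set φ : E3 → ℝ≥0∞ := fun x => ENNReal.ofReal (‖fderiv ℝ g x (τ i) - tcone h x (τ i)‖ ^ p) with hφ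
  have key : ∀ n, ∫⁻ x in disjointed (KK Ω) n, φ x ∂(μ i) ≤ ENNReal.ofReal (η i) / 2 ^ (n + 1) := by
    intro n
    by_cases h0 : μ i (KK Ω n) = 0
    · have h1 : μ i (disjointed (KK Ω) n) = 0 :=
        measure_mono_null (disjointed_subset _ _) h0
      rw [Measure.restrict_eq_zero.2 h1, lintegral_zero_measure]
      exact zero_le
    · refine le_trans ?_ (hm0 n (mm n) (hmm2 n) i h0)
      have hDm : MeasurableSet (disjointed (KK Ω) n) :=
        MeasurableSet.disjointed (fun n => (kk_closed Ω n).measurableSet) n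
      set σ : ℝ := 1 / ((mm n : ℝ) + 1) with hσ
      have hae : ∀ᵐ x ∂(μ i), x ∈ disjointed (KK Ω) n → φ x ≤
          ENNReal.ofReal (σ * ‖τ i‖) ^ p + (Bad h Ω σ).indicator
            (fun _ => ENNReal.ofReal (2 * B n * ‖τ i‖) ^ p) x := by
        have hSn : ∀ᵐ x ∂(μ i), x ∉ S := by
          rw [ae_iff]
          simpa using hSnull
        filter_upwards [hτ i, hSn] with x hx1 hx2 hxD
        have hxK : x ∈ KK Ω n := disjointed_subset _ _ hxD
        have hxΩ : x ∈ Ω := kk_sub n hxK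
        have hsx : s x ≤ σ := hsσ n x hxD
        simp only [hφ]
        by_cases hbad : x ∈ Bad h Ω σ
        · rw [indicator_of_mem hbad]
          refine le_trans ?_ le_add_self
          rw [← ENNReal.ofReal_rpow_of_nonneg (norm_nonneg _) hp.le]
          refine ENNReal.rpow_le_rpow (ENNReal.ofReal_le_ofReal ?_) hp.le
          obtain ⟨h3, h4⟩ := hB n x hxK
          calc ‖fderiv ℝ g x (τ i) - tcone h x (τ i)‖
              ≤ ‖fderiv ℝ g x (τ i)‖ + ‖tcone h x (τ i)‖ := norm_sub_le _ _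
            _ ≤ B n * ‖τ i‖ + B n * ‖τ i‖ := by
                refine add_le_add ?_ (h4 _)
                refine (ContinuousLinearMap.le_opNorm _ _).trans ?_
                exact mul_le_mul_of_nonneg_right ((hg2 x hxΩ hx2).trans h3) (norm_nonneg _)
            _ = 2 * B n * ‖τ i‖ := by ring
        · rw [indicator_of_notMem hbad, add_zero]
          rw [← ENNReal.ofReal_rpow_of_nonneg (norm_nonneg _) hp.le]
          refine ENNReal.rpow_le_rpow (ENNReal.ofReal_le_ofReal ?_) hp.le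
          refine (hg3 x hxΩ hx2 ?_ (τ i) (hx1 hxΩ)).trans
            (mul_le_mul_of_nonneg_right hsx (norm_nonneg _))
          intro y hy hyΩ
          by_contra hlt
          push Not at hlt
          exact hbad ⟨hxΩ, y, ball_subset_ball hsx hy, hyΩ, hlt⟩
      calc ∫⁻ x in disjointed (KK Ω) n, φ x ∂(μ i)
          ≤ ∫⁻ x in disjointed (KK Ω) n, (ENNReal.ofReal (σ * ‖τ i‖) ^ p +
              (Bad h Ω σ).indicator (fun _ => ENNReal.ofReal (2 * B n * ‖τ i‖) ^ p) x) ∂(μ i) := by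
            refine lintegral_mono_ae ?_
            rw [ae_restrict_iff' hDm]
            exact hae
        _ ≤ ∫⁻ x in KK Ω n, (ENNReal.ofReal (σ * ‖τ i‖) ^ p +
              (Bad h Ω σ).indicator (fun _ => ENNReal.ofReal (2 * B n * ‖τ i‖) ^ p) x) ∂(μ i) :=
            lintegral_mono_set (disjointed_subset _ _)
        _ = err n i (mm n) := by
            rw [lintegral_add_left measurable_const, setLIntegral_const,
              lintegral_indicator (isOpen_bad ho hcon σ).measurableSet,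
              Measure.restrict_restrict (isOpen_bad ho hcon σ).measurableSet, setLIntegral_const]
  calc ∫⁻ x in Ω, φ x ∂(μ i) = ∫⁻ x in ⋃ n, disjointed (KK Ω) n, φ x ∂(μ i) := by
        rw [iUnion_disjointed, iUnion_kk ho hb]
    _ = ∑' n, ∫⁻ x in disjointed (KK Ω) n, φ x ∂(μ i) :=
        lintegral_iUnion (fun n => MeasurableSet.disjointed
          (fun n => (kk_closed Ω n).measurableSet) n) (disjoint_disjointed _) _
    _ ≤ ∑' n, ENNReal.ofReal (η i) / 2 ^ (n + 1) := ENNReal.tsum_le_tsum key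
    _ = ENNReal.ofReal (η i) := by
        simp only [div_eq_mul_inv]
        rw [ENNReal.tsum_mul_left]
        have : ∑' n : ℕ, ((2 : ℝ≥0∞) ^ (n + 1))⁻¹ = 1 := by
          have h1 := ENNReal.tsum_geometric_add_one (2⁻¹ : ℝ≥0∞)
          have h2 : (2⁻¹ : ℝ≥0∞) * 2 = 1 := ENNReal.inv_mul_cancel (by norm_num) (by norm_num)
          simpa [ENNReal.inv_pow, h2] using h1
        rw [this, mul_one]

end P073.SM
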