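import Vale.Agent.P073.SM.TU

/-!
# P073, SMA: closeness of the replaced map to `h`
-/

namespace P073.SM

open Set Metric Topology Filter MeasureTheory
open scoped ContDiff
open Vale.Agent.P073 (DirMonotoneAt LipOn)

theorem norm_lg_le_B1 {F : ℂ → ℂ} {f : ℂ → ℝ} {m B : ℝ} (h : Planar F f m B) (z : ℂ) :
    ‖lg F z‖ ≤ B1 m B := by
  have h1 := h.norm_lg_le z
  have h2 := div_pos h.B_pos h.m_pos
  have h3 := h.B_pos
  unfold B1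
  linarith

/-- the slow path is close to the planar form -/
theorem norm_pm_sub_le {F : ℂ → ℂ} {f : ℂ → ℝ} {m B : ℝ} (h : Planar F f m B) {θ k : ℝ → ℝ}
    (hθ : ∀ u, θ u ∈ Icc (0:ℝ) 1) (p : ℂ × ℝ) :
    ‖pm θ k (lg F) f p - (F p.1, p.2 + f p.1)‖ ≤ (Real.exp (B1 m B) + B) * ‖p.1‖ := by
  have hB := h.B_pos
  have hz := norm_nonneg p.1
  have he := Real.exp_pos (B1 m B)
  have ht : tpar θ k p ∈ Icc (0:ℝ) 1 := hθ _
  set t : ℝ := tpar θ k p with htdef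
  have h1 : ‖p.1 * Complex.exp (((1 - t : ℝ) : ℂ) * lg F p.1)‖ ≤ Real.exp (B1 m B) * ‖p.1‖ := by
    rw [norm_mul, mul_comm]
    gcongr
    rw [Complex.norm_exp]
    apply Real.exp_le_exp.2
    calc (((1 - t : ℝ) : ℂ) * lg F p.1).re ≤ ‖((1 - t : ℝ) : ℂ) * lg F p.1‖ :=
          (le_abs_self _).trans (Complex.abs_re_le_norm _)
      _ = |1 - t| * ‖lg F p.1‖ := by rw [norm_mul, Complex.norm_real, Real.norm_eq_abs]
      _ ≤ 1 * B1 m B := by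
          have e1 : |1 - t| ≤ 1 := by
            rw [abs_le]; exact ⟨by linarith [ht.2], by linarith [ht.1]⟩
          exact mul_le_mul e1 (norm_lg_le_B1 h _) (norm_nonneg _) zero_le_one
      _ = B1 m B := one_mul _
  have h2 := h.upper p.1
  have h3 := h.upperf p.1
  rw [Prod.norm_def, max_le_iff]
  constructor
  · calc ‖(pm θ k (lg F) f p - (F p.1, p.2 + f p.1)).1‖
        = ‖p.1 * Complex.exp (((1 - t : ℝ) : ℂ) * lg F p.1) - F p.1‖ := rfl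
      _ ≤ ‖p.1 * Complex.exp (((1 - t : ℝ) : ℂ) * lg F p.1)‖ + ‖F p.1‖ := norm_sub_le _ _
      _ ≤ Real.exp (B1 m B) * ‖p.1‖ + B * ‖p.1‖ := add_le_add h1 h2
      _ = _ := by ring
  · have e1 : (pm θ k (lg F) f p - (F p.1, p.2 + f p.1)).2 = -(t * f p.1) := by
      show (p.2 + (1 - t) * f p.1) - (p.2 + f p.1) = _
      ring
    rw [e1, norm_neg, Real.norm_eq_abs, abs_mul]
    calc |t| * |f p.1| ≤ 1 * (B * ‖p.1‖) := by
          apply mul_le_mul _ h3 (abs_nonneg _) zero_le_one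
          rw [abs_le]; exact ⟨by linarith [ht.1], ht.2⟩
      _ ≤ (Real.exp (B1 m B) + B) * ‖p.1‖ := by nlinarith [mul_nonneg he.le hz]

namespace TubeSys

variable {Ω Λ : Set E3} {h k : E3 → E3} {𝒟 : E3 → GD} {κ : E3 → ℝ}

/-- closeness in a slice of a tube -/
theorem close (T : TubeSys Ω Λ h k 𝒟 κ) (Fa : TubeFacts Ω h 𝒟 κ) {y p : E3}
    (H : InTube Ω h 𝒟 κ y p) :
    ‖p - y‖ ≤ (𝒟 y).M * κ y ∧ ‖fE Ω h 𝒟 κ p - h p‖ ≤ (𝒟 y).M * κ y := by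
  have hy := H.1
  have hκ := T.kpos hy
  have hS := (𝒟 y).nS_nonneg
  have hL := (𝒟 y).nL_nonneg
  have hB := (𝒟 y).planar.B_pos
  have he := Real.exp_pos (B1 (𝒟 y).m (𝒟 y).B)
  have hrc := (T.rcp.ball y hy.1).1
  obtain ⟨t1, t2⟩ := T.thin H
  have hM1 : (𝒟 y).nS ≤ (𝒟 y).M := by
    unfold GD.M
    have : 0 ≤ (𝒟 y).nL * (Real.exp (B1 (𝒟 y).m (𝒟 y).B) + 2 * (𝒟 y).B) := by positivity
    linarith
  have hM2 : (𝒟 y).nL * (Real.exp (B1 (𝒟 y).m (𝒟 y).B) + (𝒟 y).B) ≤ (𝒟 y).M := by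
    unfold GD.M
    have : (𝒟 y).nL * (Real.exp (B1 (𝒟 y).m (𝒟 y).B) + (𝒟 y).B) ≤
        (𝒟 y).nL * (Real.exp (B1 (𝒟 y).m (𝒟 y).B) + 2 * (𝒟 y).B) := by
      gcongr; linarith
    linarith
  refine ⟨t2.trans (by gcongr), ?_⟩
  have hr : ‖p - y‖ < rc h Ω y := by
    have := (𝒟 y).Rf_le
    nlinarith
  have hp := (T.rcp.ball y hy.1).2.2.2 (p - y) hr
  rw [add_sub_cancel] at hp
  rw [Fa.eq_loc y p H, hp, T.gs.fits y hy, loc, add_sub_add_left_eq_sub, ← map_sub]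
  calc ‖(𝒟 y).L (pm (𝒟 y).θ (fun x => κ (y + x • (𝒟 y).dir)) (lg (𝒟 y).F) (𝒟 y).f
          ((𝒟 y).Ψ (p - y)) - ((𝒟 y).F ((𝒟 y).Ψ (p - y)).1,
            ((𝒟 y).Ψ (p - y)).2 + (𝒟 y).f ((𝒟 y).Ψ (p - y)).1))‖
      ≤ (𝒟 y).nL * ‖pm (𝒟 y).θ (fun x => κ (y + x • (𝒟 y).dir)) (lg (𝒟 y).F) (𝒟 y).f
          ((𝒟 y).Ψ (p - y)) - ((𝒟 y).F ((𝒟 y).Ψ (p - y)).1,
            ((𝒟 y).Ψ (p - y)).2 + (𝒟 y).f ((𝒟 y).Ψ (p - y)).1)‖ :=
        ((𝒟 y).L : (ℂ × ℝ) →L[ℝ] E3).le_opNorm _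
    _ ≤ (𝒟 y).nL * ((Real.exp (B1 (𝒟 y).m (𝒟 y).B) + (𝒟 y).B) * ‖((𝒟 y).Ψ (p - y)).1‖) := by
        gcongr
        exact norm_pm_sub_le (𝒟 y).planar (𝒟 y).mem _
    _ ≤ (𝒟 y).nL * ((Real.exp (B1 (𝒟 y).m (𝒟 y).B) + (𝒟 y).B) * κ y) := by
        gcongr
        exact H.2.2.le
    _ = ((𝒟 y).nL * (Real.exp (B1 (𝒟 y).m (𝒟 y).B) + (𝒟 y).B)) * κ y := by ring
    _ ≤ (𝒟 y).M * κ y := by gcongr

end TubeSys

theorem specTC : SpecTC := by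
  intro Ω Λ h k 𝒟 κ T Fa δ hδ
  have key : ∀ p, fE Ω h 𝒟 κ p = h p ∨ ∃ y, InTube Ω h 𝒟 κ y p := by
    intro p
    by_cases H : ∃ y, InTube Ω h 𝒟 κ y p
    · exact Or.inr H
    · exact Or.inl (Fa.eq_h p fun y hy => H ⟨y, hy⟩)
  refine ⟨fun p => ?_, fun p => ?_, fun v hv => ?_⟩
  · rcases key p with h1 | ⟨y, hy⟩
    · exact Or.inl h1
    · obtain ⟨a1, a2⟩ := T.close Fa hy
      have a3 := (hδ y hy.1).2 p a1
      exact Or.inr ⟨y, hy.1, a1.trans_lt a3, a2.trans_lt a3⟩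
  · rcases key p with h1 | ⟨y, hy⟩
    · rw [h1, sub_self, norm_zero]; exact zero_le_one
    · exact (T.close Fa hy).2.trans (hδ y hy.1).1
  · apply Fa.eq_h
    intro y hy
    have h1 := T.rcp.vertex v hv y hy.1
    have h2 := (T.thin hy).1
    have h3 := (T.rcp.ball y hy.1.1).1
    have h4 := (𝒟 y).Rf_le
    rw [norm_sub_rev] at h1
    nlinarith

end P073.SM
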