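import Vale.Agent.P073.SM.TU

/-!
# P073, SMA: local pieces of the map with replaced edges
-/

namespace P073.SM

open Set Metric Topology Filter MeasureTheory
open scoped ContDiff
open Vale.Agent.P073 (DirMonotoneAt LipOn)

variable {Ω Λ : Set E3} {h k : E3 → E3} {𝒟 : E3 → GD} {κ : E3 → ℝ}

/-- foot points -/
theorem TubeSys.foot (T : TubeSys Ω Λ h k 𝒟 κ) {y0 p : E3} (hy0 : y0 ∈ stratum h Ω 1)
    (hp : ‖p - y0‖ < (𝒟 y0).Rf * rc h Ω y0) :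
    y0 + ((𝒟 y0).Ψ (p - y0)).2 • (𝒟 y0).dir ∈ stratum h Ω 1 ∧
      𝒟 (y0 + ((𝒟 y0).Ψ (p - y0)).2 • (𝒟 y0).dir) = 𝒟 y0 := by
  set D := 𝒟 y0 with hD
  set s : ℝ := (D.Ψ (p - y0)).2 with hs
  have hr0 := (T.rcp.ball y0 hy0.1).1
  have hΨ0 := D.nΨ_nonneg
  have hS0 := D.nS_nonneg
  have hR := D.Rf_pos
  have hs1 : |s| ≤ D.nΨ * ‖p - y0‖ := (norm_snd_le (D.Ψ (p - y0))).trans (D.norm_Ψ_le _)
  have hsd : ‖s • D.dir‖ < rc h Ω y0 := by
    rw [norm_smul, Real.norm_eq_abs]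
    calc |s| * ‖D.dir‖ ≤ (D.nΨ * ‖p - y0‖) * D.nS := by
          gcongr; exact D.norm_dir_le
      _ ≤ (D.nΨ * (D.Rf * rc h Ω y0)) * D.nS := by gcongr
      _ = (D.nΨ * D.nS) / (1 + D.nΨ * D.nS) * (rc h Ω y0 / 8) := by
          unfold GD.Rf; field_simp
      _ ≤ 1 * (rc h Ω y0 / 8) := by
          gcongr
          rw [div_le_one (by positivity)]; linarith
      _ < _ := by linarith
  have hlin : s • D.dir ∈ linSpace h y0 := by
    apply (T.gs.ker y0 hy0 _).1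
    rw [← hD, map_smul, GD.Ψ_dir]
    simp
  have hyS : y0 + s • D.dir ∈ stratum h Ω 1 := (T.rcp.edge y0 hy0 _ hsd).2 hlin
  exact ⟨hyS, T.gs.germ _ hyS y0 hy0 (T.rcp.along y0 hy0 _ hlin hsd).1⟩

theorem isOpen_diff_zero (I : Input Ω Λ h k) : IsOpen (Ω \ stratum h Ω 0) := by
  rw [Metric.isOpen_iff]
  intro x hx
  obtain ⟨r, hr, hb⟩ := Metric.isOpen_iff.1 (isOpen_stratum_gt I.openΩ I.con 0) x
    ⟨hx.1, Nat.pos_of_ne_zero fun h0 => hx.2 ⟨hx.1, h0⟩⟩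
  refine ⟨r, hr, fun y hy => ⟨(hb hy).1, fun h0 => ?_⟩⟩
  have h1 := (hb hy).2
  have h2 := h0.2
  omega

theorem TubeSys.contDiffAt (T : TubeSys Ω Λ h k 𝒟 κ) {y : E3} (hy : y ∈ stratum h Ω 1) :
    ContDiffAt ℝ ∞ κ y :=
  (T.ks.smooth y ⟨hy.1, stratum_one_notMem_zero hy⟩).contDiffAt
    ((isOpen_diff_zero T.inp).mem_nhds ⟨hy.1, stratum_one_notMem_zero hy⟩)

/-- the restriction of `κ` to the edge -/
theorem TubeSys.kedge (T : TubeSys Ω Λ h k 𝒟 κ) {y0 p : E3} (hy0 : y0 ∈ stratum h Ω 1)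
    (hp : ‖p - y0‖ < (𝒟 y0).Rf * rc h Ω y0) :
    ContDiffAt ℝ ∞ (fun x : ℝ => κ (y0 + x • (𝒟 y0).dir)) ((𝒟 y0).Ψ (p - y0)).2 ∧
    0 < κ (y0 + ((𝒟 y0).Ψ (p - y0)).2 • (𝒟 y0).dir) ∧
    |deriv (fun x : ℝ => κ (y0 + x • (𝒟 y0).dir)) ((𝒟 y0).Ψ (p - y0)).2| ≤ 1 := by
  obtain ⟨hy, hg⟩ := T.foot hy0 hp
  set D := 𝒟 y0 with hD
  set s : ℝ := (D.Ψ (p - y0)).2 with hs
  have hκ := T.contDiffAt hy
  have h1 : ContDiffAt ℝ ∞ (fun x : ℝ => y0 + x • D.dir) s :=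
    contDiffAt_const.add (contDiffAt_id.smul contDiffAt_const)
  refine ⟨ContDiffAt.comp s (g := κ) hκ h1, T.kpos hy, ?_⟩
  have h2 : HasDerivAt (fun x : ℝ => y0 + x • D.dir) D.dir s := by
    have := ((hasDerivAt_id s).smul_const D.dir).const_add y0
    simpa using this
  have h3 : HasFDerivAt κ (fderiv ℝ κ (y0 + s • D.dir)) (y0 + s • D.dir) :=
    (hκ.differentiableAt (by simp)).hasFDerivAt
  have h4 := h3.comp_hasDerivAt s h2
  have h5 : deriv (fun x : ℝ => κ (y0 + x • D.dir)) s = fderiv ℝ κ (y0 + s • D.dir) D.dir :=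
    h4.deriv
  rw [h5]
  have h6 := T.ks.slope _ hy
  rw [hg] at h6
  exact ((fderiv ℝ κ (y0 + s • D.dir)).le_opNorm D.dir).trans h6

theorem one_le_Cp {B : ℝ} (hB : 0 ≤ B) : 1 ≤ Cp B := by
  unfold Cp
  have h1 : 1 ≤ Real.exp B := Real.one_le_exp hB
  nlinarith

/-- near the axis the slow path is the identity -/
theorem pm_axis (D : GD) {k : ℝ → ℝ} {x0 : ℝ} (hk : ContinuousAt k x0) (hk0 : 0 < k x0) :
    ∀ᶠ p : ℂ × ℝ in 𝓝 (0, x0), pm D.θ k (lg D.F) D.f p = p := by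
  have h1 : ContinuousAt (fun p : ℂ × ℝ => Complex.normSq p.1) (0, x0) :=
    (Complex.continuous_normSq.comp continuous_fst).continuousAt
  have h2 : ContinuousAt (fun p : ℂ × ℝ => k p.2) (0, x0) :=
    ContinuousAt.comp (x := ((0 : ℂ), x0)) (f := fun p : ℂ × ℝ => p.2) (g := k) hk continuousAt_snd
  have h3 : ContinuousAt (fun p : ℂ × ℝ => D.a * k p.2 ^ 2) (0, x0) :=
    continuousAt_const.mul (h2.pow 2)
  have h4 : ∀ᶠ p : ℂ × ℝ in 𝓝 (0, x0), Complex.normSq p.1 < D.a * k p.2 ^ 2 := by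
    apply h1.eventually_lt h3
    simp only [map_zero]
    have := D.a_pos
    positivity
  have h5 : ∀ᶠ p : ℂ × ℝ in 𝓝 (0, x0), 0 < k p.2 := h2.eventually_const_lt hk0
  filter_upwards [h4, h5] with p hp hp'
  have ht : tpar D.θ k p = 1 := by
    unfold tpar
    apply D.one
    rw [div_le_iff₀ (by positivity)]
    exact hp.le
  unfold pm
  rw [ht, sub_self]
  simp

theorem twoPiece_axis (D : GD) {k : ℝ → ℝ} {x0 : ℝ} (hk : ContinuousAt k x0) (hk0 : 0 < k x0) :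
    TwoPiece (pm D.θ k (lg D.F) D.f) (0, x0) (Cp (B1 D.m D.B)) := by
  have hC := one_le_Cp D.planar.B1_nonneg
  have hn : ‖fderiv ℝ (fun p : ℂ × ℝ => p) (0, x0)‖ ≤ Cp (B1 D.m D.B) := by
    have : fderiv ℝ (fun p : ℂ × ℝ => p) (0, x0) = ContinuousLinearMap.id ℝ (ℂ × ℝ) :=
      (hasFDerivAt_id _).fderiv
    rw [this]
    exact ContinuousLinearMap.norm_id_le.trans hC
  refine ⟨fun p => p, fun p => p, 0, contDiffAt_id, contDiffAt_id, ?_, ?_, hn, hn⟩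
  · filter_upwards [pm_axis D hk hk0] with p hp
    exact ⟨fun _ => hp, fun _ => hp⟩
  · intro s _ v hv
    have : fderiv ℝ (fun p : ℂ × ℝ => p) (0, x0) = ContinuousLinearMap.id ℝ (ℂ × ℝ) :=
      (hasFDerivAt_id _).fderiv
    rw [this] at hv
    simp only [ContinuousLinearMap.id_apply] at hv
    rw [← add_smul, add_sub_cancel, one_smul] at hv
    exact hv

theorem specTP : SpecTP := by
  intro Ω Λ h k 𝒟 κ T Fa x hx hx0
  by_cases H : ∀ y ∈ stratum h Ω 1, (𝒟 y).Rf * rc h Ω y ≤ ‖x - y‖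
  · left
    refine ⟨Fa.far x hx hx0 H, fun h1 => ?_⟩
    have h2 := H x h1
    have h3 := mul_pos (𝒟 x).Rf_pos (T.rcp.ball x hx).1
    rw [sub_self, norm_zero] at h2
    linarith
  · right
    push Not at H
    obtain ⟨y, hy, hxy⟩ := H
    refine ⟨y, hy, hxy, ?_⟩
    obtain ⟨k1, k2, k3⟩ := T.kedge hy hxy
    set D := 𝒟 y with hD
    have hev : ∀ᶠ p in 𝓝 x, fE Ω h 𝒟 κ p = h y + D.L (pm D.θ
        (fun x => κ (y + x • D.dir)) (lg D.F) D.f (D.Ψ (p - y))) := by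
      have : ∀ᶠ p in 𝓝 x, ‖p - y‖ < D.Rf * rc h Ω y := by
        have hc : ContinuousAt (fun p : E3 => ‖p - y‖) x := by fun_prop
        exact hc.eventually_lt_const hxy
      filter_upwards [this] with p hp
      exact Fa.near y hy p hp
    have hK : D.K - 1 = ‖(D.L : (ℂ × ℝ) →L[ℝ] E3)‖ * Cp (B1 D.m D.B) *
        ‖(D.Ψ : E3 →L[ℝ] ℂ × ℝ)‖ := by
      unfold GD.K GD.nL GD.nΨ; ring
    rw [hK]
    set z0 : ℂ := (D.Ψ (x - y)).1 with hz0
    by_cases hz : z0 = 0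
    · refine TwoPiece.comp (p0 := (0, (D.Ψ (x - y)).2)) (twoPiece_axis D k1.continuousAt k2)
        D.Ψ D.L ?_ hev
      rw [← hz]
    · exact TwoPiece.comp (p0 := (z0, (D.Ψ (x - y)).2))
        (D.planar.twoPiece hz D.smooth D.zero D.mem D.slow D.q1 D.qc k1 k2 k3) D.Ψ D.L rfl hev

theorem specTA : SpecTA := by
  intro Ω Λ h k 𝒟 κ T Fa y hy
  have hR := mul_pos (𝒟 y).Rf_pos (T.rcp.ball y hy.1).1
  have hyy : ‖y - y‖ < (𝒟 y).Rf * rc h Ω y := by rwa [sub_self, norm_zero]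
  obtain ⟨k1, k2, -⟩ := T.kedge hy hyy
  set D := 𝒟 y with hD
  rw [sub_self, map_zero, Prod.snd_zero] at k1 k2
  refine ⟨(D.L : (ℂ × ℝ) →L[ℝ] E3).comp (D.Ψ : E3 →L[ℝ] ℂ × ℝ), h y - D.L (D.Ψ y), ?_, ?_⟩
  · have h1 : ∀ᶠ p in 𝓝 y, ‖p - y‖ < D.Rf * rc h Ω y := by
      have hc : ContinuousAt (fun p : E3 => ‖p - y‖) y := by fun_prop
      exact hc.eventually_lt_const hyy
    have h2 : Tendsto (fun p : E3 => D.Ψ (p - y)) (𝓝 y) (𝓝 (0, 0)) := by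
      have hc : ContinuousAt (fun p : E3 => D.Ψ (p - y)) y := by fun_prop
      have h3 := hc.tendsto
      simp only [sub_self, map_zero] at h3
      exact h3
    filter_upwards [h1, h2.eventually (pm_axis D k1.continuousAt k2)] with p hp hp2
    rw [Fa.near y hy p hp, loc, ← hD, hp2]
    simp only [ContinuousLinearMap.comp_apply, ContinuousLinearEquiv.coe_coe, map_sub]
    abel
  · intro w hw
    have h1 := (T.gs.ker y hy w).2 hw
    rw [T.gs.fits y hy, ← hD, h1, D.planar.zero, D.planar.zerof, add_zero]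
    simp only [ContinuousLinearMap.comp_apply, ContinuousLinearEquiv.coe_coe]
    congr 1
    exact Prod.ext h1 rfl

end P073.SM
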