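import Vale.Agent.P073.SM.Spec4
import Vale.Agent.P073.SM.TP

/-!
# P073, block SMA, part TE: assembly of the edge replacement
-/

namespace P073.SM

open Set Metric Topology Filter MeasureTheory
open scoped ENNReal ContDiff
open Vale.Agent.P073 (LipOn PII DirMonotoneAt)

namespace TE

/-- directional monotonicity is a local property -/
theorem dirMonotoneAt_congr {f g : E3 → E3} {x : E3} (h : DirMonotoneAt f x)
    (hfg : ∀ᶠ y in 𝓝 x, g y = f y) : DirMonotoneAt g x := by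
  obtain ⟨⟨U, hU, L, hL⟩, hd⟩ := h
  obtain ⟨W, hW1, hW2⟩ : ∃ W ∈ 𝓝 x, ∀ y ∈ W, g y = f y := ⟨_, hfg, fun y hy => hy⟩
  refine ⟨⟨U ∩ W, inter_mem hU hW1, L, fun y hy z hz => ?_⟩, fun v hv => ?_⟩
  · rw [hW2 y hy.2, hW2 z hz.2]
    exact hL hy.1 hz.1
  · obtain ⟨n, V, hV, h1⟩ := hd v hv
    refine ⟨n, V ∩ W, inter_mem hV hW1, fun y hy t ht hyt => ?_⟩
    rw [hW2 y hy.2, hW2 _ hyt.2]
    exact h1 y hy.1 t ht hyt.1

theorem lipOn_congr {f g : E3 → E3} {x : E3} {L : ℝ} (h : ∃ r > 0, LipOn f (ball x r) L)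
    (hfg : ∀ᶠ y in 𝓝 x, g y = f y) : ∃ r > 0, LipOn g (ball x r) L := by
  obtain ⟨r, hr, h1⟩ := h
  obtain ⟨s, hs, h2⟩ := Metric.eventually_nhds_iff_ball.1 hfg
  refine ⟨min r s, lt_min hr hs, fun y hy z hz => ?_⟩
  rw [h2 y (ball_subset_ball (min_le_right _ _) hy), h2 z (ball_subset_ball (min_le_right _ _) hz)]
  exact h1 y (ball_subset_ball (min_le_left _ _) hy) z (ball_subset_ball (min_le_left _ _) hz)

theorem continuousAt_of_lipOn {f : E3 → E3} {x : E3} {L : ℝ} (h : ∃ r > 0, LipOn f (ball x r) L) :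
    ContinuousAt f x := by
  obtain ⟨r, hr, h1⟩ := h
  have h2 : LipschitzOnWith (Real.toNNReal |L|) f (ball x r) := by
    apply LipschitzOnWith.of_dist_le_mul
    intro y hy z hz
    rw [dist_eq_norm, dist_eq_norm, Real.coe_toNNReal _ (abs_nonneg L)]
    refine (h1 y hy z hz).trans ?_
    gcongr
    exact le_abs_self L
  exact h2.continuousOn.continuousAt (ball_mem_nhds x hr)

/-- the final form, from a map `g` which is good near the points of `Ω` -/
theorem assemble {Ω Λ : Set E3} {h k : E3 → E3} (I : Input Ω Λ h k) {C δ : E3 → ℝ} (g : E3 → E3)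
    (hlip : ∀ x ∈ Ω, x ∉ stratum h Ω 0 → ∃ r > 0, LipOn g (ball x r) (C x))
    (hdir : ∀ x ∈ Ω, x ∉ stratum h Ω 0 → DirMonotoneAt g x)
    (hhom : HomNear g (stratum h Ω 0)) (hv : ∀ v ∈ stratum h Ω 0, g v = h v)
    (hb : ∀ x ∈ Ω, ‖g x - h x‖ ≤ 1)
    (hδ : ∀ x ∈ Ω, x ∉ stratum h Ω 0 → ‖g x - h x‖ < δ x)
    (hA : ∀ y ∈ stratum h Ω 1, ∃ (A : E3 →L[ℝ] E3) (b : E3), (∀ᶠ x in 𝓝 y, g x = b + A x) ∧
        ∀ w ∈ linSpace h y, A w = tcone h y w)
    (hS : ∀ x ∈ Ω, g x ≠ h x → ∃ y ∈ stratum h Ω 1, ‖x - y‖ < δ x) :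
    ∃ f : E3 → E3, LocallyIntegrable f ∧ ContinuousOn f Ω ∧
      (∀ x ∈ Ω, x ∉ stratum h Ω 0 → DirMonotoneAt f x) ∧
      (∀ v ∈ stratum h Ω 0, f v = h v) ∧ HomNear f (stratum h Ω 0) ∧
      (∀ x ∈ Ω, x ∉ stratum h Ω 0 → ∃ r > 0, LipOn f (ball x r) (C x)) ∧
      (∀ x ∈ Ω, x ∉ stratum h Ω 0 → ‖f x - h x‖ < δ x) ∧
      (∀ y ∈ stratum h Ω 1, ∃ (A : E3 →L[ℝ] E3) (b : E3), (∀ᶠ x in 𝓝 y, f x = b + A x) ∧
        ∀ w ∈ linSpace h y, A w = tcone h y w) ∧
      ∀ x ∈ Ω, f x ≠ h x → ∃ y ∈ stratum h Ω 1, ‖x - y‖ < δ x := by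
  classical
  -- a bound
  obtain ⟨B, hB⟩ : ∃ B : ℝ, ∀ x ∈ Ω, ‖g x‖ ≤ B := by
    obtain ⟨B, hB⟩ := I.bddΛ.exists_norm_le
    refine ⟨B + 1, fun x hx => ?_⟩
    have h1 := hB (h x) (I.homeo.maps hx)
    have h2 := hb x hx
    calc ‖g x‖ = ‖(g x - h x) + h x‖ := by congr 1; abel
      _ ≤ ‖g x - h x‖ + ‖h x‖ := norm_add_le _ _
      _ ≤ _ := by linarith
  let f : E3 → E3 := Ω.indicator g
  have hf : ∀ x ∈ Ω, f x = g x := fun x hx => indicator_of_mem hx g
  have hfe : ∀ x ∈ Ω, ∀ᶠ y in 𝓝 x, f y = g y := fun x hx => by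
    filter_upwards [I.openΩ.mem_nhds hx] with y hy using hf y hy
  have hhomf : HomNear f (stratum h Ω 0) := by
    intro v hv0
    obtain ⟨r, hr, h1⟩ := hhom v hv0
    obtain ⟨s, hs, h2⟩ := Metric.isOpen_iff.1 I.openΩ v hv0.1
    refine ⟨min r s, lt_min hr hs, fun y hy t ht => ?_⟩
    have hys : ‖y‖ < s := hy.trans_le (min_le_right _ _)
    have m1 : v + y ∈ Ω := h2 (by rwa [mem_ball, dist_eq_norm, add_sub_cancel_left])
    have m2 : v + t • y ∈ Ω := h2 (by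
      rw [mem_ball, dist_eq_norm, add_sub_cancel_left, norm_smul, Real.norm_of_nonneg ht.1.le]
      exact (mul_le_of_le_one_left (norm_nonneg _) ht.2).trans_lt hys)
    rw [hf _ m1, hf _ m2, hf _ hv0.1]
    exact h1 y (hy.trans_le (min_le_left _ _)) t ht
  have hcont : ContinuousOn f Ω := by
    intro x hx
    apply ContinuousAt.continuousWithinAt
    by_cases hx0 : x ∈ stratum h Ω 0
    · -- continuity at a vertex
      obtain ⟨r, hr, h1⟩ := hhomf x hx0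
      obtain ⟨s, hs, h2⟩ := Metric.isOpen_iff.1 I.openΩ x hx
      set ρ := min r s / 2 with hρ
      have hrs : 0 < min r s := lt_min hr hs
      have hρ0 : 0 < ρ := by positivity
      have hρr : ρ < r := by have := min_le_left r s; rw [hρ]; linarith
      have hρs : ρ < s := by have := min_le_right r s; rw [hρ]; linarith
      have hB0 : 0 ≤ B := (norm_nonneg _).trans (hB x hx)
      have key : ∀ y ∈ ball x ρ, ‖f y - f x‖ ≤ (2 * B / ρ) * ‖y - x‖ := by
        intro y hy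
        rw [mem_ball, dist_eq_norm] at hy
        by_cases hyx : y = x
        · rw [hyx]; simp
        have hn : 0 < ‖y - x‖ := norm_pos_iff.2 (sub_ne_zero.2 hyx)
        set t := ‖y - x‖ / ρ with ht
        have ht0 : 0 < t := by positivity
        have ht1 : t ≤ 1 := by rw [ht, div_le_one hρ0]; exact hy.le
        have hzn : ‖t⁻¹ • (y - x)‖ = ρ := by
          rw [norm_smul, norm_inv, Real.norm_of_nonneg ht0.le, ht]
          field_simp
        have h3 := h1 (t⁻¹ • (y - x)) (by rw [hzn]; exact hρr) t ⟨ht0, ht1⟩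
        rw [smul_smul, mul_inv_cancel₀ ht0.ne', one_smul, add_sub_cancel] at h3
        have m1 : x + t⁻¹ • (y - x) ∈ Ω := h2 (by
          rw [mem_ball, dist_eq_norm, add_sub_cancel_left, hzn]; exact hρs)
        rw [h3, add_sub_cancel_left, norm_smul, Real.norm_of_nonneg ht0.le]
        have h4 : ‖f (x + t⁻¹ • (y - x)) - f x‖ ≤ 2 * B := by
          refine (norm_sub_le _ _).trans ?_
          rw [hf _ m1, hf _ hx]
          linarith [hB _ m1, hB _ hx]
        calc t * ‖f (x + t⁻¹ • (y - x)) - f x‖ ≤ t * (2 * B) := by gcongr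
          _ = (2 * B / ρ) * ‖y - x‖ := by rw [ht]; ring
      rw [Metric.continuousAt_iff]
      intro ε hε
      refine ⟨min ρ (ε / (2 * B / ρ + 1)), by positivity, fun {y} hy => ?_⟩
      have h5 : y ∈ ball x ρ := mem_ball.2 (hy.trans_le (min_le_left _ _))
      have h6 : ‖y - x‖ < ε / (2 * B / ρ + 1) := by
        rw [← dist_eq_norm]; exact hy.trans_le (min_le_right _ _)
      rw [dist_eq_norm]
      have hpos : 0 < 2 * B / ρ + 1 := by positivity
      rw [lt_div_iff₀ hpos] at h6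
      calc ‖f y - f x‖ ≤ (2 * B / ρ) * ‖y - x‖ := key y h5
        _ ≤ ‖y - x‖ * (2 * B / ρ + 1) := by nlinarith [norm_nonneg (y - x)]
        _ < ε := h6
    · exact continuousAt_of_lipOn (lipOn_congr (hlip x hx hx0) (hfe x hx))
  refine ⟨f, ?_, hcont, ?_, ?_, hhomf, ?_, ?_, ?_, ?_⟩
  · -- local integrability
    have hmeas : AEStronglyMeasurable f volume := by
      have : AEStronglyMeasurable (Ω.indicator f) volume :=
        (aestronglyMeasurable_indicator_iff I.openΩ.measurableSet).2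
          (hcont.aestronglyMeasurable I.openΩ.measurableSet)
      rwa [show Ω.indicator f = f by rw [indicator_indicator, inter_self]] at this
    intro x
    refine ⟨ball x 1, ball_mem_nhds x one_pos, ?_⟩
    have hfin : volume (ball x (1:ℝ)) < ⊤ := measure_ball_lt_top
    refine Measure.integrableOn_of_bounded (M := |B|) hfin.ne hmeas ?_
    refine Eventually.of_forall fun y => ?_
    by_cases hy : y ∈ Ω
    · rw [hf y hy]; exact (hB y hy).trans (le_abs_self B)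
    · have : f y = 0 := indicator_of_notMem hy g
      rw [this, norm_zero]; exact abs_nonneg B
  · exact fun x hx hx0 => dirMonotoneAt_congr (hdir x hx hx0) (hfe x hx)
  · intro v hv0
    rw [hf v hv0.1, hv v hv0]
  · exact fun x hx hx0 => lipOn_congr (hlip x hx hx0) (hfe x hx)
  · intro x hx hx0
    rw [hf x hx]; exact hδ x hx hx0
  · intro y hy
    obtain ⟨A, b, h1, h2⟩ := hA y hy
    refine ⟨A, b, ?_, h2⟩
    filter_upwards [h1, hfe y hy.1] with x h3 h4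
    rw [h4, h3]
  · intro x hx hne
    rw [hf x hx] at hne
    exact hS x hx hne

/-- a local Lipschitz bound for `h` -/
theorem exists_C {Ω Λ : Set E3} {h k : E3 → E3} (I : Input Ω Λ h k) :
    ∃ C : E3 → ℝ, (∀ x ∈ Ω, ∃ M, ∀ᶠ y in 𝓝 x, C y ≤ M) ∧
      ∀ x ∈ Ω, ∃ r > 0, LipOn h (ball x r) (C x) := by
  let A : E3 → Set ℝ := fun x => {M | 0 ≤ M ∧ ∃ r > 0, LipOn h (ball x r) M}
  have hAb : ∀ x, BddBelow (A x) := fun x => ⟨0, fun M hM => hM.1⟩
  refine ⟨fun x => sInf (A x) + 1, fun x hx => ?_, fun x hx => ?_⟩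
  · obtain ⟨δ, hδ, hb, M, hM⟩ := exists_lipschitz_near I.openΩ I.con I.homeo.cont hx
    refine ⟨M + 1, ?_⟩
    filter_upwards [ball_mem_nhds x (half_pos hδ)] with y hy
    have : (M : ℝ) ∈ A y := by
      refine ⟨M.2, δ / 2, half_pos hδ, fun p hp q hq => ?_⟩
      have hsub : ball y (δ / 2) ⊆ ball x δ := by
        apply ball_subset_ball'
        rw [mem_ball] at hy
        linarith
      have := hM.dist_le_mul p (hsub hp) q (hsub hq)
      rwa [dist_eq_norm, dist_eq_norm] at this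
    have := csInf_le (hAb y) this
    linarith
  · obtain ⟨δ, hδ, hb, M, hM⟩ := exists_lipschitz_near I.openΩ I.con I.homeo.cont hx
    have hne : (A x).Nonempty := ⟨M, M.2, δ, hδ, fun p hp q hq => by
      have := hM.dist_le_mul p hp q hq
      rwa [dist_eq_norm, dist_eq_norm] at this⟩
    obtain ⟨M', hM', hlt⟩ := exists_lt_of_csInf_lt hne (lt_add_one (sInf (A x)))
    obtain ⟨r, hr, h1⟩ := hM'.2
    refine ⟨r, hr, fun p hp q hq => (h1 p hp q hq).trans ?_⟩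
    gcongr

theorem homNear_h {Ω Λ : Set E3} {h k : E3 → E3} (I : Input Ω Λ h k) :
    HomNear h (stratum h Ω 0) := by
  intro v hv
  obtain ⟨r, hr, H⟩ := I.con.conicalAt I.openΩ hv.1
  exact ⟨r, hr, fun y hy t ht => H y hy.le t ⟨ht.1.le, ht.2⟩⟩

theorem two_le {Ω : Set E3} {h : E3 → E3} {x : E3} (hx : x ∈ Ω) (h0 : x ∉ stratum h Ω 0)
    (h1 : x ∉ stratum h Ω 1) : 2 ≤ Module.finrank ℝ (linSpace h x) := by
  by_contra hcon
  push Not at hcon
  have : Module.finrank ℝ (linSpace h x) = 0 ∨ Module.finrank ℝ (linSpace h x) = 1 := by omega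
  rcases this with h2 | h2
  · exact h0 ⟨hx, h2⟩
  · exact h1 ⟨hx, h2⟩

end TE

open TE

/-- **(TE)** -/
theorem specTE : SpecTE := by
  intro hRC hGS hKS hTU hTP hTA hTH hTC hTK hCR Ω Λ h k I
  have hδpos : ∀ δ : E3 → ℝ, LowerBd Ω (stratum h Ω 0) δ → ∀ x ∈ Ω, x ∉ stratum h Ω 0 → 0 < δ x := by
    intro δ hδ x hx hx0
    obtain ⟨a, ha, h1⟩ := hδ.1 x hx hx0
    exact ha.trans_le h1.self_of_nhds
  by_cases hne : (stratum h Ω 1).Nonempty
  · obtain ⟨𝒟, h𝒟⟩ := hGS Ω Λ h k I hne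
    have R := hRC Ω Λ h k I
    obtain ⟨C, hC1, hC2, hC3⟩ := hTK Ω Λ h k I R 𝒟 h𝒟
    refine ⟨C, hC1, fun δ hδ => ?_⟩
    obtain ⟨κ, hκ, hκδ⟩ := hKS Ω Λ h k I R 𝒟 h𝒟 δ hδ
    have T : TubeSys Ω Λ h k 𝒟 κ := ⟨I, R, h𝒟, hκ⟩
    have Fa := hTU Ω Λ h k 𝒟 κ T
    obtain ⟨c1, c2, c3⟩ := hTC Ω Λ h k 𝒟 κ T Fa δ hκδ
    have hP := hTP Ω Λ h k 𝒟 κ T Fa
    refine assemble I (fE Ω h 𝒟 κ) ?_ ?_ (hTH Ω Λ h k 𝒟 κ T Fa) c3 (fun x _ => c2 x) ?_
      (hTA Ω Λ h k 𝒟 κ T Fa) ?_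
    · intro x hx hx0
      rcases hP x hx hx0 with ⟨h1, -⟩ | ⟨y, hy, h1, h2⟩
      · exact lipOn_congr (hC3 x hx) h1
      · obtain ⟨r, hr, h3⟩ := h2.lip
        refine ⟨r, hr, fun p hp q hq => (h3 p hp q hq).trans ?_⟩
        have := hC2 x y hy h1
        gcongr
        linarith
    · intro x hx hx0
      rcases hP x hx hx0 with ⟨h1, h2⟩ | ⟨y, hy, h1, h2⟩
      · exact dirMonotoneAt_congr (hCR Ω Λ h k I x hx (two_le hx hx0 h2)) h1
      · exact h2.dirMonotoneAt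
    · intro x hx hx0
      rcases c1 x with h1 | ⟨y, hy, h1, h2⟩
      · rw [h1, sub_self, norm_zero]; exact hδpos δ hδ x hx hx0
      · exact h2
    · intro x hx hne'
      rcases c1 x with h1 | ⟨y, hy, h1, h2⟩
      · exact absurd h1 hne'
      · exact ⟨y, hy, h1⟩
  · have hno : ∀ x, x ∉ stratum h Ω 1 := fun x hx => hne ⟨x, hx⟩
    obtain ⟨C, hC1, hC2⟩ := exists_C I
    refine ⟨C, hC1, fun δ hδ => ?_⟩
    refine assemble I h (fun x hx _ => hC2 x hx)
      (fun x hx hx0 => hCR Ω Λ h k I x hx (two_le hx hx0 (hno x))) (homNear_h I) (fun _ _ => rfl)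
      (fun x _ => by rw [sub_self, norm_zero]; exact zero_le_one)
      (fun x hx hx0 => by rw [sub_self, norm_zero]; exact hδpos δ hδ x hx hx0)
      (fun y hy => absurd hy (hno y)) (fun x _ hne' => absurd rfl hne')

end P073.SM
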