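import Vale.Agent.P073.SM.Spec4

/-!
# P073, block SMA, part TH (helper67): homogeneity of the map with replaced edges
-/

namespace P073.SM

open Set Metric Topology Filter
open scoped ContDiff

/-- the logarithmic displacement is invariant under scaling -/
theorem lg_scale {F : ℂ → ℂ} {f : ℂ → ℝ} {m B : ℝ} (H : Planar F f m B) {t : ℝ} (ht : 0 < t)
    (z : ℂ) : lg F (t * z) = lg F z := by
  unfold lg
  by_cases hz : z = 0
  · rw [hz, mul_zero]
  · rw [H.hom t ht.le z, Complex.log_ofReal_mul ht (H.ne_zero hz), Complex.log_ofReal_mul ht hz]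
    ring

/-- the slow path is positively homogeneous in the slices -/
theorem pm_scale {F : ℂ → ℂ} {f : ℂ → ℝ} {m B : ℝ} (H : Planar F f m B) {t : ℝ} (ht : 0 < t)
    (θ κ κ' : ℝ → ℝ) (hκ : κ' 0 = t * κ 0) (z : ℂ) :
    pm θ κ' (lg F) f (t * z, 0) = t • pm θ κ (lg F) f (z, 0) := by
  have h1 : tpar θ κ' (t * z, 0) = tpar θ κ (z, 0) := by
    unfold tpar
    show θ (Complex.normSq ((t : ℂ) * z) / κ' 0 ^ 2) = θ (Complex.normSq z / κ 0 ^ 2)
    congr 1
    rw [hκ, map_mul, Complex.normSq_ofReal, mul_pow, ← pow_two]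
    exact mul_div_mul_left _ _ (pow_pos ht 2).ne'
  unfold pm
  rw [h1]
  apply Prod.ext
  · show (t : ℂ) * z * Complex.exp (((1 - tpar θ κ (z, 0) : ℝ) : ℂ) * lg F (t * z)) =
      t • (z * Complex.exp (((1 - tpar θ κ (z, 0) : ℝ) : ℂ) * lg F z))
    rw [lg_scale H ht, Complex.real_smul]
    ring
  · show (0:ℝ) + (1 - tpar θ κ (z, 0)) * f (t * z) = t • (0 + (1 - tpar θ κ (z, 0)) * f z)
    rw [H.homf t ht.le z, smul_eq_mul]
    ring

section

variable {Ω Λ : Set E3} {h k : E3 → E3} {𝒟 : E3 → GD} {κ : E3 → ℝ}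
  (H : TubeSys Ω Λ h k 𝒟 κ) (TF : TubeFacts Ω h 𝒟 κ)

include H TF

/-- points of a slice are much closer to the edge than the vertices -/
theorem slice_vertex {v y p : E3} (hv : v ∈ stratum h Ω 0) (hp : InTube Ω h 𝒟 κ y p) :
    ‖p - y‖ ≤ ‖y - v‖ / 16 ∧ 0 < ‖y - v‖ := by
  have h1 := (TF.thin y p hp).1
  have h2 := H.rcp.vertex v hv y hp.1
  have h3 := (𝒟 y).Rf_le
  have h4 := (H.rcp.ball y hp.1.1).1
  refine ⟨?_, h4.trans_le h2⟩
  calc ‖p - y‖ ≤ (𝒟 y).Rf * rc h Ω y / 2 := h1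
    _ ≤ 1 / 8 * ‖y - v‖ / 2 := by
      have := mul_le_mul h3 h2 h4.le (by norm_num)
      linarith
    _ = ‖y - v‖ / 16 := by ring

theorem fE_vertex {v : E3} (hv : v ∈ stratum h Ω 0) : fE Ω h 𝒟 κ v = h v := by
  refine TF.eq_h v fun y hy => ?_
  obtain ⟨h1, h2⟩ := slice_vertex H TF hv hy
  rw [norm_sub_rev] at h1
  linarith

end

theorem specTH : SpecTH := by
  intro Ω Λ h k 𝒟 κ H TF v hv
  obtain ⟨r1, hr1, hb, hhom⟩ := H.rcp.hom v hv
  obtain ⟨c, hc, hce⟩ := H.ks.radial v hv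
  obtain ⟨r2, hr2, hrad⟩ := Metric.eventually_nhds_iff_ball.1 hce
  have hr : 0 < min r1 r2 / 2 := half_pos (lt_min hr1 hr2)
  refine ⟨min r1 r2 / 2, hr, ?_⟩
  -- scaling of slices
  have key : ∀ e u : E3, ‖e‖ < min r1 r2 → ∀ t ∈ Ioc (0:ℝ) 1,
      InTube Ω h 𝒟 κ (v + e) (v + u) ∨ InTube Ω h 𝒟 κ (v + t • e) (v + t • u) →
      InTube Ω h 𝒟 κ (v + e) (v + u) ∧ InTube Ω h 𝒟 κ (v + t • e) (v + t • u) ∧
        loc h 𝒟 κ (v + t • e) (v + t • u) = h v + t • (loc h 𝒟 κ (v + e) (v + u) - h v) := by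
    intro e u he t ht hor
    have he1 : ‖e‖ < r1 := he.trans_le (min_le_left _ _)
    have he2 : ‖e‖ < r2 := he.trans_le (min_le_right _ _)
    obtain ⟨g1, g2, g3⟩ := hhom e he1 t ht
    have hst : v + e ∈ stratum h Ω 1 := by
      rcases hor with h1 | h1
      · exact h1.1
      · exact g1.1 h1.1
    have hst' : v + t • e ∈ stratum h Ω 1 := g1.2 hst
    have hD : 𝒟 (v + t • e) = 𝒟 (v + e) := H.gs.germ _ hst' _ hst g2
    have hk1 : κ (v + e) = c * ‖e‖ := by
      rw [hrad (v + e) (by rw [mem_ball, dist_eq_norm, add_sub_cancel_left]; exact he2),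
        add_sub_cancel_left]
    have hte : ‖t • e‖ = t * ‖e‖ := by rw [norm_smul, Real.norm_of_nonneg ht.1.le]
    have hk2 : κ (v + t • e) = t * κ (v + e) := by
      rw [hrad (v + t • e) (by
        rw [mem_ball, dist_eq_norm, add_sub_cancel_left, hte]
        exact (mul_le_of_le_one_left (norm_nonneg _) ht.2).trans_lt he2),
        add_sub_cancel_left, hte, hk1]
      ring
    have e1 : v + u - (v + e) = u - e := by abel
    have e2 : v + t • u - (v + t • e) = t • (u - e) := by module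
    have e3 : (𝒟 (v + e)).Ψ (t • (u - e)) = t • (𝒟 (v + e)).Ψ (u - e) := map_smul _ _ _
    have hiff : InTube Ω h 𝒟 κ (v + e) (v + u) ↔
        InTube Ω h 𝒟 κ (v + t • e) (v + t • u) := by
      unfold InTube
      rw [hD, e1, e2, e3, hk2, Prod.smul_snd, Prod.smul_fst, norm_smul,
        Real.norm_of_nonneg ht.1.le, smul_eq_mul]
      constructor
      · rintro ⟨-, a2, a3⟩
        exact ⟨hst', by rw [a2, mul_zero], mul_lt_mul_of_pos_left a3 ht.1⟩
      · rintro ⟨-, a2, a3⟩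
        exact ⟨hst, (mul_eq_zero.1 a2).resolve_left ht.1.ne', lt_of_mul_lt_mul_left a3 ht.1.le⟩
    have hboth : InTube Ω h 𝒟 κ (v + e) (v + u) ∧ InTube Ω h 𝒟 κ (v + t • e) (v + t • u) := by
      rcases hor with h1 | h1
      · exact ⟨h1, hiff.1 h1⟩
      · exact ⟨hiff.2 h1, h1⟩
    refine ⟨hboth.1, hboth.2, ?_⟩
    have hz : (𝒟 (v + e)).Ψ (u - e) = (((𝒟 (v + e)).Ψ (u - e)).1, 0) := by
      have := hboth.1.2.1
      rw [e1] at this
      exact Prod.ext rfl this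
    unfold loc
    rw [hD, e1, e2, e3, g3]
    set D := 𝒟 (v + e) with hDd
    set z := (D.Ψ (u - e)).1 with hzz
    have hts : t • D.Ψ (u - e) = ((t : ℂ) * z, (0:ℝ)) := by
      rw [hz]
      apply Prod.ext
      · show t • z = (t : ℂ) * z
        exact Complex.real_smul
      · show t • (0:ℝ) = 0
        rw [smul_zero]
    rw [hts, hz, pm_scale D.planar ht.1 D.θ (fun x => κ (v + e + x • D.dir))
      (fun x => κ (v + t • e + x • D.dir)) (by simp only [zero_smul, add_zero]; exact hk2) z,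
      map_smul]
    module
  intro w hw t ht
  have hfv := fE_vertex H TF hv
  by_cases hA : ∃ y, InTube Ω h 𝒟 κ y (v + w)
  · obtain ⟨y, hy⟩ := hA
    obtain ⟨h1, h2⟩ := slice_vertex H TF hv hy
    have h3 : ‖y - v‖ ≤ ‖y - (v + w)‖ + ‖w‖ := by
      calc ‖y - v‖ = ‖(y - (v + w)) + w‖ := by congr 1; abel
        _ ≤ _ := norm_add_le _ _
    rw [norm_sub_rev] at h1
    have h4 : ‖y - v‖ < min r1 r2 := by linarith
    have h5 : v + (y - v) = y := by abel
    obtain ⟨k1, k2, k3⟩ := key (y - v) w h4 t ht (Or.inl (by rw [h5]; exact hy))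
    rw [TF.eq_loc _ _ k2, TF.eq_loc _ _ k1, hfv, k3]
  · have hB : ∀ y, ¬ InTube Ω h 𝒟 κ y (v + t • w) := by
      intro y hy
      obtain ⟨h1, h2⟩ := slice_vertex H TF hv hy
      have h3 : ‖y - v‖ ≤ ‖y - (v + t • w)‖ + ‖t • w‖ := by
        calc ‖y - v‖ = ‖(y - (v + t • w)) + t • w‖ := by congr 1; abel
          _ ≤ _ := norm_add_le _ _
      rw [norm_sub_rev] at h1
      have h6 : ‖t • w‖ = t * ‖w‖ := by rw [norm_smul, Real.norm_of_nonneg ht.1.le]
      have h4 : ‖y - v‖ ≤ 2 * (t * ‖w‖) := by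
        rw [h6] at h3
        linarith
      have h7 : ‖t⁻¹ • (y - v)‖ < min r1 r2 := by
        rw [norm_smul, norm_inv, Real.norm_of_nonneg ht.1.le]
        have : t⁻¹ * ‖y - v‖ ≤ t⁻¹ * (2 * (t * ‖w‖)) :=
          mul_le_mul_of_nonneg_left h4 (inv_nonneg.2 ht.1.le)
        have h8 : t⁻¹ * (2 * (t * ‖w‖)) = 2 * ‖w‖ := by
          have := ht.1.ne'
          field_simp
        rw [h8] at this
        linarith
      have h9 : v + t • (t⁻¹ • (y - v)) = y := by
        rw [smul_smul, mul_inv_cancel₀ ht.1.ne', one_smul]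
        abel
      obtain ⟨k1, -, -⟩ := key (t⁻¹ • (y - v)) w h7 t ht (Or.inr (by rw [h9]; exact hy))
      exact hA ⟨_, k1⟩
    have hwr : ‖w‖ < r1 := by
      have := min_le_left r1 r2
      linarith
    rw [TF.eq_h _ hB, TF.eq_h _ (fun y hy => hA ⟨y, hy⟩), hfv]
    exact (hhom w hwr t ht).2.2

end P073.SM
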