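import Vale.Agent.P073.SM.Spec4
import Vale.Agent.P073.ConicalStrata2

/-!
# P073, block SMA, part TK (helper489): a locally bounded Lipschitz bound
-/

namespace P073.SM.TK

open Set Metric Topology Filter MeasureTheory
open Vale.Agent.P073 (DirMonotoneAt LipOn)

variable {Ω : Set E3} {h : E3 → E3} {𝒟 : E3 → GD}

/-- the constants of the tubes at `x` -/
def KS (Ω : Set E3) (h : E3 → E3) (𝒟 : E3 → GD) (x : E3) : Set ℝ :=
  {c | c = 0 ∨ ∃ y ∈ stratum h Ω 1, ‖x - y‖ < (𝒟 y).Rf * rc h Ω y ∧ c = (𝒟 y).K}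

/-- the Lipschitz constants near `x` -/
def LS (h : E3 → E3) (x : E3) : Set ℝ := {M | 0 ≤ M ∧ ∃ r > 0, LipOn h (ball x r) M}

theorem LipOn.mono' {f : E3 → E3} {U U' : Set E3} {L L' : ℝ} (H : LipOn f U L) (hU : U' ⊆ U)
    (hL : L ≤ L') : LipOn f U' L' := fun y hy z hz =>
  (H y (hU hy) z (hU hz)).trans (by gcongr)

/-- finiteness of the germs on compact sets -/
theorem germs_compact (hR : RcProps Ω h) {K : Set E3} (hK : IsCompact K) (hKΩ : K ⊆ Ω) :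
    {T : E3 → E3 | ∃ y ∈ stratum h Ω 1 ∩ K, tcone h y = T}.Finite := by
  refine hK.induction_on (p := fun s => {T : E3 → E3 | ∃ y ∈ stratum h Ω 1 ∩ s,
    tcone h y = T}.Finite) ?_ ?_ ?_ ?_
  · convert finite_empty
    ext T
    simp
  · intro s t hst ht
    refine ht.subset ?_
    rintro T ⟨y, ⟨hy1, hy2⟩, rfl⟩
    exact ⟨y, ⟨hy1, hst hy2⟩, rfl⟩
  · intro s t hs ht
    refine (hs.union ht).subset ?_
    rintro T ⟨y, ⟨hy1, hy2 | hy2⟩, rfl⟩
    · exact Or.inl ⟨y, ⟨hy1, hy2⟩, rfl⟩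
    · exact Or.inr ⟨y, ⟨hy1, hy2⟩, rfl⟩
  · intro x hx
    obtain ⟨r, hr, hfin⟩ := hR.germs x (hKΩ hx)
    exact ⟨ball x r, mem_nhdsWithin_of_mem_nhds (ball_mem_nhds x hr), hfin⟩

/-- the tube constants are bounded on compact sets of edge points -/
theorem exists_K_bound (hR : RcProps Ω h) (hG : GermSys Ω h 𝒟) {K : Set E3} (hK : IsCompact K)
    (hKΩ : K ⊆ Ω) : ∃ M : ℝ, 0 ≤ M ∧ ∀ y ∈ stratum h Ω 1 ∩ K, (𝒟 y).K ≤ M := by
  classical
  have hfin := germs_compact hR hK hKΩ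
  have h1 : ((fun y => (𝒟 y).K) '' (stratum h Ω 1 ∩ K)).Finite := by
    set g : (E3 → E3) → ℝ := fun T =>
      if H : ∃ y ∈ stratum h Ω 1 ∩ K, tcone h y = T then (𝒟 H.choose).K else 0 with hg
    refine (hfin.image g).subset ?_
    rintro _ ⟨y, hy, rfl⟩
    refine ⟨tcone h y, ⟨y, hy, rfl⟩, ?_⟩
    have H : ∃ y' ∈ stratum h Ω 1 ∩ K, tcone h y' = tcone h y := ⟨y, hy, rfl⟩
    simp only [hg]
    rw [dif_pos H]
    rw [hG.germ _ H.choose_spec.1.1 y hy.1 H.choose_spec.2]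
  obtain ⟨M, hM⟩ := h1.bddAbove
  exact ⟨max M 0, le_max_right _ _, fun y hy => (hM ⟨y, hy, rfl⟩).trans (le_max_left _ _)⟩

/-- near `x` the relevant edge points lie in a fixed compact set -/
theorem exists_compact (hΩ : IsOpen Ω) (hb : Bornology.IsBounded Ω) (hR : RcProps Ω h) {x : E3}
    (hx : x ∈ Ω) : ∃ K ⊆ Ω, IsCompact K ∧ ∀ᶠ z in 𝓝 x, ∀ y ∈ stratum h Ω 1,
      ‖z - y‖ < (𝒟 y).Rf * rc h Ω y → y ∈ K := by
  have hne : (Ωᶜ).Nonempty := by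
    by_contra hc
    rw [not_nonempty_iff_eq_empty, compl_empty_iff] at hc
    rw [hc] at hb
    exact NormedSpace.unbounded_univ ℝ E3 hb
  have hpos : ∀ x, x ∈ Ω ↔ 0 < infDist x Ωᶜ := by
    intro x
    rw [← hΩ.isClosed_compl.notMem_iff_infDist_pos hne, notMem_compl_iff]
  set d := infDist x Ωᶜ with hd
  have hd0 : 0 < d := (hpos x).1 hx
  have hKs : {y : E3 | d / 3 ≤ infDist y Ωᶜ} ⊆ Ω := by
    intro y hy
    rw [hpos]
    exact lt_of_lt_of_le (by positivity) hy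
  refine ⟨{y : E3 | d / 3 ≤ infDist y Ωᶜ}, hKs, isCompact_of_isClosed_isBounded
    (isClosed_le continuous_const (continuous_infDist_pt _)) (hb.subset hKs), ?_⟩
  have h1 : ∀ᶠ z in 𝓝 x, d / 2 < infDist z Ωᶜ :=
    (continuous_infDist_pt _).continuousAt.eventually (lt_mem_nhds (half_lt_self hd0))
  filter_upwards [h1] with z hz y hy hzy
  obtain ⟨r0, r1, rb, -⟩ := hR.ball y hy.1
  have h2 : ‖z - y‖ < rc h Ω y / 8 := by
    have := (𝒟 y).Rf_le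
    calc ‖z - y‖ < (𝒟 y).Rf * rc h Ω y := hzy
      _ ≤ 1 / 8 * rc h Ω y := by gcongr
      _ = rc h Ω y / 8 := by ring
  have h3 : rc h Ω y ≤ infDist y Ωᶜ := by
    rw [le_infDist hne]
    intro w hw
    by_contra hc
    exact hw (rb (by rw [mem_ball, dist_comm]; exact not_le.1 hc))
  have h4 : infDist z Ωᶜ ≤ infDist y Ωᶜ + dist z y := infDist_le_infDist_add_dist
  rw [dist_eq_norm] at h4
  change d / 3 ≤ infDist y Ωᶜ
  linarith

end P073.SM.TK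

namespace P073.SM

open Set Metric Topology Filter MeasureTheory
open Vale.Agent.P073 (DirMonotoneAt LipOn)
open TK

/-- **(TK)** -/
theorem specTK : SpecTK := by
  intro Ω Λ h k hI hR 𝒟 hG
  have hΩ := hI.openΩ
  have hb := hI.bddΩ
  -- bounds
  have hK : ∀ x ∈ Ω, ∃ M, 0 ≤ M ∧ ∀ᶠ z in 𝓝 x, ∀ c ∈ KS Ω h 𝒟 z, c ≤ M := by
    intro x hx
    obtain ⟨K, hKΩ, hKc, hev⟩ := exists_compact (𝒟 := 𝒟) hΩ hb hR hx
    obtain ⟨M, hM0, hM⟩ := exists_K_bound hR hG hKc hKΩ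
    refine ⟨M, hM0, ?_⟩
    filter_upwards [hev] with z hz c hc
    rcases hc with rfl | ⟨y, hy, hzy, rfl⟩
    · exact hM0
    · exact hM y ⟨hy, hz y hy hzy⟩
  have hL : ∀ x ∈ Ω, (LS h x).Nonempty := by
    intro x hx
    obtain ⟨δ, hδ, -, M, hM⟩ := exists_lipschitz_near hΩ hI.con hI.homeo.cont hx
    refine ⟨M, M.2, δ, hδ, fun y hy z hz => ?_⟩
    have := hM.dist_le_mul y hy z hz
    rwa [dist_eq_norm, dist_eq_norm] at this
  have hLb : ∀ x, BddBelow (LS h x) := fun x => ⟨0, fun M hM => hM.1⟩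
  have hKne : ∀ x, (KS Ω h 𝒟 x).Nonempty := fun x => ⟨0, Or.inl rfl⟩
  have hC1 : ∀ x ∈ Ω, 0 ≤ sSup (KS Ω h 𝒟 x) := by
    intro x hx
    obtain ⟨M, -, hM⟩ := hK x hx
    exact le_csSup ⟨M, fun c hc => hM.self_of_nhds c hc⟩ (Or.inl rfl)
  have hC2 : ∀ x, 0 ≤ sInf (LS h x) := fun x => Real.sInf_nonneg fun M hM => hM.1
  refine ⟨fun x => sSup (KS Ω h 𝒟 x) + (sInf (LS h x) + 1), ?_, ?_, ?_⟩
  · intro x hx
    obtain ⟨M, hM0, hM⟩ := hK x hx
    obtain ⟨L, hL0, r, hr, hLip⟩ := hL x hx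
    refine ⟨M + (L + 1), ?_⟩
    filter_upwards [hM, ball_mem_nhds x hr] with z hz hzr
    have h1 : sSup (KS Ω h 𝒟 z) ≤ M := csSup_le (hKne z) hz
    have h2 : sInf (LS h z) ≤ L := by
      refine csInf_le (hLb z) ⟨hL0, r - dist z x, by rw [mem_ball] at hzr; linarith, ?_⟩
      refine LipOn.mono' hLip ?_ le_rfl
      intro w hw
      rw [mem_ball] at hw ⊢
      calc dist w x ≤ dist w z + dist z x := dist_triangle _ _ _
        _ < r := by linarith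
    linarith
  · intro x y hy hxy
    have hxΩ : x ∈ Ω := by
      obtain ⟨r0, r1, rb, -⟩ := hR.ball y hy.1
      refine rb ?_
      rw [mem_ball, dist_eq_norm]
      have := (𝒟 y).Rf_le
      calc ‖x - y‖ < (𝒟 y).Rf * rc h Ω y := hxy
        _ ≤ 1 / 8 * rc h Ω y := by gcongr
        _ ≤ rc h Ω y := by linarith
    obtain ⟨M, -, hM⟩ := hK x hxΩ
    have h1 : (𝒟 y).K ≤ sSup (KS Ω h 𝒟 x) :=
      le_csSup ⟨M, fun c hc => hM.self_of_nhds c hc⟩ (Or.inr ⟨y, hy, hxy, rfl⟩)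
    have h2 := hC2 x
    linarith
  · intro x hx
    obtain ⟨M, hM, hlt⟩ := exists_lt_of_csInf_lt (hL x hx) (lt_add_one (sInf (LS h x)))
    obtain ⟨-, r, hr, hLip⟩ := hM
    refine ⟨r, hr, LipOn.mono' hLip Subset.rfl ?_⟩
    have := hC1 x hx
    linarith

end P073.SM
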