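import Vale.Agent.P073.SM.FA
import Vale.Agent.P073.SM.TE
import Vale.Agent.P073.SM.RC
import Vale.Agent.P073.SM.GS
import Vale.Agent.P073.SM.KS
import Vale.Agent.P073.SM.TP
import Vale.Agent.P073.SM.TH
import Vale.Agent.P073.SM.TC
import Vale.Agent.P073.SM.TK
import Vale.Agent.P073.SM.CR
import Vale.Agent.P073.SM.AS
import Vale.Agent.P073.SM.BJ
import Vale.Agent.P073.SM.LP
import Vale.Agent.P073.SM.ME
import Vale.Agent.P073.SM.EF
import Vale.Agent.P073.SMV.Fin
import Vale.Agent.P073.SMV.VStep

/-!
# P073, block SM: the smoothing theorem for conical homeomorphisms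
-/

namespace P073.SM

/-- the edge replacement -/
theorem specED : SpecED :=
  specTE specRC specGS specKS specTU specTP specTA specTH specTC specTK specCR

/-- the pointwise form of the approximation by maps of class one -/
theorem specPT : SpecPT := specFA specED specAS specBJ specLP

/-- the face and edge steps of the smoothing theorem -/
theorem specEF : Vale.Agent.P073.SMV.SpecEF := specEF_of (specME specPT)

/-- **Smoothing theorem**: conical homeomorphisms are approximable by diffeomorphisms. -/
theorem specSM : Vale.Agent.P073.SMV.SpecSM :=
  Vale.Agent.P073.SMV.specSM specEF Vale.Agent.P073.SMV.specV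

end P073.SM
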