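import Vale.Agent.P073.SM.Spec

/-!
# P073, block SM, part EX: the tangent cone map at a point of a conical homeomorphism
-/

namespace P073.SM.EX

open Set Metric Topology Filter MeasureTheory
open scoped ENNReal ContDiff
open Vale.Agent.P073.SMV (HomeoOn)

variable {Ω Λ : Set E3} {h k : E3 → E3}

theorem conical_inv (I : Input Ω Λ h k) : ConicalOn k Λ :=
  I.con.inverse I.homeo.maps I.homeo.maps' I.homeo.left I.homeo.right I.homeo.cont'

theorem exists_small (r : ℝ) (hr : 0 < r) (M : ℝ) : ∃ s : ℝ, 0 < s ∧ s ≤ 1 ∧ s * M < r := by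
  refine ⟨min 1 (r / (2 * (|M| + 1))), lt_min one_pos (by positivity), min_le_left _ _, ?_⟩
  have h1 : min 1 (r / (2 * (|M| + 1))) ≤ r / (2 * (|M| + 1)) := min_le_right _ _
  have h0 : 0 < min 1 (r / (2 * (|M| + 1))) := lt_min one_pos (by positivity)
  calc min 1 (r / (2 * (|M| + 1))) * M ≤ min 1 (r / (2 * (|M| + 1))) * |M| := by
        gcongr; exact le_abs_self M
    _ ≤ r / (2 * (|M| + 1)) * |M| := by gcongr
    _ = r / 2 * (|M| / (|M| + 1)) := by field_simp
    _ ≤ r / 2 * 1 := by
        gcongr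
        rw [div_le_one (by positivity)]; linarith
    _ < r := by linarith

/-- upper Lipschitz bound for the tangent cone map -/
theorem tcone_lip (I : Input Ω Λ h k) {y : E3} (hy : y ∈ Ω) :
    ∃ C : ℝ, 0 ≤ C ∧ ∀ v w, ‖tcone h y v - tcone h y w‖ ≤ C * ‖v - w‖ := by
  obtain ⟨δ, hδ, hb, M, hM⟩ := exists_lipschitz_near I.openΩ I.con I.homeo.cont hy
  have Hy := I.con.conicalAt I.openΩ hy
  obtain ⟨r, hr, hform⟩ := Hy.exists_tcone
  refine ⟨M, M.2, fun v w => ?_⟩
  obtain ⟨s, hs, -, hsm⟩ := exists_small (min r δ) (lt_min hr hδ) (‖v‖ + ‖w‖)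
  have hv : ‖s • v‖ < min r δ := by
    rw [norm_smul, Real.norm_of_nonneg hs.le]
    nlinarith [norm_nonneg v, norm_nonneg w]
  have hw : ‖s • w‖ < min r δ := by
    rw [norm_smul, Real.norm_of_nonneg hs.le]
    nlinarith [norm_nonneg v, norm_nonneg w]
  have e1 := hform _ (hv.trans_le (min_le_left _ _)).le
  have e2 := hform _ (hw.trans_le (min_le_left _ _)).le
  rw [Hy.tcone_smul hs.le] at e1 e2
  have h1 := hM.dist_le_mul (y + s • v) (by
    rw [mem_ball, dist_eq_norm, add_sub_cancel_left]; exact hv.trans_le (min_le_right _ _))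
    (y + s • w) (by
    rw [mem_ball, dist_eq_norm, add_sub_cancel_left]; exact hw.trans_le (min_le_right _ _))
  rw [dist_eq_norm, dist_eq_norm, e1, e2, add_sub_add_left_eq_sub, add_sub_add_left_eq_sub,
    ← smul_sub, ← smul_sub, norm_smul, norm_smul, Real.norm_of_nonneg hs.le] at h1
  have h2 : s * ‖tcone h y v - tcone h y w‖ ≤ s * (M * ‖v - w‖) := by
    calc _ ≤ _ := h1
      _ = _ := by ring
  exact le_of_mul_le_mul_left h2 hs

/-- lower Lipschitz bound for the tangent cone map -/
theorem tcone_antilip (I : Input Ω Λ h k) {y : E3} (hy : y ∈ Ω) :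
    ∃ c : ℝ, 0 < c ∧ ∀ v w, c * ‖v - w‖ ≤ ‖tcone h y v - tcone h y w‖ := by
  have hhy : h y ∈ Λ := I.homeo.maps hy
  obtain ⟨δ, hδ, hb, M, hM⟩ := exists_lipschitz_near I.openΛ (conical_inv I) I.homeo.cont' hhy
  have Hy := I.con.conicalAt I.openΩ hy
  obtain ⟨r, hr, hform⟩ := Hy.exists_tcone
  obtain ⟨C, hC0, hC⟩ := tcone_lip I hy
  obtain ⟨ρ, hρ, hbρ⟩ := Metric.isOpen_iff.1 I.openΩ y hy
  refine ⟨1 / (M + 1), by positivity, fun v w => ?_⟩
  obtain ⟨s, hs, -, hsm⟩ := exists_small (min (min r δ) ρ) (lt_min (lt_min hr hδ) hρ)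
    ((C + 1) * (‖v‖ + ‖w‖))
  have hnv := norm_nonneg v
  have hnw := norm_nonneg w
  have hv : ‖s • v‖ < min (min r δ) ρ := by
    rw [norm_smul, Real.norm_of_nonneg hs.le]
    refine lt_of_le_of_lt ?_ hsm
    gcongr
    nlinarith
  have hw : ‖s • w‖ < min (min r δ) ρ := by
    rw [norm_smul, Real.norm_of_nonneg hs.le]
    refine lt_of_le_of_lt ?_ hsm
    gcongr
    nlinarith
  have e1 := hform _ ((hv.trans_le (min_le_left _ _)).trans_le (min_le_left _ _)).le
  have e2 := hform _ ((hw.trans_le (min_le_left _ _)).trans_le (min_le_left _ _)).le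
  rw [Hy.tcone_smul hs.le] at e1 e2
  have hT0 : ∀ u, ‖tcone h y u‖ ≤ C * ‖u‖ := by
    intro u
    have := hC u 0
    simpa using this
  have m1 : h (y + s • v) ∈ ball (h y) δ := by
    rw [mem_ball, dist_eq_norm, e1, add_sub_cancel_left, norm_smul, Real.norm_of_nonneg hs.le]
    have := hT0 v
    calc s * ‖tcone h y v‖ ≤ s * ((C + 1) * (‖v‖ + ‖w‖)) := by
          gcongr; nlinarith
      _ < _ := hsm
      _ ≤ δ := (min_le_left _ _).trans (min_le_right _ _)
  have m2 : h (y + s • w) ∈ ball (h y) δ := by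
    rw [mem_ball, dist_eq_norm, e2, add_sub_cancel_left, norm_smul, Real.norm_of_nonneg hs.le]
    have := hT0 w
    calc s * ‖tcone h y w‖ ≤ s * ((C + 1) * (‖v‖ + ‖w‖)) := by
          gcongr; nlinarith
      _ < _ := hsm
      _ ≤ δ := (min_le_left _ _).trans (min_le_right _ _)
  have n1 : y + s • v ∈ Ω := hbρ (by
    rw [mem_ball, dist_eq_norm, add_sub_cancel_left]; exact hv.trans_le (min_le_right _ _))
  have n2 : y + s • w ∈ Ω := hbρ (by
    rw [mem_ball, dist_eq_norm, add_sub_cancel_left]; exact hw.trans_le (min_le_right _ _))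
  have h1 := hM.dist_le_mul _ m1 _ m2
  rw [dist_eq_norm, dist_eq_norm, I.homeo.left _ n1, I.homeo.left _ n2, e1, e2,
    add_sub_add_left_eq_sub, add_sub_add_left_eq_sub,
    ← smul_sub, ← smul_sub, norm_smul, norm_smul, Real.norm_of_nonneg hs.le] at h1
  have h2 : s * ‖v - w‖ ≤ s * (M * ‖tcone h y v - tcone h y w‖) := by
    calc _ ≤ _ := h1
      _ = _ := by ring
  have h3 := le_of_mul_le_mul_left h2 hs
  rw [div_mul_eq_mul_div, one_mul, div_le_iff₀ (by positivity)]
  nlinarith [norm_nonneg (tcone h y v - tcone h y w)]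

theorem tcone_injective (I : Input Ω Λ h k) {y : E3} (hy : y ∈ Ω) :
    Function.Injective (tcone h y) := by
  obtain ⟨c, hc, H⟩ := tcone_antilip I hy
  intro v w hvw
  have := H v w
  rw [hvw, sub_self, norm_zero] at this
  have h1 : ‖v - w‖ ≤ 0 := by
    by_contra hcon
    push Not at hcon
    nlinarith
  exact sub_eq_zero.1 (norm_le_zero_iff.1 h1)

/-- local form of the tangent cone map near a vector `v` whose point has a small
codimension: two linear maps glued along a plane containing `v` -/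
theorem tcone_local (I : Input Ω Λ h k) {y : E3} (hy : y ∈ Ω) {v : E3} {r : ℝ}
    (hb : ball y r ⊆ Ω) (hform : ∀ v : E3, ‖v‖ ≤ r → h (y + v) = h y + tcone h y v)
    (hv : ‖v‖ < r) (hk : 2 ≤ Module.finrank ℝ (linSpace h (y + v))) :
    ∃ (M M' : E3 →L[ℝ] E3) (ℓ : E3 →L[ℝ] ℝ), ℓ v = 0 ∧
      ∀ᶠ w in 𝓝 v, (0 ≤ ℓ w → tcone h y w = M w) ∧ (ℓ w ≤ 0 → tcone h y w = M' w) := by
  have Hy := I.con.conicalAt I.openΩ hy
  have hqΩ : y + v ∈ Ω := hb (by rw [mem_ball, dist_eq_norm, add_sub_cancel_left]; exact hv)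
  have hpos : 0 < creaseRad h Ω (y + v) := by
    apply creaseRad_pos I.openΩ I.con hqΩ
    rw [finrank_euclideanSpace_fin]
    omega
  obtain ⟨-, L, b, ℓ, a, c, H⟩ := creaseRad_spec (h := h) (Ω := Ω) (x := y + v)
    (r := creaseRad h Ω (y + v) / 2) (by linarith)
  -- first form: affine pieces near `y + v`
  have h1 : ∃ (M M' : E3 →L[ℝ] E3) (ℓ' : E3 →L[ℝ] ℝ), ∀ᶠ w in 𝓝 v,
      (0 ≤ ℓ' (w - v) → tcone h y w = tcone h y v + M (w - v)) ∧
      (ℓ' (w - v) ≤ 0 → tcone h y w = tcone h y v + M' (w - v)) := by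
    have hnear : ∀ᶠ w in 𝓝 v, tcone h y w - tcone h y v = L (w - v) +
        (max (ℓ (y + w) - a) 0 - max (ℓ (y + v) - a) 0) • c := by
      have e1 : ∀ᶠ w in 𝓝 v, ‖w‖ < r := (continuous_norm.continuousAt).eventually_lt_const hv
      have e2 : ∀ᶠ w in 𝓝 v, y + w ∈ ball (y + v) (creaseRad h Ω (y + v) / 2) := by
        have hc : ContinuousAt (fun w : E3 => y + w) v := by fun_prop
        exact hc (ball_mem_nhds _ (by linarith))
      filter_upwards [e1, e2] with w h1 h2
      have f1 := hform w h1.le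
      have f2 := hform v hv.le
      have f3 := H _ h2
      have f4 := H _ (mem_ball_self (by linarith : (0:ℝ) < creaseRad h Ω (y + v) / 2))
      have f5 : tcone h y w - tcone h y v = h (y + w) - h (y + v) := by rw [f1, f2]; abel
      have f6 : L (w - v) = L (y + w) - L (y + v) := by rw [← map_sub]; congr 1; abel
      rw [f5, f3, f4, f6]
      module
    rcases lt_trichotomy (ℓ (y + v)) a with hlt | heq | hgt
    · refine ⟨L, L, 0, ?_⟩
      have hc : ContinuousAt (fun w : E3 => ℓ (y + w)) v := by fun_prop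
      filter_upwards [hnear, hc.eventually_lt_const hlt] with w h1 h2
      have : tcone h y w = tcone h y v + L (w - v) := by
        rw [max_eq_right (by linarith : ℓ (y + w) - a ≤ 0),
          max_eq_right (by linarith : ℓ (y + v) - a ≤ 0), sub_zero, zero_smul, add_zero] at h1
        rw [← h1]; abel
      exact ⟨fun _ => this, fun _ => this⟩
    · refine ⟨L + ℓ.smulRight c, L, ℓ, ?_⟩
      filter_upwards [hnear] with w h1
      have e0 : ℓ (y + w) - a = ℓ (w - v) := by rw [← heq, ← map_sub]; congr 1; abel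
      rw [e0, heq, sub_self, max_self, sub_zero] at h1
      have h2 : tcone h y w = tcone h y v + (L (w - v) + (max (ℓ (w - v)) 0) • c) := by
        rw [← h1]; abel
      constructor
      · intro h3
        rw [h2, max_eq_left h3]
        simp
      · intro h3
        rw [h2, max_eq_right h3]
        simp
    · refine ⟨L + ℓ.smulRight c, L + ℓ.smulRight c, 0, ?_⟩
      have hc : ContinuousAt (fun w : E3 => ℓ (y + w)) v := by fun_prop
      filter_upwards [hnear, hc.eventually_const_lt hgt] with w h1 h2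
      have : tcone h y w = tcone h y v + (L + ℓ.smulRight c) (w - v) := by
        rw [max_eq_left (by linarith : 0 ≤ ℓ (y + w) - a),
          max_eq_left (by linarith : 0 ≤ ℓ (y + v) - a)] at h1
        have e0 : ℓ (y + w) - a - (ℓ (y + v) - a) = ℓ (w - v) := by
          rw [sub_sub_sub_cancel_right, ← map_sub]; congr 1; abel
        rw [e0] at h1
        have h2 : tcone h y w = tcone h y v + (L (w - v) + ℓ (w - v) • c) := by
          rw [← h1]; abel
        rw [h2]; simp
      exact ⟨fun _ => this, fun _ => this⟩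
  obtain ⟨M, M', ℓ', hM⟩ := h1
  -- values on `v`
  have hscale : ∀ᶠ t : ℝ in 𝓝 0, (0 ≤ ℓ' (t • v) → t • tcone h y v = M (t • v)) ∧
      (ℓ' (t • v) ≤ 0 → t • tcone h y v = M' (t • v)) := by
    have hc : ContinuousAt (fun t : ℝ => v + t • v) 0 := by fun_prop
    have hc' : Tendsto (fun t : ℝ => v + t • v) (𝓝 0) (𝓝 v) := by
      have := hc.tendsto; simpa using this
    have hpos : ∀ᶠ t : ℝ in 𝓝 0, 0 < 1 + t := by
      have : ContinuousAt (fun t : ℝ => 1 + t) 0 := by fun_prop
      exact this.eventually_const_lt (by norm_num)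
    filter_upwards [hc'.eventually hM, hpos] with t ht ht0
    have e1 : tcone h y (v + t • v) = tcone h y v + t • tcone h y v := by
      have : v + t • v = (1 + t) • v := by module
      rw [this, Hy.tcone_smul ht0.le]; module
    rw [add_sub_cancel_left, e1] at ht
    exact ⟨fun h => add_left_cancel (ht.1 h), fun h => add_left_cancel (ht.2 h)⟩
  obtain ⟨ε, hε, hεb⟩ := Metric.eventually_nhds_iff_ball.1 hscale
  have hε2 : (ε / 2 : ℝ) ∈ ball (0:ℝ) ε := by
    rw [mem_ball_zero_iff, Real.norm_of_nonneg (by linarith)]; linarith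
  have hε2' : (-(ε / 2) : ℝ) ∈ ball (0:ℝ) ε := by
    rw [mem_ball_zero_iff, norm_neg, Real.norm_of_nonneg (by linarith)]; linarith
  have hp := hεb _ hε2
  have hn := hεb _ hε2'
  have hε0 : (ε / 2 : ℝ) ≠ 0 := by positivity
  have hMv : M v = tcone h y v := by
    rcases le_total 0 (ℓ' v) with h0 | h0
    · have := hp.1 (by rw [map_smul, smul_eq_mul]; positivity)
      rw [map_smul] at this
      exact (smul_right_injective E3 hε0 this).symm
    · have := hn.1 (by rw [map_smul, smul_eq_mul]; nlinarith)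
      rw [map_smul] at this
      exact (smul_right_injective E3 (neg_ne_zero.2 hε0) this).symm
  have hM'v : M' v = tcone h y v := by
    rcases le_total 0 (ℓ' v) with h0 | h0
    · have := hn.2 (by rw [map_smul, smul_eq_mul]; nlinarith)
      rw [map_smul] at this
      exact (smul_right_injective E3 (neg_ne_zero.2 hε0) this).symm
    · have := hp.2 (by rw [map_smul, smul_eq_mul]; nlinarith)
      rw [map_smul] at this
      exact (smul_right_injective E3 hε0 this).symm
  by_cases hℓv : ℓ' v = 0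
  · refine ⟨M, M', ℓ', hℓv, ?_⟩
    filter_upwards [hM] with w hw
    rw [map_sub, hℓv, sub_zero, map_sub, map_sub, hMv, hM'v, add_sub_cancel,
      add_sub_cancel] at hw
    exact hw
  · -- both maps coincide
    have hMM : ∀ w, M w = M' w := by
      -- they agree on the kernel of `ℓ'`
      have hker : ∀ u, ℓ' u = 0 → M u = M' u := by
        intro u hu
        have hc : Tendsto (fun t : ℝ => v + t • u) (𝓝[>] 0) (𝓝 v) := by
          have hc : ContinuousAt (fun t : ℝ => v + t • u) 0 := by fun_prop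
          have := hc.tendsto
          rw [zero_smul, add_zero] at this
          exact this.mono_left nhdsWithin_le_nhds
        obtain ⟨t, ht, hb1⟩ := eventually_unique (hc.eventually hM)
        rw [add_sub_cancel_left, map_smul, hu, smul_zero] at hb1
        have e1 := hb1.1 le_rfl
        have e2 := hb1.2 le_rfl
        rw [e1, map_smul, map_smul] at e2
        exact smul_right_injective E3 ht.ne' (add_left_cancel e2)
      intro w
      have hw : ℓ' (w - (ℓ' w / ℓ' v) • v) = 0 := by
        rw [map_sub, map_smul, smul_eq_mul, div_mul_cancel₀ _ hℓv, sub_self]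
      have := hker _ hw
      rw [map_sub, map_sub, map_smul, map_smul, hMv, hM'v] at this
      exact sub_left_injective this
    refine ⟨M, M, 0, rfl, ?_⟩
    filter_upwards [hM] with w hw
    have : tcone h y w = M w := by
      rcases le_total 0 (ℓ' (w - v)) with h0 | h0
      · rw [hw.1 h0, map_sub, hMv, add_sub_cancel]
      · rw [hw.2 h0, ← hMM, map_sub, hMv, add_sub_cancel]
    exact ⟨fun _ => this, fun _ => this⟩

end P073.SM.EX
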