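import Vale.Agent.P073.SM.EX1

/-!
# P073, block SM, part EX: orientation of planar homogeneous maps
-/

namespace P073.SM.EX

open Set Metric Topology Filter
open scoped ComplexConjugate

/-- the determinant of a real linear map of the plane -/
noncomputable def J (A : ℂ →L[ℝ] ℂ) : ℝ := (A Complex.I * conj (A 1)).im

theorem clm_apply (A : ℂ →L[ℝ] ℂ) (z : ℂ) : A z = z.re • A 1 + z.im • A Complex.I := by
  conv_lhs => rw [← Complex.re_add_im z]
  have h1 : (z.re : ℂ) + z.im * Complex.I = z.re • (1:ℂ) + z.im • Complex.I := by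
    simp [Complex.real_smul]
  rw [h1, map_add, map_smul, map_smul]

/-- `Im (A u * conj (A v)) = J A * Im (u * conj v)` -/
theorem im_mul_conj (A : ℂ →L[ℝ] ℂ) (u v : ℂ) :
    (A u * conj (A v)).im = J A * (u * conj v).im := by
  rw [clm_apply A u, clm_apply A v, J]
  simp only [Complex.real_smul, map_add, map_mul, Complex.conj_ofReal, Complex.add_re,
    Complex.add_im, Complex.mul_re, Complex.mul_im, Complex.conj_re, Complex.conj_im,
    Complex.ofReal_re, Complex.ofReal_im]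
  ring

theorem im_I_mul (z : ℂ) : (Complex.I * z * conj z).im = ‖z‖ ^ 2 := by
  rw [← Complex.normSq_eq_norm_sq, Complex.normSq_apply]
  simp [Complex.mul_im, Complex.mul_re]
  ring

/-- a real linear map of the plane bounded below has a large determinant -/
theorem abs_J_ge {A : ℂ →L[ℝ] ℂ} {c : ℝ} (hc : 0 < c) (h : ∀ u, c * ‖u‖ ≤ ‖A u‖) :
    c ^ 2 ≤ |J A| := by
  set p := A 1 with hp
  set q := A Complex.I with hq
  have hp1 : c ≤ ‖p‖ := by have := h 1; rwa [norm_one, mul_one] at this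
  have hp0 : 0 < ‖p‖ := hc.trans_le hp1
  set s : ℝ := (q * conj p).re / ‖p‖ ^ 2 with hs
  have h1 : c ≤ ‖q - s • p‖ := by
    have h2 := h (Complex.I - s • (1:ℂ))
    rw [map_sub, map_smul] at h2
    refine le_trans ?_ h2
    have : 1 ≤ ‖Complex.I - s • (1:ℂ)‖ := by
      have := Complex.abs_im_le_norm (Complex.I - s • (1:ℂ))
      simpa using this
    nlinarith
  have h3 : ‖q - s • p‖ * ‖p‖ = |J A| := by
    have h4 : (q - s • p) * conj p = ((J A : ℝ) : ℂ) * Complex.I := by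
      apply Complex.ext
      · have h5 : (s • p * conj p).re = s * ‖p‖ ^ 2 := by
          rw [← Complex.normSq_eq_norm_sq, Complex.normSq_apply]
          simp only [Complex.real_smul, Complex.mul_re, Complex.mul_im, Complex.conj_re,
            Complex.conj_im, Complex.ofReal_re, Complex.ofReal_im]
          ring
        rw [sub_mul, Complex.sub_re, h5, hs, div_mul_cancel₀ _ (by positivity)]
        simp
      · have h5 : (s • p * conj p).im = 0 := by
          simp only [Complex.real_smul, Complex.mul_re, Complex.mul_im, Complex.conj_re,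
            Complex.conj_im, Complex.ofReal_re, Complex.ofReal_im]
          ring
        rw [sub_mul, Complex.sub_im, h5, sub_zero]
        simp [J, hp, hq]
    have h6 := congrArg norm h4
    rw [norm_mul, norm_mul, Complex.norm_I, mul_one, Complex.norm_real, Complex.norm_conj] at h6
    rw [h6, Real.norm_eq_abs]
  rw [← h3, sq]
  gcongr

theorem clm_eq_of_eqOn_open {A A' : ℂ →L[ℝ] ℂ} {O : Set ℂ} (hO : IsOpen O) (hne : O.Nonempty)
    (h : ∀ w ∈ O, A w = A' w) : A = A' := by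
  obtain ⟨w, hw⟩ := hne
  obtain ⟨ε, hε, hb⟩ := Metric.isOpen_iff.1 hO w hw
  ext1 u
  obtain ⟨s, hs, -, hsm⟩ := exists_small ε hε ‖u‖
  have h1 : w + s • u ∈ O := hb (by
    rw [mem_ball, dist_eq_norm, add_sub_cancel_left, norm_smul, Real.norm_of_nonneg hs.le]
    exact hsm)
  have h2 := h _ h1
  rw [map_add, map_add, h w hw, map_smul, map_smul] at h2
  exact smul_right_injective ℂ hs.ne' (add_left_cancel h2)

/-- local data at a point of the plane -/
structure LocData (F : ℂ → ℂ) (z : ℂ) where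
  A : ℂ →L[ℝ] ℂ
  A' : ℂ →L[ℝ] ℂ
  ℓ : ℂ →L[ℝ] ℝ
  N : Set ℂ
  isOpen : IsOpen N
  mem : z ∈ N
  ℓz : ℓ z = 0
  pos : ∀ w ∈ N, 0 ≤ ℓ w → F w = A w
  neg : ∀ w ∈ N, ℓ w ≤ 0 → F w = A' w

theorem LocData.exists_open {F : ℂ → ℂ} {z : ℂ} (D : LocData F z) {O : Set ℂ} (hO : IsOpen O)
    (hne : O.Nonempty) (hsub : O ⊆ D.N) :
    ∃ O' ⊆ O, IsOpen O' ∧ O'.Nonempty ∧ ((∀ w ∈ O', F w = D.A w) ∨ (∀ w ∈ O', F w = D.A' w)) := by
  by_cases h1 : (O ∩ {w | 0 < D.ℓ w}).Nonempty
  · refine ⟨O ∩ {w | 0 < D.ℓ w}, inter_subset_left,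
      hO.inter (isOpen_lt continuous_const D.ℓ.continuous), h1, Or.inl fun w hw => ?_⟩
    exact D.pos w (hsub hw.1) (le_of_lt hw.2)
  · refine ⟨O, subset_rfl, hO, hne, Or.inr fun w hw => ?_⟩
    refine D.neg w (hsub hw) ?_
    by_contra hcon
    push Not at hcon
    exact h1 ⟨w, hw, hcon⟩

/-- the two linear pieces at a crease of an injective map have the same orientation -/
theorem LocData.same_sign {F : ℂ → ℂ} (hinj : Function.Injective F) {z : ℂ} (hz : z ≠ 0)
    (D : LocData F z) (hA : J D.A ≠ 0) (hA' : J D.A' ≠ 0) : 0 < J D.A ↔ 0 < J D.A' := by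
  by_contra hcon
  -- opposite signs
  have hopp : J D.A * J D.A' < 0 := by
    rcases lt_or_gt_of_ne hA with h1 | h1 <;> rcases lt_or_gt_of_ne hA' with h2 | h2
    · exact absurd (by constructor <;> intro h <;> linarith) hcon
    · exact mul_neg_of_neg_of_pos h1 h2
    · exact mul_neg_of_pos_of_neg h1 h2
    · exact absurd (iff_of_true h1 h2) hcon
  have hAz : D.A z = D.A' z := by
    rw [← D.pos z D.mem D.ℓz.ge, ← D.neg z D.mem D.ℓz.le]
  by_cases hℓ : ∀ w, D.ℓ w = 0
  · have : D.A = D.A' := by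
      apply clm_eq_of_eqOn_open D.isOpen ⟨z, D.mem⟩
      intro w hw
      rw [← D.pos w hw (hℓ w).ge, ← D.neg w hw (hℓ w).le]
    rw [this] at hopp
    nlinarith [mul_self_nonneg (J D.A')]
  push Not at hℓ
  obtain ⟨n₀, hn₀⟩ := hℓ
  -- a vector with `ℓ n = 1`
  obtain ⟨n, hn1⟩ : ∃ n : ℂ, D.ℓ n = 1 :=
    ⟨(D.ℓ n₀)⁻¹ • n₀, by rw [map_smul, smul_eq_mul, inv_mul_cancel₀ hn₀]⟩
  obtain ⟨p, hp⟩ : ∃ p, p = D.A z := ⟨_, rfl⟩
  have hpA : D.A z = p := hp.symm
  have hpA' : D.A' z = p := by rw [hp, hAz]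
  set ω := (n * conj z).im with hω
  have hω0 : ω ≠ 0 := by
    intro h0
    -- then `n` is a real multiple of `z`
    have hz2 : 0 < ‖z‖ ^ 2 := by positivity
    have h1 : n = (((n * conj z).re / ‖z‖ ^ 2 : ℝ) : ℂ) * z := by
      have h2 : n * conj z = (((n * conj z).re : ℝ) : ℂ) := by
        apply Complex.ext
        · simp
        · rw [Complex.ofReal_im]; exact h0
      have h3 : n * (conj z * z) = (((n * conj z).re : ℝ) : ℂ) * z := by
        rw [← mul_assoc, h2]
        simp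
      have h4 : conj z * z = ((‖z‖ ^ 2 : ℝ) : ℂ) := by
        rw [mul_comm, Complex.mul_conj, Complex.normSq_eq_norm_sq]
      rw [h4] at h3
      have h5 : ((‖z‖ ^ 2 : ℝ) : ℂ) ≠ 0 := by exact_mod_cast hz2.ne'
      rw [Complex.ofReal_div, div_mul_eq_mul_div, eq_div_iff h5]
      exact h3
    have h2 : D.ℓ n = 0 := by
      rw [h1, ← Complex.real_smul, map_smul, D.ℓz, smul_zero]
    rw [hn1] at h2
    exact one_ne_zero h2
  have e1 : (D.A n * conj p).im = J D.A * ω := by rw [← hpA]; exact im_mul_conj D.A n z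
  have e2 : (D.A' n * conj p).im = J D.A' * ω := by
    rw [← hpA']; exact im_mul_conj D.A' n z
  have hp0 : p ≠ 0 := by
    intro h0
    rw [h0] at e1
    simp only [map_zero, mul_zero, Complex.zero_im] at e1
    exact mul_ne_zero hA hω0 e1.symm
  set cc : ℝ := -(J D.A' / J D.A) with hcc
  have hcc0 : 0 < cc := by
    rw [hcc, neg_pos, div_neg_iff]
    rcases lt_or_gt_of_ne hA with h1 | h1
    · left
      exact ⟨by nlinarith, h1⟩
    · right
      exact ⟨by nlinarith, h1⟩
  obtain ⟨d, hd⟩ : ∃ d : ℝ, -(D.A' n) - cc • D.A n = d • p := by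
    set X := -(D.A' n) - cc • D.A n with hX
    have hXim : (X * conj p).im = 0 := by
      have : X * conj p = -(D.A' n * conj p) - (cc : ℂ) * (D.A n * conj p) := by
        rw [hX, Complex.real_smul]; ring
      rw [this, Complex.sub_im, Complex.neg_im, e2, Complex.im_ofReal_mul, e1, hcc]
      field_simp
      ring
    refine ⟨(X * conj p).re / ‖p‖ ^ 2, ?_⟩
    have hpp : 0 < ‖p‖ ^ 2 := by positivity
    have h2 : X * conj p = (((X * conj p).re : ℝ) : ℂ) := by
      apply Complex.ext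
      · simp
      · rw [Complex.ofReal_im]; exact hXim
    have h3 : X * (conj p * p) = (((X * conj p).re : ℝ) : ℂ) * p := by
      rw [← mul_assoc, h2]; simp
    have h4 : conj p * p = ((‖p‖ ^ 2 : ℝ) : ℂ) := by
      rw [mul_comm, Complex.mul_conj, Complex.normSq_eq_norm_sq]
    rw [h4] at h3
    have h5 : ((‖p‖ ^ 2 : ℝ) : ℂ) ≠ 0 := by exact_mod_cast hpp.ne'
    rw [Complex.real_smul, Complex.ofReal_div, div_mul_eq_mul_div, eq_div_iff h5]
    exact h3
  obtain ⟨ε, hε, hb⟩ := Metric.isOpen_iff.1 D.isOpen z D.mem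
  obtain ⟨τ, hτ, -, hτm⟩ := exists_small ε hε (‖n‖ + ‖cc • n + d • z‖)
  have hz1 : z - τ • n ∈ D.N := hb (by
    rw [mem_ball, dist_eq_norm, sub_sub_cancel_left, norm_neg, norm_smul,
      Real.norm_of_nonneg hτ.le]
    nlinarith [norm_nonneg (cc • n + d • z), norm_nonneg n])
  have hz2 : z + τ • (cc • n + d • z) ∈ D.N := hb (by
    rw [mem_ball, dist_eq_norm, add_sub_cancel_left, norm_smul, Real.norm_of_nonneg hτ.le]
    nlinarith [norm_nonneg (cc • n + d • z), norm_nonneg n])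
  have l1 : D.ℓ (z - τ • n) = -τ := by
    rw [map_sub, map_smul, D.ℓz, hn1, smul_eq_mul]; ring
  have l2 : D.ℓ (z + τ • (cc • n + d • z)) = τ * cc := by
    rw [map_add, map_smul, map_add, map_smul, map_smul, D.ℓz, hn1]
    simp
  have f1 := D.neg _ hz1 (by rw [l1]; linarith)
  have f2 := D.pos _ hz2 (by rw [l2]; positivity)
  have g1 : D.A' (z - τ • n) = p + τ • (-(D.A' n)) := by
    rw [map_sub, map_smul, hpA']; module
  have g2 : D.A (z + τ • (cc • n + d • z)) = p + τ • (cc • D.A n + d • p) := by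
    rw [map_add, map_smul, map_add, map_smul, map_smul, hpA]
  have g3 : -(D.A' n) = cc • D.A n + d • p := by rw [← hd]; abel
  have heq : F (z - τ • n) = F (z + τ • (cc • n + d • z)) := by rw [f1, f2, g1, g2, g3]
  have := hinj heq
  have h7 := congrArg D.ℓ this
  rw [l1, l2] at h7
  nlinarith

/-- global orientation: if all local pieces are non-degenerate and `F` is the identity on a
non-empty open set, then all local pieces are orientation preserving -/
theorem orientation {F : ℂ → ℂ} (hinj : Function.Injective F) {U : Set ℂ} (hU : IsOpen U)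
    {z₀ : ℂ} (hz₀ : z₀ ∈ U) (hz₀0 : z₀ ≠ 0) (hid : ∀ z ∈ U, F z = z)
    (D : ∀ z : ℂ, z ≠ 0 → LocData F z)
    (hJ : ∀ z hz, J (D z hz).A ≠ 0 ∧ J (D z hz).A' ≠ 0) (z : ℂ) (hz : z ≠ 0) :
    0 < J (D z hz).A ∧ 0 < J (D z hz).A' := by
  classical
  have hs : ∀ z hz, (0 < J (D z hz).A ↔ 0 < J (D z hz).A') := fun z hz =>
    (D z hz).same_sign hinj hz (hJ z hz).1 (hJ z hz).2
  -- overlapping neighbourhoods have the same sign
  have hover : ∀ z hz z' hz', ((D z hz).N ∩ (D z' hz').N).Nonempty →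
      (0 < J (D z hz).A ↔ 0 < J (D z' hz').A) := by
    intro z hz z' hz' hne
    obtain ⟨O, hO1, hO2, hO3, hO4⟩ := (D z hz).exists_open ((D z hz).isOpen.inter
      (D z' hz').isOpen) hne inter_subset_left
    obtain ⟨O', hO'1, hO'2, hO'3, hO'4⟩ := (D z' hz').exists_open hO2 hO3
      (hO1.trans inter_subset_right)
    rcases hO4 with h1 | h1 <;> rcases hO'4 with h2 | h2
    · have : (D z hz).A = (D z' hz').A := clm_eq_of_eqOn_open hO'2 hO'3 fun w hw => by
        rw [← h1 w (hO'1 hw), h2 w hw]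
      rw [this]
    · have : (D z hz).A = (D z' hz').A' := clm_eq_of_eqOn_open hO'2 hO'3 fun w hw => by
        rw [← h1 w (hO'1 hw), h2 w hw]
      rw [this, ← hs z' hz']
    · have : (D z hz).A' = (D z' hz').A := clm_eq_of_eqOn_open hO'2 hO'3 fun w hw => by
        rw [← h1 w (hO'1 hw), h2 w hw]
      rw [hs z hz, this]
    · have : (D z hz).A' = (D z' hz').A' := clm_eq_of_eqOn_open hO'2 hO'3 fun w hw => by
        rw [← h1 w (hO'1 hw), h2 w hw]
      rw [hs z hz, this, ← hs z' hz']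
  let P : Set ℂ := ⋃ (z : ℂ) (hz : z ≠ 0) (_ : 0 < J (D z hz).A), (D z hz).N
  let Q : Set ℂ := ⋃ (z : ℂ) (hz : z ≠ 0) (_ : ¬ 0 < J (D z hz).A), (D z hz).N
  have hPo : IsOpen P := isOpen_iUnion fun z => isOpen_iUnion fun hz => isOpen_iUnion fun _ =>
    (D z hz).isOpen
  have hQo : IsOpen Q := isOpen_iUnion fun z => isOpen_iUnion fun hz => isOpen_iUnion fun _ =>
    (D z hz).isOpen
  have hdisj : Disjoint P Q := by
    rw [Set.disjoint_left]
    intro w hwP hwQ
    simp only [P, Q, mem_iUnion] at hwP hwQ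
    obtain ⟨z, hz, h1, h2⟩ := hwP
    obtain ⟨z', hz', h1', h2'⟩ := hwQ
    exact h1' ((hover z hz z' hz' ⟨w, h2, h2'⟩).1 h1)
  have hcov : ({0}ᶜ : Set ℂ) ⊆ P ∪ Q := by
    intro w hw
    by_cases h1 : 0 < J (D w hw).A
    · left
      simp only [P, mem_iUnion]
      exact ⟨w, hw, h1, (D w hw).mem⟩
    · right
      simp only [Q, mem_iUnion]
      exact ⟨w, hw, h1, (D w hw).mem⟩
  have hz₀P : 0 < J (D z₀ hz₀0).A := by
    obtain ⟨O, hO1, hO2, hO3, hO4⟩ := (D z₀ hz₀0).exists_open ((D z₀ hz₀0).isOpen.inter hU)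
      ⟨z₀, (D z₀ hz₀0).mem, hz₀⟩ inter_subset_left
    have hJid : J (ContinuousLinearMap.id ℝ ℂ) = 1 := by simp [J]
    rcases hO4 with h1 | h1
    · have : (D z₀ hz₀0).A = ContinuousLinearMap.id ℝ ℂ :=
        clm_eq_of_eqOn_open hO2 hO3 fun w hw => by
          rw [← h1 w hw, hid w (hO1 hw).2]; rfl
      rw [this, hJid]; exact one_pos
    · have : (D z₀ hz₀0).A' = ContinuousLinearMap.id ℝ ℂ :=
        clm_eq_of_eqOn_open hO2 hO3 fun w hw => by
          rw [← h1 w hw, hid w (hO1 hw).2]; rfl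
      rw [hs z₀ hz₀0, this, hJid]; exact one_pos
  have hconn : IsPreconnected ({0}ᶜ : Set ℂ) := by
    apply IsConnected.isPreconnected
    apply isConnected_compl_singleton_of_one_lt_rank
    rw [Complex.rank_real_complex]
    exact Cardinal.one_lt_two
  have hsubP : ({0}ᶜ : Set ℂ) ⊆ P := by
    refine hconn.subset_left_of_subset_union hPo hQo hdisj hcov ⟨z₀, hz₀0, ?_⟩
    simp only [P, mem_iUnion]
    exact ⟨z₀, hz₀0, hz₀P, (D z₀ hz₀0).mem⟩
  have hzP : 0 < J (D z hz).A := by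
    by_contra hcon
    have h1 : z ∈ P := hsubP hz
    have h2 : z ∈ Q := by
      simp only [Q, mem_iUnion]
      exact ⟨z, hz, hcon, (D z hz).mem⟩
    exact Set.disjoint_left.1 hdisj h1 h2
  exact ⟨hzP, (hs z hz).1 hzP⟩

end P073.SM.EX
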