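import Vale.Agent.P073.SM.Spec2
import Vale.Agent.P073.SMV.Glue

/-!
# P073, block SMA, part FA: the final assembly
-/

namespace P073.SM

open Set Metric Topology Filter MeasureTheory
open scoped ENNReal ContDiff
open Vale.Agent.P073 (LipOn PII DirMonotoneAt)
open Vale.Agent.P073.SMV (HomeoOn DiffeoOn RegAt ClassOne AdmMeas exists_cont_radius
  exists_cont_majorant)

namespace FA

/-- the points with no point of a smaller stratum at distance less than `s x` -/
def ZZ (h : E3 → E3) (Ω : Set E3) (s : E3 → ℝ) : Set E3 :=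
  {x | x ∈ Ω ∧ x ∉ stratum h Ω 0 ∧ ∀ y ∈ ball x (s x), y ∈ Ω →
    Module.finrank ℝ (linSpace h x) ≤ Module.finrank ℝ (linSpace h y)}

/-- `f` is affine in the directions of the linearity space -/
def PP (f h : E3 → E3) (x : E3) (r : ℝ) : Prop :=
  ∀ w ∈ linSpace h x, ∀ y ∈ ball x r, ∀ t : ℝ, y + t • w ∈ ball x r →
    f (y + t • w) = f y + t • tcone h x w

theorem PP.mono {f h : E3 → E3} {x : E3} {r r' : ℝ} (H : PP f h x r) (hr : r' ≤ r) :
    PP f h x r' := fun w hw y hy t ht =>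
  H w hw y (ball_subset_ball hr hy) t (ball_subset_ball hr ht)

theorem local_pp {Ω Λ : Set E3} {h k : E3 → E3} (hin : Input Ω Λ h k) {s : E3 → ℝ}
    (hs : ContinuousOn s Ω) (hs0 : ∀ x ∈ Ω, 0 < s x) {f : E3 → E3} {δ : E3 → ℝ}
    (hδ : ∀ x ∈ Ω, δ x ≤ s x / 2)
    (h1 : ∀ y ∈ stratum h Ω 1, ∃ (A : E3 →L[ℝ] E3) (b : E3), (∀ᶠ x in 𝓝 y, f x = b + A x) ∧
        ∀ w ∈ linSpace h y, A w = tcone h y w)
    (h2 : ∀ x ∈ Ω, f x ≠ h x → ∃ y ∈ stratum h Ω 1, ‖x - y‖ < δ x) {x₀ : E3} (hx₀ : x₀ ∈ Ω) :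
    ∃ r > 0, ∀ y ∈ ball x₀ r, y ∈ ZZ h Ω s → PP f h y r := by
  obtain ⟨r, hr, hb, hform, hmem, hnot, -⟩ := exists_stratum_nhd hin.openΩ hin.con hx₀
  have hs₀ := hs0 x₀ hx₀
  -- continuity of `s`
  obtain ⟨a, ha, haΩ, has⟩ : ∃ a > 0, ball x₀ a ⊆ Ω ∧ ∀ y ∈ ball x₀ a, |s y - s x₀| < s x₀ / 8 := by
    have e1 : ∀ᶠ y in 𝓝 x₀, |s y - s x₀| < s x₀ / 8 := by
      have := (hs.continuousAt (hin.openΩ.mem_nhds hx₀)).eventually
        (Metric.ball_mem_nhds (s x₀) (show 0 < s x₀ / 8 by positivity))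
      filter_upwards [this] with y hy
      rwa [Real.dist_eq] at hy
    obtain ⟨a, ha, hab⟩ := Metric.mem_nhds_iff.1 (e1.and (hin.openΩ.mem_nhds hx₀))
    exact ⟨a, ha, fun y hy => (hab hy).2, fun y hy => (hab hy).1⟩
  set q := min (min r a) (s x₀ / 16) with hq
  have hq0 : 0 < q := lt_min (lt_min hr ha) (by positivity)
  have hqr : q ≤ r := (min_le_left _ _).trans (min_le_left _ _)
  have hqa : q ≤ a := (min_le_left _ _).trans (min_le_right _ _)
  have hqs : q ≤ s x₀ / 16 := min_le_right _ _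
  -- the points of `ZZ` near `x₀` lie in the same stratum
  have key : ∀ y ∈ ball x₀ q, y ∈ ZZ h Ω s → tcone h y = tcone h x₀ ∧
      linSpace h y = linSpace h x₀ := by
    intro y hy hyZ
    have hyn : ‖y - x₀‖ < r := by
      rw [← dist_eq_norm]
      exact (mem_ball.1 hy).trans_le hqr
    have hsy := has y (ball_subset_ball hqa hy)
    rw [abs_sub_lt_iff] at hsy
    have hx0y : x₀ ∈ ball y (s y) := by
      rw [mem_ball, dist_comm]
      have := mem_ball.1 hy
      linarith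
    have hle := hyZ.2.2 x₀ hx0y hx₀
    have hin' : y - x₀ ∈ linSpace h x₀ := by
      by_contra hn
      have := hnot (y - x₀) hyn hn
      rw [add_sub_cancel] at this
      omega
    have := hmem (y - x₀) hyn hin'
    rwa [add_sub_cancel] at this
  rcases Nat.lt_or_ge (Module.finrank ℝ (linSpace h x₀)) 2 with hd | hd
  · rcases Nat.lt_or_ge (Module.finrank ℝ (linSpace h x₀)) 1 with hd0 | hd1
    · refine ⟨q, hq0, fun y hy hyZ => ?_⟩
      exfalso
      have h3 := (key y hy hyZ).2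
      apply hyZ.2.1
      refine ⟨hyZ.1, ?_⟩
      rw [h3]
      omega
    · have hst : x₀ ∈ stratum h Ω 1 := ⟨hx₀, by omega⟩
      obtain ⟨A, b, hA, hAw⟩ := h1 x₀ hst
      obtain ⟨e, he, heb⟩ := Metric.mem_nhds_iff.1 hA
      refine ⟨min q (e / 2), lt_min hq0 (by positivity), fun y hy hyZ => ?_⟩
      obtain ⟨e1, e2⟩ := key y (ball_subset_ball (min_le_left _ _) hy) hyZ
      intro w hw y' hy' t ht
      have hsub : ball y (min q (e / 2)) ⊆ ball x₀ e := by
        refine ball_subset_ball' ?_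
        have := mem_ball.1 hy
        have h5 : min q (e / 2) ≤ e / 2 := min_le_right _ _
        linarith
      have h6 : f y' = b + A y' := heb (hsub hy')
      have h7 : f (y' + t • w) = b + A (y' + t • w) := heb (hsub ht)
      rw [e2] at hw
      rw [h6, h7, e1, ← hAw w hw, map_add, map_smul, add_assoc]
  · refine ⟨q / 2, half_pos hq0, fun y hy hyZ => ?_⟩
    have hyq : y ∈ ball x₀ q := ball_subset_ball (by linarith) hy
    obtain ⟨e1, e2⟩ := key y hyq hyZ
    have hfh : ∀ x ∈ ball x₀ q, f x = h x := by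
      intro x hx
      by_contra hne
      have hxΩ : x ∈ Ω := haΩ (ball_subset_ball hqa hx)
      obtain ⟨y₁, hy₁, hlt⟩ := h2 x hxΩ hne
      have hsx := has x (ball_subset_ball hqa hx)
      have hsy := has y (ball_subset_ball hqa hyq)
      rw [abs_sub_lt_iff] at hsx hsy
      have h3 := hδ x hxΩ
      have h4 : dist y₁ y < s y := by
        have h5 : dist y₁ y ≤ dist y₁ x + dist x x₀ + dist x₀ y := dist_triangle4 _ _ _ _
        have h6 : dist y₁ x < δ x := by rwa [dist_comm, dist_eq_norm]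
        have h7 := mem_ball.1 hx
        have h8 : dist x₀ y < q := by
          rw [dist_comm]
          exact mem_ball.1 hyq
        linarith
      have h5 := hyZ.2.2 y₁ h4 hy₁.1
      rw [hy₁.2, e2] at h5
      omega
    intro w hw y' hy' t ht
    have hsub : ball y (q / 2) ⊆ ball x₀ q := by
      refine ball_subset_ball' ?_
      have := mem_ball.1 hy
      linarith
    rw [hfh _ (hsub hy'), hfh _ (hsub ht), e1]
    rw [e2] at hw
    have h3 := hform (y' - x₀) (by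
      rw [← dist_eq_norm]
      exact ((mem_ball.1 (hsub hy')).trans_le hqr).le)
    have h4 := hform (y' + t • w - x₀) (by
      rw [← dist_eq_norm]
      exact ((mem_ball.1 (hsub ht)).trans_le hqr).le)
    rw [add_sub_cancel] at h3 h4
    have h5 : y' + t • w - x₀ = (y' - x₀) + t • w := by abel
    rw [h3, h4, h5, hw t (y' - x₀), add_assoc]

theorem lowerBd_of_pos {Ω S : Set E3} (hΩ : IsOpen Ω) (hS : S ⊆ Ω) {δ : E3 → ℝ}
    (hδ : ContinuousOn δ Ω) (h0 : ∀ x ∈ Ω, 0 < δ x) : LowerBd Ω S δ := by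
  have key : ∀ x ∈ Ω, ∃ a > 0, ∀ᶠ y in 𝓝 x, a ≤ δ y := by
    intro x hx
    refine ⟨δ x / 2, half_pos (h0 x hx), ?_⟩
    filter_upwards [(hδ.continuousAt (hΩ.mem_nhds hx)).eventually
      (lt_mem_nhds (half_lt_self (h0 x hx)))] with y hy using hy.le
  refine ⟨fun x hx _ => key x hx, fun v hv => ?_⟩
  obtain ⟨a, ha, h1⟩ := key v (hS hv)
  refine ⟨a, ha, ?_⟩
  filter_upwards [h1, Metric.ball_mem_nhds v one_pos] with y hy hyv
  refine le_trans ?_ hy
  have h2 : ‖y - v‖ < 1 := by rwa [← dist_eq_norm]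
  nlinarith [norm_nonneg (y - v)]

theorem lowerBd_min {Ω S : Set E3} {δ δ' : E3 → ℝ} (h : LowerBd Ω S δ) (h' : LowerBd Ω S δ') :
    LowerBd Ω S (fun x => Min.min (δ x) (δ' x)) := by
  refine ⟨fun x hx hxS => ?_, fun v hv => ?_⟩
  · obtain ⟨a, ha, h1⟩ := h.1 x hx hxS
    obtain ⟨a', ha', h1'⟩ := h'.1 x hx hxS
    refine ⟨Min.min a a', lt_min ha ha', ?_⟩
    filter_upwards [h1, h1'] with y hy hy'
    exact min_le_min hy hy'
  · obtain ⟨a, ha, h1⟩ := h.2 v hv
    obtain ⟨a', ha', h1'⟩ := h'.2 v hv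
    refine ⟨Min.min a a', lt_min ha ha', ?_⟩
    filter_upwards [h1, h1'] with y hy hy'
    refine le_min (le_trans ?_ hy) (le_trans ?_ hy')
    · exact mul_le_mul_of_nonneg_right (min_le_left _ _) (norm_nonneg _)
    · exact mul_le_mul_of_nonneg_right (min_le_right _ _) (norm_nonneg _)

/-- division by a locally bounded function -/
theorem lowerBd_div {Ω S : Set E3} (hΩ : IsOpen Ω) (hS : S ⊆ Ω) {δ m : E3 → ℝ}
    (h : LowerBd Ω S δ) (hm : ContinuousOn m Ω) (hm0 : ∀ x ∈ Ω, 0 < m x) :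
    LowerBd Ω S (fun x => δ x / m x) := by
  have hloc : ∀ x ∈ Ω, ∀ᶠ y in 𝓝 x, 0 < m y ∧ m y ≤ 2 * m x := by
    intro x hx
    filter_upwards [(hm.continuousAt (hΩ.mem_nhds hx)).eventually
      (gt_mem_nhds (show m x < 2 * m x by linarith [hm0 x hx])), hΩ.mem_nhds hx] with y hy hyΩ
    exact ⟨hm0 y hyΩ, hy.le⟩
  refine ⟨fun x hx hxS => ?_, fun v hv => ?_⟩
  · obtain ⟨a, ha, h1⟩ := h.1 x hx hxS
    have hmx := hm0 x hx
    refine ⟨a / (2 * m x), by positivity, ?_⟩
    filter_upwards [h1, hloc x hx] with y hy hy'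
    exact div_le_div₀ (ha.le.trans hy) hy hy'.1 hy'.2
  · obtain ⟨a, ha, h1⟩ := h.2 v hv
    have hmx := hm0 v (hS hv)
    refine ⟨a / (2 * m v), by positivity, ?_⟩
    filter_upwards [h1, hloc v (hS hv)] with y hy hy'
    have h2 : 0 ≤ a * ‖y - v‖ := by positivity
    calc a / (2 * m v) * ‖y - v‖ = (a * ‖y - v‖) / (2 * m v) := by ring
      _ ≤ _ := div_le_div₀ (h2.trans hy) hy hy'.1 hy'.2

end FA

open FA

/-- **(FA)** the final assembly -/
theorem specFA : SpecFA := by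
  intro hED ⟨K, hK, hAS⟩ hBJ hLP Ω Λ h k hin
  have hΩ := hin.openΩ
  obtain ⟨C0, hC0, hED⟩ := hED Ω Λ h k hin
  -- continuous majorant of the Lipschitz constants
  obtain ⟨m0, hm0, hm0'⟩ := exists_cont_majorant (Ω := Ω) (f := C0) (by
    intro x hx
    obtain ⟨M, hM⟩ := hC0 x hx
    exact ⟨M, mem_nhdsWithin_of_mem_nhds hM⟩)
  obtain ⟨R0, hR0, hR0'⟩ := exists_cont_radius (Ω := Ω)
    (P := fun x r => ∀ y ∈ ball x r, y ∈ Ω ∧ m0 y ≤ m0 x + 1) (by
      intro x m m' _ hmm H y hy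
      exact H y (ball_subset_ball hmm hy)) (by
      intro x hx
      have e1 := (hm0.continuousAt (hΩ.mem_nhds hx)).eventually
        (Metric.ball_mem_nhds (m0 x) (show (0:ℝ) < 1 / 2 by norm_num))
      obtain ⟨a, ha, hab⟩ := Metric.mem_nhds_iff.1 (e1.and (hΩ.mem_nhds hx))
      refine ⟨a / 2, half_pos ha, mem_nhdsWithin_of_mem_nhds ?_⟩
      filter_upwards [Metric.ball_mem_nhds x (half_pos ha)] with y hy z hz
      have hza : z ∈ ball x a := by
        have h1 := mem_ball.1 hy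
        have h2 := mem_ball.1 hz
        rw [mem_ball]
        linarith [dist_triangle z y x]
      have hya : y ∈ ball x a := ball_subset_ball (by linarith) hy
      refine ⟨(hab hza).2, ?_⟩
      have h3 := (abs_lt.1 (by simpa [Real.dist_eq] using (hab hza).1))
      have h4 := (abs_lt.1 (by simpa [Real.dist_eq] using (hab hya).1))
      linarith [h3.2, h4.1])
  refine ⟨fun x => K * (m0 x + 1), by fun_prop, fun x hx => ?_, ?_⟩
  · have := (hm0' x hx).2
    have hK0 : 0 < K := by linarith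
    positivity
  intro s hs hs0
  set S := stratum h Ω 0 with hS
  have hSΩ : S ⊆ Ω := fun x hx => hx.1
  have hdisc : DiscIn Ω S := ⟨hSΩ, fun x hx => stratum_zero_discrete hΩ hin.con hx⟩
  obtain ⟨δB, hδB, hBJ⟩ := hBJ Ω Λ h k hin
  -- the edge replacement
  set δE : E3 → ℝ := fun x => Min.min (s x / 2) (δB x / 2) with hδE
  have hLs : LowerBd Ω S (fun x => s x / 2) :=
    lowerBd_of_pos hΩ hSΩ (by fun_prop) fun x hx => half_pos (hs0 x hx)
  have hLB : LowerBd Ω S (fun x => δB x / 2) :=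
    lowerBd_div hΩ hSΩ hδB continuousOn_const fun _ _ => two_pos
  obtain ⟨f, hfi, hfc, hfm, hfv, hfh, hfl, hfd, hfa, hfs⟩ := hED δE (lowerBd_min hLs hLB)
  -- the radius of linearity
  obtain ⟨R, hR, hR'⟩ := exists_cont_radius (Ω := Ω)
    (P := fun x r => x ∈ ZZ h Ω s → PP f h x r) (by
      intro x m m' _ hmm H hx
      exact (H hx).mono hmm) (by
      intro x hx
      obtain ⟨r, hr, h1⟩ := local_pp hin hs hs0 (δ := δE) (fun x _ => min_le_left _ _) hfa hfs hx
      refine ⟨r, hr, mem_nhdsWithin_of_mem_nhds ?_⟩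
      filter_upwards [Metric.ball_mem_nhds x hr] with y hy
      exact h1 y hy)
  -- the Lipschitz ball
  have hLip : ∀ x ∈ Ω, LipOn f (ball x (R0 x)) (m0 x + 1) := by
    intro x hx
    have h1 := (hR0' x hx).2
    have h2 := (hm0' x hx).2
    refine hLP (ball x (R0 x)) S f (m0 x + 1) (convex_ball _ _) isOpen_ball (by linarith)
      (hfc.mono fun y hy => (h1 y hy).1) (fun y hy => hdisc.2 y (h1 y hy).1) ?_
    intro y hy hyS
    obtain ⟨r, hr, h3⟩ := hfl y (h1 y hy).1 hyS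
    refine ⟨r, hr, fun a ha b hb => (h3 a ha b hb).trans ?_⟩
    refine mul_le_mul_of_nonneg_right ?_ (norm_nonneg _)
    exact (hm0' y (h1 y hy).1).1.trans (h1 y hy).2
  -- the mollification
  set δA : E3 → ℝ := fun x => Min.min (Min.min (R x) (R0 x)) (δE x / (m0 x + 1)) with hδA
  have hm1 : ContinuousOn (fun x => m0 x + 1) Ω := by fun_prop
  have hm1' : ∀ x ∈ Ω, 0 < m0 x + 1 := fun x hx => by linarith [(hm0' x hx).2]
  have hLA : LowerBd Ω S δA := by
    refine lowerBd_min (lowerBd_min ?_ ?_) ?_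
    · exact lowerBd_of_pos hΩ hSΩ hR fun x hx => (hR' x hx).1
    · exact lowerBd_of_pos hΩ hSΩ hR0 fun x hx => (hR0' x hx).1
    · exact lowerBd_div hΩ hSΩ (lowerBd_min hLs hLB) hm1 hm1'
  set η : E3 → ℝ := fun x => s x / (m0 x + 1) with hη
  have hηc : ContinuousOn η Ω := hs.div hm1 fun x hx => (hm1' x hx).ne'
  have hη0 : ∀ x ∈ Ω, 0 < η x := fun x hx => div_pos (hs0 x hx) (hm1' x hx)
  have hLη : LowerBd' Ω η := by
    intro x hx
    refine ⟨η x / 2, half_pos (hη0 x hx), ?_⟩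
    filter_upwards [(hηc.continuousAt (hΩ.mem_nhds hx)).eventually
      (lt_mem_nhds (half_lt_self (hη0 x hx)))] with y hy using hy.le
  obtain ⟨ρ, g, hρ, hgv, hgh, hgd⟩ := hAS Ω S f hΩ hdisc hfi hfm hfh δA η hLA hLη
  have hclose : ∀ x ∈ Ω, x ∉ S → ‖g x - h x‖ < s x ∧ ‖g x - h x‖ < δB x := by
    intro x hx hxS
    obtain ⟨h1, h2, -⟩ := hρ x hx hxS
    have h3 := hm1' x hx
    have hr : ρ x < R0 x := h2.trans_le ((min_le_left _ _).trans (min_le_right _ _))
    have h4 := (hgd x hx hxS (R0 x) (m0 x + 1) hr h3.le (hLip x hx)).1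
    have h5 : ρ x < δE x / (m0 x + 1) := h2.trans_le (min_le_right _ _)
    rw [lt_div_iff₀ h3] at h5
    have h6 : ‖g x - f x‖ < δE x := by
      calc ‖g x - f x‖ ≤ (m0 x + 1) * ρ x := h4
        _ = ρ x * (m0 x + 1) := mul_comm _ _
        _ < _ := h5
    have h7 := hfd x hx hxS
    have h8 : ‖g x - h x‖ ≤ ‖g x - f x‖ + ‖f x - h x‖ := norm_sub_le_norm_sub_add_norm_sub _ _ _
    have h9 : δE x ≤ s x / 2 := min_le_left _ _
    have h10 : δE x ≤ δB x / 2 := min_le_right _ _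
    constructor <;> linarith
  obtain ⟨k', hk'⟩ := hBJ g (fun x hx hxS => (hρ x hx hxS).2.2)
    (fun v hv => (hgv v hv).trans (hfv v hv)) hgh (fun x hx hxS => (hclose x hx hxS).2)
  refine ⟨g, k', hk', fun x hx => ?_, fun x hx hxS => ?_, fun x hx hxS hZ w hw => ?_⟩
  · by_cases hxS : x ∈ S
    · rw [hgv x hxS, hfv x hxS, sub_self, norm_zero]
      exact (hs0 x hx).le
    · exact (hclose x hx hxS).1.le
  · obtain ⟨-, h2, -⟩ := hρ x hx hxS
    exact (hgd x hx hxS (R0 x) (m0 x + 1)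
      (h2.trans_le ((min_le_left _ _).trans (min_le_right _ _))) (hm1' x hx).le (hLip x hx)).2.1
  · obtain ⟨-, h2, -⟩ := hρ x hx hxS
    have hPP : PP f h x (R x) := (hR' x hx).2 ⟨hx, hxS, hZ⟩
    have h3 := (hgd x hx hxS (Min.min (R x) (R0 x)) (m0 x + 1) (h2.trans_le (min_le_left _ _))
      (hm1' x hx).le ((hLip x hx).mono (ball_subset_ball (min_le_right _ _)))).2.2 w (tcone h x w)
      (fun y hy t ht => hPP w hw y (ball_subset_ball (min_le_left _ _) hy) t
        (ball_subset_ball (min_le_left _ _) ht))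
    refine h3.trans (le_of_eq ?_)
    rw [hη]
    simp only
    rw [div_mul_cancel₀ _ (hm1' x hx).ne']

end P073.SM
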