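import Vale.Agent.P073.ConicalStrata2

/-!
# P073: near each point a conical map has only finitely many tangent cone maps
-/

namespace P073

open Set Metric Topology Filter

variable {E F : Type*} [NormedAddCommGroup E] [NormedSpace ℝ E]
  [NormedAddCommGroup F] [NormedSpace ℝ F] {h : E → F} {Ω : Set E}

/-- **finitely many tangent cone maps near each point** -/
theorem exists_finite_germs_aux [FiniteDimensional ℝ E] (hΩ : IsOpen Ω) (H : ConicalOn h Ω) :
    ∀ (k : ℕ) (x : E), x ∈ Ω → Module.finrank ℝ E ≤ Module.finrank ℝ (linSpace h x) + k →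
      ∃ δ > 0, ball x δ ⊆ Ω ∧ ∃ S : Set (E → F), S.Finite ∧ ∀ y ∈ ball x δ, tcone h y ∈ S := by
  intro k
  induction k with
  | zero =>
    intro x hx hk
    have htop : linSpace h x = ⊤ :=
      Submodule.eq_top_of_finrank_eq (le_antisymm (Submodule.finrank_le _) (by simpa using hk))
    obtain ⟨r, hr, hb, -, hmem, -, -⟩ := exists_stratum_nhd hΩ H hx
    refine ⟨r, hr, hb, {tcone h x}, finite_singleton _, fun y hy => ?_⟩
    rw [mem_ball, dist_eq_norm] at hy
    have := (hmem (y - x) hy (htop ▸ Submodule.mem_top)).1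
    rw [add_sub_cancel] at this
    exact this
  | succ k ih =>
    intro x hx hk
    obtain ⟨r, hr, hb, hform, hmem, hlt, hle⟩ := exists_stratum_nhd hΩ H hx
    have Hx := H.conicalAt hΩ hx
    have Hnear : ∀ v : E, ‖v‖ < r → ConicalAt h (x + v) := fun v hv =>
      H.conicalAt hΩ (hb (by rw [mem_ball, dist_eq_norm, add_sub_cancel_left]; exact hv))
    obtain ⟨W, hW⟩ := Submodule.exists_isCompl (linSpace h x)
    set ρ := r / 2 with hρ
    have hρ0 : 0 < ρ := by positivity
    let K : Set E := {w | w ∈ W ∧ ‖w‖ = ρ}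
    have hK : IsCompact K := by
      have h1 : K = (W : Set E) ∩ sphere 0 ρ := by
        ext w; simp [K]
      rw [h1]
      exact (isCompact_sphere _ _).inter_left (Submodule.closed_of_finiteDimensional W)
    have hKnot : ∀ w ∈ K, w ∉ linSpace h x := by
      rintro w ⟨hwW, hwn⟩ hwV
      have : w ∈ linSpace h x ⊓ W := ⟨hwV, hwW⟩
      rw [hW.inf_eq_bot, Submodule.mem_bot] at this
      rw [this, norm_zero] at hwn
      exact hρ0.ne hwn
    have hloc : ∀ w ∈ K, ∃ δ > 0, ∃ S : Set (E → F), S.Finite ∧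
        ∀ y ∈ ball (x + w) δ, tcone h y ∈ S := by
      intro w hw
      have hwr : ‖w‖ < r := by rw [hw.2]; linarith
      have h1 := hlt w hwr (hKnot w hw)
      have h2 : x + w ∈ Ω := hb (by rw [mem_ball, dist_eq_norm, add_sub_cancel_left]; exact hwr)
      obtain ⟨δ, hδ, -, S, hS, hS'⟩ := ih (x + w) h2 (by omega)
      exact ⟨δ, hδ, S, hS, hS'⟩
    choose! δ hδ S hS hS' using hloc
    obtain ⟨t, htK, ht⟩ := hK.elim_nhds_subcover (fun w => ball w (δ w))
      (fun w hw => ball_mem_nhds w (hδ w hw))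
    obtain ⟨P, hPW, hPV⟩ : ∃ P : E →ₗ[ℝ] E, (∀ v, P v ∈ W) ∧ ∀ v, v - P v ∈ linSpace h x := by
      refine ⟨W.projection (linSpace h x) hW.symm, fun v => ?_, fun v => ?_⟩
      · rw [← Submodule.coe_projectionOnto_apply]; exact Subtype.coe_prop _
      · rw [← Submodule.projectionOnto_apply_eq_zero_iff hW.symm, map_sub,
          Submodule.projectionOnto_projection, sub_self]
    have hproj : Continuous P := LinearMap.continuous_of_finiteDimensional _
    have hproj0 : ∀ᶠ v : E in 𝓝 0, ‖P v‖ < ρ := by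
      have hc : Continuous (fun v : E => ‖P v‖) := by fun_prop
      exact (hc.continuousAt (x := (0:E))).eventually_lt_const
        (show ‖P 0‖ < ρ by rw [map_zero, norm_zero]; exact hρ0)
    obtain ⟨δ₁, hδ₁, hb₁⟩ := Metric.eventually_nhds_iff_ball.1 hproj0
    refine ⟨min δ₁ ρ, lt_min hδ₁ hρ0, ?_, {tcone h x} ∪ ⋃ w ∈ t, S w,
      (finite_singleton _).union (t.finite_toSet.biUnion fun w hw => hS w (htK w hw)), ?_⟩
    · refine (ball_subset_ball ?_).trans hb
      exact (min_le_right _ _).trans (by rw [hρ]; linarith)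
    intro y hy
    rw [mem_ball, dist_eq_norm] at hy
    set v := y - x with hv
    have hyv : x + v = y := by rw [hv]; abel
    set w : E := P v with hw
    have hwW : w ∈ W := hPW v
    have hu : v - w ∈ linSpace h x := hPV v
    have hwlt : ‖w‖ < ρ := hb₁ v (by
      rw [mem_ball_zero_iff]; exact hy.trans_le (min_le_left _ _))
    have hvr : ‖v‖ < r := by
      have := hy.trans_le (min_le_right _ _)
      rw [hρ] at this; linarith
    by_cases hw0 : w = 0
    · left
      rw [hw0, sub_zero] at hu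
      have := (hmem v hvr hu).1
      rw [hyv] at this
      exact this
    right
    have hwn : 0 < ‖w‖ := norm_pos_iff.2 hw0
    have hwr : ‖w‖ < r := by linarith
    have e1 : tcone h y = tcone h (x + w) := by
      have := tcone_near_translate hform hu (w := w) hwr (by
        rw [add_sub_cancel]; exact hvr) (Hnear w hwr) (by rw [add_sub_cancel]; exact Hnear v hvr)
      rw [add_sub_cancel, hyv] at this
      exact this
    set w' := (ρ / ‖w‖) • w with hw'
    have hw'K : w' ∈ K := by
      refine ⟨W.smul_mem _ hwW, ?_⟩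
      rw [hw', norm_smul, Real.norm_of_nonneg (by positivity), div_mul_cancel₀ _ hwn.ne']
    have hw'r : ‖w'‖ < r := by rw [hw'K.2, hρ]; linarith
    have hww' : w = (‖w‖ / ρ) • w' := by
      rw [hw', smul_smul, div_mul_div_comm, mul_comm ρ, div_self (by positivity), one_smul]
    have e2 : tcone h (x + w) = tcone h (x + w') := by
      have hmemIoc : ‖w‖ / ρ ∈ Ioc (0:ℝ) 1 := ⟨by positivity, by
        rw [div_le_one hρ0]; exact hwlt.le⟩
      have := tcone_near_scale Hx hform hw'r (Hnear _ hw'r) hmemIoc (by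
        rw [← hww']; exact Hnear _ hwr)
      rwa [← hww'] at this
    obtain ⟨w₀, hw₀t, hw₀⟩ := mem_iUnion₂.1 (ht hw'K)
    rw [e1, e2]
    refine mem_biUnion hw₀t (hS' w₀ (htK w₀ hw₀t) _ ?_)
    rw [mem_ball, dist_eq_norm] at hw₀ ⊢
    rwa [add_sub_add_left_eq_sub]

/-- near each point of `Ω` there are only finitely many tangent cone maps -/
theorem exists_finite_germs [FiniteDimensional ℝ E] (hΩ : IsOpen Ω) (H : ConicalOn h Ω) {x : E}
    (hx : x ∈ Ω) : ∃ δ > 0, ball x δ ⊆ Ω ∧ ∃ S : Set (E → F), S.Finite ∧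
        ∀ y ∈ ball x δ, tcone h y ∈ S :=
  exists_finite_germs_aux hΩ H (Module.finrank ℝ E) x hx (by omega)

/-- on a compact subset of `Ω` there are only finitely many tangent cone maps -/
theorem exists_finite_germs_compact [FiniteDimensional ℝ E] (hΩ : IsOpen Ω) (H : ConicalOn h Ω)
    {K : Set E} (hK : IsCompact K) (hKΩ : K ⊆ Ω) : (tcone h '' K).Finite := by
  have hloc : ∀ x ∈ K, ∃ δ > 0, ∃ S : Set (E → F), S.Finite ∧ ∀ y ∈ ball x δ, tcone h y ∈ S := by
    intro x hx
    obtain ⟨δ, hδ, -, S, hS, hS'⟩ := exists_finite_germs hΩ H (hKΩ hx)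
    exact ⟨δ, hδ, S, hS, hS'⟩
  choose! δ hδ S hS hS' using hloc
  obtain ⟨t, htK, ht⟩ := hK.elim_nhds_subcover (fun x => ball x (δ x))
    (fun x hx => ball_mem_nhds x (hδ x hx))
  refine (t.finite_toSet.biUnion fun x hx => hS x (htK x hx)).subset ?_
  rintro _ ⟨y, hy, rfl⟩
  obtain ⟨x, hxt, hx⟩ := mem_iUnion₂.1 (ht hy)
  exact mem_biUnion hxt (hS' x (htK x hxt) y hx)

end P073
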