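import Vale.Agent.P073.SM.Spec
import Vale.Agent.P073.SMV.Iso

/-!
# P073, SMA: planar path, linear algebra of the derivative, slow cut-off
-/

namespace P073.SM

open Set Metric Topology Filter
open scoped ContDiff

/-- A slow smooth cut-off. -/
theorem exists_slow {q : ℝ} (hq : 0 < q) : ∃ (θ : ℝ → ℝ) (a : ℝ), 0 < a ∧ a < 1 ∧
    ContDiff ℝ ∞ θ ∧ (∀ u ≤ a, θ u = 1) ∧ (∀ u, 1 ≤ u → θ u = 0) ∧ (∀ u, θ u ∈ Icc (0:ℝ) 1) ∧
    ∀ u, |u * deriv θ u| ≤ q := by
  obtain ⟨C, hC0, hC⟩ := Vale.Agent.P073.SMV.exists_bound_deriv_smoothTransition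
  set N : ℝ := C / q with hN
  have hN0 : 0 < N := div_pos hC0 hq
  set θ : ℝ → ℝ := fun u => if u ≤ 0 then 1 else Real.smoothTransition (-Real.log u / N) with hθ
  have hlow : ∀ u ≤ Real.exp (-N), θ u = 1 := by
    intro u hu
    by_cases h0 : u ≤ 0
    · simp only [hθ, h0, if_true]
    · push Not at h0
      simp only [hθ, h0.not_ge, if_false]
      apply Real.smoothTransition.one_of_one_le
      rw [le_div_iff₀ hN0, one_mul, le_neg]
      calc Real.log u ≤ Real.log (Real.exp (-N)) := Real.log_le_log h0 hu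
        _ = -N := Real.log_exp _
  have hpos : ∀ u, 0 < u → θ =ᶠ[𝓝 u] fun u => Real.smoothTransition (-Real.log u / N) := by
    intro u hu
    filter_upwards [lt_mem_nhds hu] with v hv
    simp only [hθ, (not_le.2 hv), if_false]
  have hone : ∀ u, 1 ≤ u → θ u = 0 := by
    intro u hu
    have h0 : ¬ u ≤ 0 := by linarith
    simp only [hθ, h0, if_false]
    apply Real.smoothTransition.zero_of_nonpos
    apply div_nonpos_of_nonpos_of_nonneg _ hN0.le
    have := Real.log_nonneg hu
    linarith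
  have hlown : ∀ u, u < Real.exp (-N) → θ =ᶠ[𝓝 u] fun _ => 1 := by
    intro u hu
    filter_upwards [gt_mem_nhds hu] with v hv
    exact hlow v hv.le
  refine ⟨θ, Real.exp (-N), Real.exp_pos _, ?_, ?_, hlow, hone, ?_, ?_⟩
  · rw [Real.exp_lt_one_iff]; linarith
  · rw [contDiff_iff_contDiffAt]
    intro u
    rcases lt_or_ge u (Real.exp (-N)) with h | h
    · exact contDiffAt_const.congr_of_eventuallyEq (hlown u h)
    · have hu0 : 0 < u := (Real.exp_pos _).trans_le h
      refine ContDiffAt.congr_of_eventuallyEq ?_ (hpos u hu0)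
      have h1 : ContDiffAt ℝ ∞ (fun u => -Real.log u / N) u :=
        ((Real.contDiffAt_log.2 hu0.ne').neg).div_const N
      exact (Real.smoothTransition.contDiff (n := ⊤)).contDiffAt.comp u h1
  · intro u
    by_cases h0 : u ≤ 0
    · simp only [hθ, h0, if_true]; exact ⟨zero_le_one, le_refl _⟩
    · simp only [hθ, h0, if_false]
      exact ⟨Real.smoothTransition.nonneg _, Real.smoothTransition.le_one _⟩
  · intro u
    rcases lt_or_ge u (Real.exp (-N)) with h | h
    · rw [(hlown u h).deriv_eq, deriv_const, mul_zero, abs_zero]; exact hq.le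
    · have hu0 : 0 < u := (Real.exp_pos _).trans_le h
      rw [(hpos u hu0).deriv_eq]
      have h1 : HasDerivAt (fun u => -Real.log u / N) (-u⁻¹ / N) u :=
        ((Real.hasDerivAt_log hu0.ne').neg).div_const N
      have h2 : HasDerivAt (fun u => Real.smoothTransition (-Real.log u / N))
          (deriv Real.smoothTransition (-Real.log u / N) * (-u⁻¹ / N)) u := by
        have h3 : HasDerivAt Real.smoothTransition
            (deriv Real.smoothTransition (-Real.log u / N)) (-Real.log u / N) :=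
          ((Real.smoothTransition.contDiffAt (n := 1)).differentiableAt (by simp)).hasDerivAt
        exact h3.comp u h1
      rw [h2.deriv]
      have h4 : u * (deriv Real.smoothTransition (-Real.log u / N) * (-u⁻¹ / N)) =
          -(deriv Real.smoothTransition (-Real.log u / N) / N) := by
        field_simp
      rw [h4, abs_neg, abs_div, abs_of_pos hN0, div_le_iff₀ hN0, hN]
      have := hC (-Real.log u / N)
      calc |deriv Real.smoothTransition (-Real.log u / N)| ≤ C := this
        _ = q * (C / q) := by field_simp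

/-- the constant in the linear algebra lemma -/
noncomputable def cst (m B : ℝ) : ℝ := (B + B ^ 2 / m) + B * (1 + B / m + B + B ^ 2 / m)

/-- **Linear algebra of the derivative of the slow path.** -/
theorem inj_slow {m B : ℝ} (hm : 0 < m) (hm1 : m ≤ 1) (hB : 0 ≤ B) {z0 lam d : ℂ} {t f0 q : ℝ}
    (hz : z0 ≠ 0) (ht : t ∈ Icc (0:ℝ) 1) {D : ℂ →L[ℝ] ℂ} (hD0 : D z0 = 0)
    (hDI : D (Complex.I * z0) = d) (hd1 : m ≤ 1 + d.im) (hd2 : ‖d‖ ≤ B) (hlam : ‖lam‖ ≤ B)
    {α : ℂ →L[ℝ] ℝ} (hα : ∀ v, |α v| ≤ B * ‖v‖) (hf0 : |f0| ≤ B * ‖z0‖)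
    {dt : ℂ × ℝ →L[ℝ] ℝ} (hq0 : 0 ≤ q)
    (hdt : ∀ v y, |dt (v, y)| ≤ q * (|(v / z0).re| + |y| / ‖z0‖))
    (hq : q * cst m B < 1) {v : ℂ} {y : ℝ}
    (h1 : v + z0 * ((1 - t) * D v - lam * dt (v, y)) = 0)
    (h2 : y + (1 - t) * α v - f0 * dt (v, y) = 0) : v = 0 ∧ y = 0 := by
  have hz0 : 0 < ‖z0‖ := norm_pos_iff.2 hz
  set τ := dt (v, y) with hτ
  set u : ℝ := (v / z0).re with hu
  set w : ℝ := (v / z0).im with hw
  have hv : v = z0 * (u + w * Complex.I) := by
    have : (u + w * Complex.I : ℂ) = v / z0 := by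
      apply Complex.ext <;> simp [hu, hw]
    rw [this]; field_simp
  have hDv : D v = w * d := by
    have : v = u • z0 + w • (Complex.I * z0) := by
      rw [hv]; simp only [Complex.real_smul]; ring
    rw [this, map_add, map_smul, map_smul, hD0, hDI, smul_zero, zero_add, Complex.real_smul]
  have e1 : (u + w * Complex.I : ℂ) + ((1 - t) * (w * d) - lam * τ) = 0 := by
    have : v + z0 * ((1 - t) * D v - lam * τ) =
        z0 * ((u + w * Complex.I : ℂ) + ((1 - t) * (w * d) - lam * τ)) := by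
      rw [hDv]; conv_lhs => rw [hv]
      ring
    rw [this] at h1
    exact (mul_eq_zero.1 h1).resolve_left hz
  have er : u + (1 - t) * (w * d.re) - lam.re * τ = 0 := by
    have := congrArg Complex.re e1
    simp at this
    linarith
  have ei : w * (1 + (1 - t) * d.im) - lam.im * τ = 0 := by
    have := congrArg Complex.im e1
    simp at this
    linarith
  have hlr : |lam.re| ≤ B := (Complex.abs_re_le_norm _).trans hlam
  have hli : |lam.im| ≤ B := (Complex.abs_im_le_norm _).trans hlam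
  have hdr : |d.re| ≤ B := (Complex.abs_re_le_norm _).trans hd2
  have hpos : m ≤ 1 + (1 - t) * d.im := by
    have : 1 + (1 - t) * d.im = t + (1 - t) * (1 + d.im) := by ring
    rw [this]
    nlinarith [mul_nonneg (sub_nonneg.2 ht.2) (sub_nonneg.2 hd1), mul_nonneg ht.1 (sub_nonneg.2 hm1)]
  have hwb : |w| ≤ B / m * |τ| := by
    have h3 : |w| * (1 + (1 - t) * d.im) = |lam.im * τ| := by
      rw [← abs_of_pos (hm.trans_le hpos), ← abs_mul]
      congr 1; linarith
    have h4 : |w| * m ≤ B * |τ| := by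
      calc |w| * m ≤ |w| * (1 + (1 - t) * d.im) := by gcongr
        _ = |lam.im| * |τ| := by rw [h3, abs_mul]
        _ ≤ B * |τ| := by gcongr
    rw [div_mul_eq_mul_div, le_div_iff₀ hm]
    exact h4
  have hub : |u| ≤ (B + B ^ 2 / m) * |τ| := by
    have h3 : u = lam.re * τ - (1 - t) * (w * d.re) := by linarith
    rw [h3]
    calc |lam.re * τ - (1 - t) * (w * d.re)| ≤ |lam.re * τ| + |(1 - t) * (w * d.re)| := abs_sub _ _
      _ = |lam.re| * |τ| + |1 - t| * (|w| * |d.re|) := by rw [abs_mul, abs_mul, abs_mul]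
      _ ≤ B * |τ| + 1 * ((B / m * |τ|) * B) := by
          gcongr
          rw [abs_of_nonneg (sub_nonneg.2 ht.2)]; linarith [ht.1]
      _ = _ := by ring
  have hvn : ‖v‖ ≤ ‖z0‖ * (|u| + |w|) := by
    rw [hv, norm_mul]
    gcongr
    calc ‖(u + w * Complex.I : ℂ)‖ ≤ ‖(u : ℂ)‖ + ‖(w * Complex.I : ℂ)‖ := norm_add_le _ _
      _ = |u| + |w| := by simp
  have hyb : |y| / ‖z0‖ ≤ B * (1 + B / m + B + B ^ 2 / m) * |τ| := by
    rw [div_le_iff₀ hz0]
    have h3 : y = f0 * τ - (1 - t) * α v := by linarith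
    rw [h3]
    calc |f0 * τ - (1 - t) * α v| ≤ |f0 * τ| + |(1 - t) * α v| := abs_sub _ _
      _ = |f0| * |τ| + |1 - t| * |α v| := by rw [abs_mul, abs_mul]
      _ ≤ (B * ‖z0‖) * |τ| + 1 * (B * (‖z0‖ * (|u| + |w|))) := by
          gcongr
          · rw [abs_of_nonneg (sub_nonneg.2 ht.2)]; linarith [ht.1]
          · exact (hα v).trans (by gcongr)
      _ ≤ (B * ‖z0‖) * |τ| + 1 * (B * (‖z0‖ * ((B + B ^ 2 / m) * |τ| + B / m * |τ|))) := by
          gcongr
      _ = _ := by ring
  have hτb : |τ| ≤ q * cst m B * |τ| := by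
    calc |τ| ≤ q * (|u| + |y| / ‖z0‖) := hdt v y
      _ ≤ q * ((B + B ^ 2 / m) * |τ| + B * (1 + B / m + B + B ^ 2 / m) * |τ|) := by gcongr
      _ = _ := by unfold cst; ring
  have hτ0 : |τ| = 0 := by
    by_contra hne
    have : 0 < |τ| := lt_of_le_of_ne (abs_nonneg _) (Ne.symm hne)
    nlinarith
  have hw0 : w = 0 := by
    rw [hτ0, mul_zero] at hwb
    exact abs_eq_zero.1 (le_antisymm hwb (abs_nonneg _))
  have hu0 : u = 0 := by
    rw [hτ0, mul_zero] at hub
    exact abs_eq_zero.1 (le_antisymm hub (abs_nonneg _))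
  constructor
  · rw [hv, hu0, hw0]; simp
  · rw [hτ0, mul_zero] at hyb
    have h5 : |y| / ‖z0‖ = 0 := le_antisymm hyb (by positivity)
    rcases div_eq_zero_iff.1 h5 with h6 | h6
    · exact abs_eq_zero.1 h6
    · exact absurd h6 hz0.ne'

end P073.SM
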