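import Vale.Agent.P073.SM.PLa

/-!
# P073, SMA: local form of the logarithmic displacement of a planar form
-/

namespace P073.SM

open Set Metric Topology Filter
open scoped ContDiff

/-- the logarithmic displacement -/
noncomputable def lg (F : ℂ → ℂ) (z : ℂ) : ℂ := Complex.log (F z) - Complex.log z

/-- constants of the pieces -/
noncomputable def m1 (m B : ℝ) : ℝ := min 1 (m / B ^ 2)

/-- constants of the pieces -/
noncomputable def B1 (m B : ℝ) : ℝ := B / m + 1 + |Real.log m| + |Real.log B| + 2 * Real.pi + B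

/-- bounds for a smooth piece `(Λ, α)` at `z0` -/
structure PieceData (m B : ℝ) (z0 : ℂ) (Λ : ℂ → ℂ) (α : ℂ →L[ℝ] ℝ) : Prop where
  smooth : ContDiffAt ℝ ∞ Λ z0
  rad : fderiv ℝ Λ z0 z0 = 0
  ang : m ≤ 1 + (fderiv ℝ Λ z0 (Complex.I * z0)).im
  angb : ‖fderiv ℝ Λ z0 (Complex.I * z0)‖ ≤ B
  val : ‖Λ z0‖ ≤ B
  lin : ∀ v, |α v| ≤ B * ‖v‖

variable {F : ℂ → ℂ} {f : ℂ → ℝ} {m B : ℝ}

namespace Planar

theorem le_B (h : Planar F f m B) : m ≤ B := by
  have h1 := (h.lower 1).trans (h.upper 1)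
  simpa using h1

theorem B_pos (h : Planar F f m B) : 0 < B := h.m_pos.trans_le h.le_B

theorem zero (h : Planar F f m B) : F 0 = 0 := by
  have := h.hom 0 le_rfl 0
  simpa using this

theorem zerof (h : Planar F f m B) : f 0 = 0 := by
  have := h.homf 0 le_rfl 0
  simpa using this

theorem ne_zero (h : Planar F f m B) {z : ℂ} (hz : z ≠ 0) : F z ≠ 0 := by
  intro h0
  exact hz (h.inj (h0.trans h.zero.symm))

theorem m1_pos (h : Planar F f m B) : 0 < m1 m B :=
  lt_min one_pos (div_pos h.m_pos (pow_pos h.B_pos 2))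

theorem B1_nonneg (h : Planar F f m B) : 0 ≤ B1 m B := by
  have h1 := h.m_pos
  have h2 := h.B_pos
  have h3 := Real.pi_pos
  unfold B1
  positivity

/-- on the negative real axis `F` is the identity -/
theorem neg_near (h : Planar F f m B) {z : ℂ} (hz : z.re < 0) (hi : z.im = 0) :
    ∀ᶠ w in 𝓝 z, F w = w ∧ f w = 0 := by
  obtain ⟨c, hc, hneg⟩ := h.neg
  have h1 : ∀ᶠ w : ℂ in 𝓝 z, w.re < 0 := Complex.continuous_re.continuousAt.eventually_lt_const hz
  have h2 : ∀ᶠ w : ℂ in 𝓝 z, |w.im| < c * |w.re| := by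
    have hc1 : Continuous (fun w : ℂ => |w.im|) := Complex.continuous_im.abs
    have hc2 : Continuous (fun w : ℂ => c * |w.re|) := continuous_const.mul Complex.continuous_re.abs
    apply ContinuousAt.eventually_lt hc1.continuousAt hc2.continuousAt
    rw [hi, abs_zero]
    exact mul_pos hc (abs_pos.2 hz.ne)
  filter_upwards [h1, h2] with w hw1 hw2
  exact hneg w hw1 hw2.le

theorem mem_slitPlane (h : Planar F f m B) {z : ℂ} (hz : z ∈ Complex.slitPlane) :
    F z ∈ Complex.slitPlane := by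
  by_contra hF
  have hz0 : z ≠ 0 := Complex.slitPlane_ne_zero hz
  rw [Complex.mem_slitPlane_iff, not_or, not_lt, not_not] at hF
  have hre : (F z).re < 0 := by
    rcases hF.1.lt_or_eq with h1 | h1
    · exact h1
    · exfalso; apply h.ne_zero hz0
      apply Complex.ext
      · simpa using h1
      · simpa using hF.2
  have h1 : F (F z) = F z := (h.neg_near hre hF.2).self_of_nhds.1
  have h2 : F z = z := h.inj h1
  rw [h2] at hre hF
  rw [Complex.mem_slitPlane_iff] at hz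
  rcases hz with h3 | h3
  · linarith
  · exact h3 hF.2

theorem norm_lg_le (h : Planar F f m B) (z : ℂ) :
    ‖lg F z‖ ≤ |Real.log m| + |Real.log B| + 2 * Real.pi := by
  have hm := h.m_pos
  have hB := h.B_pos
  have hpi := Real.pi_pos
  by_cases hz : z = 0
  · rw [lg, hz, h.zero, sub_self, norm_zero]; positivity
  have hz0 : 0 < ‖z‖ := norm_pos_iff.2 hz
  have hF0 : 0 < ‖F z‖ := norm_pos_iff.2 (h.ne_zero hz)
  have hre : |(lg F z).re| ≤ |Real.log m| + |Real.log B| := by
    have h1 : (lg F z).re = Real.log (‖F z‖ / ‖z‖) := by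
      rw [lg, Complex.sub_re, Complex.log_re, Complex.log_re, Real.log_div hF0.ne' hz0.ne']
    have h2 : m ≤ ‖F z‖ / ‖z‖ := by rw [le_div_iff₀ hz0]; exact h.lower z
    have h3 : ‖F z‖ / ‖z‖ ≤ B := by rw [div_le_iff₀ hz0]; exact h.upper z
    have h4 := Real.log_le_log hm h2
    have h5 := Real.log_le_log (hm.trans_le h2) h3
    rw [h1, abs_le]
    constructor
    · have := neg_abs_le (Real.log m)
      have := abs_nonneg (Real.log B)
      linarith
    · have := le_abs_self (Real.log B)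
      have := abs_nonneg (Real.log m)
      linarith
  have him : |(lg F z).im| ≤ 2 * Real.pi := by
    rw [lg, Complex.sub_im, Complex.log_im, Complex.log_im]
    have h1 := Complex.neg_pi_lt_arg (F z)
    have h2 := Complex.arg_le_pi (F z)
    have h3 := Complex.neg_pi_lt_arg z
    have h4 := Complex.arg_le_pi z
    rw [abs_le]; constructor <;> linarith
  calc ‖lg F z‖ ≤ |(lg F z).re| + |(lg F z).im| := Complex.norm_le_abs_re_add_abs_im _
    _ ≤ _ := by linarith

/-- derivative of the logarithmic displacement of a linear map -/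
theorem hasFDerivAt_log_sub {A : ℂ →L[ℝ] ℂ} {z0 : ℂ} (h1 : A z0 ∈ Complex.slitPlane)
    (h2 : z0 ∈ Complex.slitPlane) :
    HasFDerivAt (fun w => Complex.log (A w) - Complex.log w)
      ((A z0)⁻¹ • A - z0⁻¹ • ContinuousLinearMap.id ℝ ℂ) z0 := by
  have e1 : HasFDerivAt (fun w => Complex.log (A w)) ((A z0)⁻¹ • A) z0 := by
    have h3 := (Complex.hasStrictDerivAt_log h1).hasDerivAt.complexToReal_fderiv
    have h4 := h3.comp z0 (A.hasFDerivAt (x := z0))
    refine h4.congr_fderiv ?_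
    ext v
    simp
  have e2 : HasFDerivAt (fun w : ℂ => Complex.log w) (z0⁻¹ • ContinuousLinearMap.id ℝ ℂ) z0 := by
    have h3 := (Complex.hasStrictDerivAt_log h2).hasDerivAt.complexToReal_fderiv
    refine h3.congr_fderiv ?_
    ext v
    simp
  exact e1.sub e2

theorem contDiffAt_log_sub {A : ℂ →L[ℝ] ℂ} {z0 : ℂ} (h1 : A z0 ∈ Complex.slitPlane)
    (h2 : z0 ∈ Complex.slitPlane) :
    ContDiffAt ℝ ∞ (fun w => Complex.log (A w) - Complex.log w) z0 := by
  have l1 : ContDiffAt ℝ ∞ Complex.log (A z0) :=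
    (Complex.contDiffAt_log (n := ∞) h1).restrict_scalars ℝ
  have l2 : ContDiffAt ℝ ∞ Complex.log z0 :=
    (Complex.contDiffAt_log (n := ∞) h2).restrict_scalars ℝ
  exact (l1.comp z0 A.contDiff.contDiffAt).sub l2

/-- the piece belonging to a linear map -/
theorem pieceData_linear (h : Planar F f m B) {z0 : ℂ} (hz : z0 ∈ Complex.slitPlane)
    {A : ℂ →L[ℝ] ℂ} {α : ℂ →L[ℝ] ℝ} (hA : A z0 = F z0) (hAB : ‖A‖ ≤ B) (hαB : ‖α‖ ≤ B)
    (hor : m * ‖z0‖ ^ 2 ≤ (A (Complex.I * z0) * (starRingEnd ℂ) (A z0)).im) :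
    PieceData (m1 m B) (B1 m B) z0 (fun w => Complex.log (A w) - Complex.log w) α := by
  have hz0 : z0 ≠ 0 := Complex.slitPlane_ne_zero hz
  have hzn : 0 < ‖z0‖ := norm_pos_iff.2 hz0
  have hAs : A z0 ∈ Complex.slitPlane := by rw [hA]; exact h.mem_slitPlane hz
  have hA0 : A z0 ≠ 0 := Complex.slitPlane_ne_zero hAs
  have hd := (hasFDerivAt_log_sub hAs hz).fderiv
  have hm := h.m_pos
  have hB := h.B_pos
  have hpi := Real.pi_pos
  have hI : fderiv ℝ (fun w => Complex.log (A w) - Complex.log w) z0 (Complex.I * z0) =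
      A (Complex.I * z0) / A z0 - Complex.I := by
    rw [hd]
    simp only [sub_apply, smul_apply, smul_eq_mul,
      ContinuousLinearMap.id_apply]
    field_simp
  have him : (A (Complex.I * z0) / A z0).im =
      (A (Complex.I * z0) * (starRingEnd ℂ) (A z0)).im / ‖A z0‖ ^ 2 := by
    rw [div_eq_mul_inv, Complex.inv_def, ← mul_assoc, Complex.mul_im, Complex.ofReal_re,
      Complex.ofReal_im, Complex.normSq_eq_norm_sq]
    ring
  have hAz : ‖A z0‖ ≤ B * ‖z0‖ := by rw [hA]; exact h.upper z0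
  have hAz' : m * ‖z0‖ ≤ ‖A z0‖ := by rw [hA]; exact h.lower z0
  have hAzp : 0 < ‖A z0‖ := norm_pos_iff.2 hA0
  have hAI : ‖A (Complex.I * z0) / A z0‖ ≤ B / m := by
    rw [norm_div, div_le_div_iff₀ hAzp hm]
    have h3 : ‖A (Complex.I * z0)‖ ≤ B * ‖z0‖ := by
      calc ‖A (Complex.I * z0)‖ ≤ ‖A‖ * ‖Complex.I * z0‖ := A.le_opNorm _
        _ ≤ B * ‖z0‖ := by rw [norm_mul, Complex.norm_I, one_mul]; gcongr
    calc ‖A (Complex.I * z0)‖ * m ≤ B * ‖z0‖ * m := by gcongr
      _ = B * (m * ‖z0‖) := by ring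
      _ ≤ B * ‖A z0‖ := by gcongr
  have hval : ‖Complex.log (A z0) - Complex.log z0‖ ≤
      |Real.log m| + |Real.log B| + 2 * Real.pi := by
    have := h.norm_lg_le z0
    rwa [lg, ← hA] at this
  refine ⟨contDiffAt_log_sub hAs hz, ?_, ?_, ?_, ?_, ?_⟩
  · rw [hd]
    simp only [sub_apply, smul_apply, smul_eq_mul,
      ContinuousLinearMap.id_apply]
    rw [inv_mul_cancel₀ hA0, inv_mul_cancel₀ hz0, sub_self]
  · rw [hI, Complex.sub_im, Complex.I_im, him]
    have h3 : m / B ^ 2 ≤ (A (Complex.I * z0) * (starRingEnd ℂ) (A z0)).im / ‖A z0‖ ^ 2 := by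
      rw [div_le_div_iff₀ (by positivity) (by positivity)]
      calc m * ‖A z0‖ ^ 2 ≤ m * (B * ‖z0‖) ^ 2 := by gcongr
        _ = (m * ‖z0‖ ^ 2) * B ^ 2 := by ring
        _ ≤ _ := by gcongr
    have h4 : m1 m B ≤ m / B ^ 2 := min_le_right _ _
    linarith
  · rw [hI]
    calc ‖A (Complex.I * z0) / A z0 - Complex.I‖ ≤ ‖A (Complex.I * z0) / A z0‖ + ‖Complex.I‖ :=
          norm_sub_le _ _
      _ ≤ B / m + 1 := by rw [Complex.norm_I]; linarith
      _ ≤ B1 m B := by
          unfold B1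
          have := abs_nonneg (Real.log m)
          have := abs_nonneg (Real.log B)
          linarith
  · refine hval.trans ?_
    unfold B1
    have : 0 < B / m := by positivity
    linarith
  · intro v
    calc |α v| = ‖α v‖ := (Real.norm_eq_abs _).symm
      _ ≤ ‖α‖ * ‖v‖ := α.le_opNorm v
      _ ≤ B1 m B * ‖v‖ := by
          gcongr
          refine hαB.trans ?_
          unfold B1
          have : 0 < B / m := by positivity
          have := abs_nonneg (Real.log m)
          have := abs_nonneg (Real.log B)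
          linarith

theorem pieceData_zero (h : Planar F f m B) (z0 : ℂ) :
    PieceData (m1 m B) (B1 m B) z0 (fun _ => 0) 0 := by
  have h1 := h.B1_nonneg
  refine ⟨contDiffAt_const, by simp, ?_, by simpa using h1, by simpa using h1, fun v => ?_⟩
  · simp only [fderiv_fun_const, Pi.zero_apply, zero_apply, Complex.zero_im,
      add_zero]
    exact min_le_left _ _
  · simp only [zero_apply, abs_zero]; positivity

/-- **Local form** of the logarithmic displacement. -/
theorem exists_pieces (h : Planar F f m B) {z0 : ℂ} (hz : z0 ≠ 0) :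
    ∃ (Λ Λ' : ℂ → ℂ) (α α' : ℂ →L[ℝ] ℝ) (ℓ : ℂ →L[ℝ] ℝ), ℓ z0 = 0 ∧
      PieceData (m1 m B) (B1 m B) z0 Λ α ∧ PieceData (m1 m B) (B1 m B) z0 Λ' α' ∧
      ∀ᶠ w in 𝓝 z0, (0 ≤ ℓ w → lg F w = Λ w ∧ f w = α w) ∧
        (ℓ w ≤ 0 → lg F w = Λ' w ∧ f w = α' w) := by
  by_cases hs : z0 ∈ Complex.slitPlane
  · obtain ⟨A, A', α, α', ℓ, hℓ, hev, hA, hA', hα, hα', ho, ho'⟩ := h.crease z0 hz
    have hself := hev.self_of_nhds
    have e1 : A z0 = F z0 := (hself.1 hℓ.ge).1.symm
    have e2 : A' z0 = F z0 := (hself.2 hℓ.le).1.symm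
    refine ⟨_, _, α, α', ℓ, hℓ, h.pieceData_linear hs e1 hA hα ho,
      h.pieceData_linear hs e2 hA' hα' ho', ?_⟩
    filter_upwards [hev] with w hw
    refine ⟨fun h1 => ?_, fun h1 => ?_⟩
    · obtain ⟨h2, h3⟩ := hw.1 h1
      exact ⟨by rw [lg, h2], h3⟩
    · obtain ⟨h2, h3⟩ := hw.2 h1
      exact ⟨by rw [lg, h2], h3⟩
  · have h1 : z0.re < 0 ∧ z0.im = 0 := by
      rw [Complex.mem_slitPlane_iff, not_or, not_lt, not_not] at hs
      refine ⟨lt_of_le_of_ne hs.1 fun h0 => hz ?_, hs.2⟩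
      exact Complex.ext h0 hs.2
    refine ⟨fun _ => 0, fun _ => 0, 0, 0, 0, rfl, h.pieceData_zero z0, h.pieceData_zero z0, ?_⟩
    filter_upwards [h.neg_near h1.1 h1.2] with w hw
    have h2 : lg F w = 0 := by rw [lg, hw.1, sub_self]
    exact ⟨fun _ => ⟨h2, by rw [hw.2]; rfl⟩, fun _ => ⟨h2, by rw [hw.2]; rfl⟩⟩

end Planar

end P073.SM
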