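import Vale.Agent.P073.SM.PLb

/-!
# P073, SMA: the slow path of a planar form, local pieces
-/

namespace P073.SM

open Set Metric Topology Filter
open scoped ContDiff

/-- the parameter of the slow path -/
noncomputable def tpar (θ k : ℝ → ℝ) (p : ℂ × ℝ) : ℝ := θ (Complex.normSq p.1 / k p.2 ^ 2)

/-- the slow path -/
noncomputable def pm (θ k : ℝ → ℝ) (Λ : ℂ → ℂ) (φ : ℂ → ℝ) (p : ℂ × ℝ) : ℂ × ℝ :=
  (p.1 * Complex.exp (((1 - tpar θ k p : ℝ) : ℂ) * Λ p.1), p.2 + (1 - tpar θ k p) * φ p.1)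

/-- derivative of the parameter -/
theorem hasFDerivAt_tpar {θ k : ℝ → ℝ} {z0 : ℂ} {x0 k' q : ℝ} (hz : z0 ≠ 0)
    (hθ : ContDiff ℝ ∞ θ) (hθ1 : ∀ u, 1 ≤ u → θ u = 0) (hq : ∀ u, |u * deriv θ u| ≤ q)
    (hk : HasDerivAt k k' x0) (hk0 : 0 < k x0) (hk1 : |k'| ≤ 1) :
    ∃ dt : ℂ × ℝ →L[ℝ] ℝ, HasFDerivAt (tpar θ k) dt (z0, x0) ∧
      ∀ v y, |dt (v, y)| ≤ 2 * q * (|(v / z0).re| + |y| / ‖z0‖) := by
  have hq0 : 0 ≤ q := (abs_nonneg _).trans (hq 0)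
  have hzn : 0 < ‖z0‖ := norm_pos_iff.2 hz
  have hn : 0 < Complex.normSq z0 := Complex.normSq_pos.2 hz
  set u0 : ℝ := Complex.normSq z0 / k x0 ^ 2 with hu0
  have h1 : HasFDerivAt (fun p : ℂ × ℝ => Complex.normSq p.1)
      ((2 * z0.re) • (Complex.reCLM.comp (ContinuousLinearMap.fst ℝ ℂ ℝ)) +
        (2 * z0.im) • (Complex.imCLM.comp (ContinuousLinearMap.fst ℝ ℂ ℝ))) (z0, x0) := by
    have e1 : HasFDerivAt (fun p : ℂ × ℝ => p.1.re)
        (Complex.reCLM.comp (ContinuousLinearMap.fst ℝ ℂ ℝ)) (z0, x0) :=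
      (Complex.reCLM.comp (ContinuousLinearMap.fst ℝ ℂ ℝ)).hasFDerivAt
    have e2 : HasFDerivAt (fun p : ℂ × ℝ => p.1.im)
        (Complex.imCLM.comp (ContinuousLinearMap.fst ℝ ℂ ℝ)) (z0, x0) :=
      (Complex.imCLM.comp (ContinuousLinearMap.fst ℝ ℂ ℝ)).hasFDerivAt
    have e3 := (e1.mul e1).add (e2.mul e2)
    have e4 : (fun p : ℂ × ℝ => Complex.normSq p.1) =
        fun p : ℂ × ℝ => p.1.re * p.1.re + p.1.im * p.1.im := by
      funext p; rw [Complex.normSq_apply]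
    rw [e4]
    refine e3.congr_fderiv ?_
    ext v
    · simp; ring
    · simp
  have h2 : HasFDerivAt (fun p : ℂ × ℝ => (k p.2 ^ 2)⁻¹)
      ((-(2 * k x0 * k') / (k x0 ^ 2) ^ 2) • ContinuousLinearMap.snd ℝ ℂ ℝ) (z0, x0) := by
    have e1 : HasDerivAt (fun x => (k x ^ 2)⁻¹) (-(2 * k x0 * k') / (k x0 ^ 2) ^ 2) x0 := by
      have := (hk.pow 2).inv (pow_pos hk0 2).ne'
      refine this.congr_deriv ?_
      simp
    have e2 := e1.hasFDerivAt.comp (z0, x0) (ContinuousLinearMap.snd ℝ ℂ ℝ).hasFDerivAt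
    refine e2.congr_fderiv ?_
    ext v
    · simp
    · simp
  have h3 := h1.mul h2
  have hθd : HasDerivAt θ (deriv θ u0) u0 :=
    ((hθ.contDiffAt (x := u0)).differentiableAt (by simp)).hasDerivAt
  have hu0' : Complex.normSq (z0, x0).1 * (k (z0, x0).2 ^ 2)⁻¹ = u0 := by
    rw [hu0, div_eq_mul_inv]
  have h4 : HasFDerivAt (fun p : ℂ × ℝ => θ (Complex.normSq p.1 * (k p.2 ^ 2)⁻¹)) _ (z0, x0) :=
    HasDerivAt.comp_hasFDerivAt (z0, x0) (hu0' ▸ hθd) h3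
  refine ⟨_, (h4.congr_of_eventuallyEq (Eventually.of_forall fun p => ?_)), fun v y => ?_⟩
  · simp only [tpar, div_eq_mul_inv]
  · have key : ∀ a : ℝ, a = deriv θ u0 * ((Complex.normSq z0 * (-(2 * k x0 * k') / (k x0 ^ 2) ^ 2 * y))
        + (k x0 ^ 2)⁻¹ * (2 * z0.re * v.re + 2 * z0.im * v.im)) →
        |a| ≤ 2 * q * (|(v / z0).re| + |y| / ‖z0‖) := by
      intro a ha
      have e1 : (v / z0).re = (z0.re * v.re + z0.im * v.im) / Complex.normSq z0 := by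
        rw [Complex.div_re]; field_simp
      have e2 : a = (u0 * deriv θ u0) * (2 * (v / z0).re - 2 * k' * y / k x0) := by
        rw [ha, e1, hu0]; field_simp; ring
      rw [e2, abs_mul]
      by_cases hle : u0 ≤ 1
      · have h5 : ‖z0‖ ≤ k x0 := by
          rw [hu0, div_le_one (by positivity), Complex.normSq_eq_norm_sq] at hle
          exact (sq_le_sq₀ hzn.le hk0.le).1 hle
        have h6 : |2 * (v / z0).re - 2 * k' * y / k x0| ≤ 2 * (|(v / z0).re| + |y| / ‖z0‖) := by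
          calc |2 * (v / z0).re - 2 * k' * y / k x0|
              ≤ |2 * (v / z0).re| + |2 * k' * y / k x0| := abs_sub _ _
            _ = 2 * |(v / z0).re| + 2 * |k'| * (|y| / k x0) := by
                rw [abs_mul, abs_div, abs_mul, abs_mul, abs_of_pos hk0, abs_two]; ring
            _ ≤ 2 * |(v / z0).re| + 2 * 1 * (|y| / ‖z0‖) := by gcongr
            _ = _ := by ring
        calc |u0 * deriv θ u0| * |2 * (v / z0).re - 2 * k' * y / k x0|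
            ≤ q * (2 * (|(v / z0).re| + |y| / ‖z0‖)) := by
              gcongr; exact hq u0
          _ = _ := by ring
      · push Not at hle
        have h5 : deriv θ u0 = 0 := by
          have : θ =ᶠ[𝓝 u0] fun _ => 0 := by
            filter_upwards [lt_mem_nhds hle] with w hw
            exact hθ1 w hw.le
          rw [this.deriv_eq, deriv_const]
        rw [h5, mul_zero, abs_zero, zero_mul]
        positivity
    apply key
    simp only [hu0, div_eq_mul_inv]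
    simp
    ring

/-- derivative of a piece -/
theorem hasFDerivAt_pm {θ k : ℝ → ℝ} {z0 : ℂ} {x0 : ℝ} {dt : ℂ × ℝ →L[ℝ] ℝ}
    (hdt : HasFDerivAt (tpar θ k) dt (z0, x0)) {Λ : ℂ → ℂ} {Λ' : ℂ →L[ℝ] ℂ}
    (hΛ : HasFDerivAt Λ Λ' z0) (α : ℂ →L[ℝ] ℝ) :
    ∃ D : ℂ × ℝ →L[ℝ] ℂ × ℝ, HasFDerivAt (pm θ k Λ α) D (z0, x0) ∧
      ∀ v y, D (v, y) =
        (Complex.exp (((1 - tpar θ k (z0, x0) : ℝ) : ℂ) * Λ z0) *
          (v + z0 * (((1 - tpar θ k (z0, x0) : ℝ) : ℂ) * Λ' v - Λ z0 * dt (v, y))),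
        y + (1 - tpar θ k (z0, x0)) * α v - α z0 * dt (v, y)) := by
  set t0 := tpar θ k (z0, x0) with ht0
  have e1 : HasFDerivAt (fun p : ℂ × ℝ => Λ p.1) (Λ'.comp (ContinuousLinearMap.fst ℝ ℂ ℝ))
      (z0, x0) := by
    have := HasFDerivAt.comp (z0, x0) (f := fun p : ℂ × ℝ => p.1) (g := Λ) hΛ
      (ContinuousLinearMap.fst ℝ ℂ ℝ).hasFDerivAt
    exact this
  have e2 : HasFDerivAt (fun p : ℂ × ℝ => ((1 - tpar θ k p : ℝ) : ℂ))
      (Complex.ofRealCLM.comp (-dt)) (z0, x0) := by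
    have h1 : HasFDerivAt (fun p : ℂ × ℝ => (1 - tpar θ k p : ℝ)) (-dt) (z0, x0) := by
      have := hdt.const_sub 1
      exact this
    have := HasFDerivAt.comp (z0, x0) (g := fun r : ℝ => (r : ℂ))
      (Complex.ofRealCLM.hasFDerivAt) h1
    exact this
  have e3 := (e2.mul e1).cexp
  have e4 : HasFDerivAt (fun p : ℂ × ℝ => p.1) (ContinuousLinearMap.fst ℝ ℂ ℝ) (z0, x0) :=
    (ContinuousLinearMap.fst ℝ ℂ ℝ).hasFDerivAt
  have e5 := e4.mul e3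
  have f1 : HasFDerivAt (fun p : ℂ × ℝ => α p.1) (α.comp (ContinuousLinearMap.fst ℝ ℂ ℝ))
      (z0, x0) := (α.comp (ContinuousLinearMap.fst ℝ ℂ ℝ)).hasFDerivAt
  have f2 : HasFDerivAt (fun p : ℂ × ℝ => (1 - tpar θ k p : ℝ)) (-dt) (z0, x0) := by
    have := hdt.const_sub 1
    exact this
  have f3 : HasFDerivAt (fun p : ℂ × ℝ => p.2) (ContinuousLinearMap.snd ℝ ℂ ℝ) (z0, x0) :=
    (ContinuousLinearMap.snd ℝ ℂ ℝ).hasFDerivAt
  have f4 := f3.add (f2.mul f1)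
  refine ⟨_, e5.prodMk f4, fun v y => ?_⟩
  apply Prod.ext
  · simp
    ring
  · simp
    ring

/-- smoothness of a piece -/
theorem contDiffAt_pm {θ k : ℝ → ℝ} {z0 : ℂ} {x0 : ℝ} (hθ : ContDiff ℝ ∞ θ)
    (hk : ContDiffAt ℝ ∞ k x0) (hk0 : 0 < k x0) {Λ : ℂ → ℂ} (hΛ : ContDiffAt ℝ ∞ Λ z0)
    (α : ℂ →L[ℝ] ℝ) : ContDiffAt ℝ ∞ (pm θ k Λ α) (z0, x0) := by
  have h0 : ContDiffAt ℝ ∞ (fun p : ℂ × ℝ => Complex.normSq p.1 / k p.2 ^ 2) (z0, x0) := by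
    have e1 : ContDiffAt ℝ ∞ (fun p : ℂ × ℝ => p.1.re) (z0, x0) :=
      (Complex.reCLM.comp (ContinuousLinearMap.fst ℝ ℂ ℝ)).contDiff.contDiffAt
    have e2 : ContDiffAt ℝ ∞ (fun p : ℂ × ℝ => p.1.im) (z0, x0) :=
      (Complex.imCLM.comp (ContinuousLinearMap.fst ℝ ℂ ℝ)).contDiff.contDiffAt
    have e3 : ContDiffAt ℝ ∞ (fun p : ℂ × ℝ => k p.2) (z0, x0) :=
      ContDiffAt.comp (z0, x0) (g := k) hk contDiffAt_snd
    have e4 : (fun p : ℂ × ℝ => Complex.normSq p.1 / k p.2 ^ 2) =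
        fun p : ℂ × ℝ => (p.1.re * p.1.re + p.1.im * p.1.im) / k p.2 ^ 2 := by
      funext p; rw [Complex.normSq_apply]
    rw [e4]
    exact ((e1.mul e1).add (e2.mul e2)).div (e3.pow 2) (pow_pos hk0 2).ne'
  have h1 : ContDiffAt ℝ ∞ (tpar θ k) (z0, x0) :=
    ContDiffAt.comp (z0, x0) (g := θ) hθ.contDiffAt h0
  have h2 : ContDiffAt ℝ ∞ (fun p : ℂ × ℝ => 1 - tpar θ k p) (z0, x0) := contDiffAt_const.sub h1
  have h3 : ContDiffAt ℝ ∞ (fun p : ℂ × ℝ => ((1 - tpar θ k p : ℝ) : ℂ)) (z0, x0) :=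
    ContDiffAt.comp (z0, x0) (g := fun r : ℝ => (r : ℂ)) Complex.ofRealCLM.contDiff.contDiffAt h2
  have h4 : ContDiffAt ℝ ∞ (fun p : ℂ × ℝ => Λ p.1) (z0, x0) :=
    ContDiffAt.comp (z0, x0) (g := Λ) hΛ contDiffAt_fst
  have h5 : ContDiffAt ℝ ∞ (fun p : ℂ × ℝ => α p.1) (z0, x0) :=
    (α.comp (ContinuousLinearMap.fst ℝ ℂ ℝ)).contDiff.contDiffAt
  exact (contDiffAt_fst.mul (h3.mul h4).cexp).prodMk (contDiffAt_snd.add (h2.mul h5))

end P073.SM
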