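import Vale.Agent.P073.SM.PLc
import Vale.Agent.P073.SM.DM

/-!
# P073, SMA: the slow path of a planar form consists locally of two smooth pieces
-/

namespace P073.SM

open Set Metric Topology Filter
open scoped ContDiff

/-- `f` consists near `p` of two `C¹` pieces glued along a plane, with injective convex
combinations of the derivatives, which are bounded by `M`. -/
def TwoPiece {E F : Type*} [NormedAddCommGroup E] [NormedSpace ℝ E] [NormedAddCommGroup F]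
    [NormedSpace ℝ F] (f : E → F) (p : E) (M : ℝ) : Prop :=
  ∃ (G G' : E → F) (ℓ : E →L[ℝ] ℝ), ContDiffAt ℝ 1 G p ∧ ContDiffAt ℝ 1 G' p ∧
    (∀ᶠ x in 𝓝 p, (0 ≤ ℓ (x - p) → f x = G x) ∧ (ℓ (x - p) ≤ 0 → f x = G' x)) ∧
    (∀ s ∈ Icc (0:ℝ) 1, ∀ v, s • fderiv ℝ G p v + (1 - s) • fderiv ℝ G' p v = 0 → v = 0) ∧
    ‖fderiv ℝ G p‖ ≤ M ∧ ‖fderiv ℝ G' p‖ ≤ M

/-- the derivative bound of the slow path -/
noncomputable def Cp (B : ℝ) : ℝ := Real.exp B * (1 + 5 * B)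

/-- norm bound for the derivative of one piece -/
theorem norm_piece_le {B q : ℝ} (hB : 0 ≤ B) (hq : q ≤ 1) {z0 lam : ℂ} {t f0 : ℝ}
    (hz : z0 ≠ 0) (ht : t ∈ Icc (0:ℝ) 1) {D : ℂ →L[ℝ] ℂ} (hD0 : D z0 = 0)
    (hd2 : ‖D (Complex.I * z0)‖ ≤ B) (hlam : ‖lam‖ ≤ B)
    {α : ℂ →L[ℝ] ℝ} (hα : ∀ v, |α v| ≤ B * ‖v‖) (hf0 : |f0| ≤ B * ‖z0‖)
    {dt : ℂ × ℝ →L[ℝ] ℝ} (hq0 : 0 ≤ q)
    (hdt : ∀ v y, |dt (v, y)| ≤ 2 * q * (|(v / z0).re| + |y| / ‖z0‖))
    {L : ℂ × ℝ →L[ℝ] ℂ × ℝ} (hL : ∀ v y, L (v, y) =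
        (Complex.exp (((1 - t : ℝ) : ℂ) * lam) *
          (v + z0 * (((1 - t : ℝ) : ℂ) * D v - lam * dt (v, y))),
        y + (1 - t) * α v - f0 * dt (v, y))) : ‖L‖ ≤ Cp B := by
  have hz0 : 0 < ‖z0‖ := norm_pos_iff.2 hz
  have hC : 0 ≤ Cp B := by unfold Cp; positivity
  refine ContinuousLinearMap.opNorm_le_bound _ hC fun p => ?_
  obtain ⟨v, y⟩ := p
  set N : ℝ := ‖((v, y) : ℂ × ℝ)‖ with hN
  have hv : ‖v‖ ≤ N := norm_fst_le (v, y)
  have hy : |y| ≤ N := norm_snd_le (v, y)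
  have hN0 : 0 ≤ N := norm_nonneg _
  have hre : |(v / z0).re| ≤ ‖v‖ / ‖z0‖ := by
    rw [← norm_div]; exact Complex.abs_re_le_norm _
  have him : |(v / z0).im| ≤ ‖v‖ / ‖z0‖ := by
    rw [← norm_div]; exact Complex.abs_im_le_norm _
  have hdt' : ‖z0‖ * |dt (v, y)| ≤ 4 * N := by
    calc ‖z0‖ * |dt (v, y)| ≤ ‖z0‖ * (2 * q * (|(v / z0).re| + |y| / ‖z0‖)) := by
          gcongr; exact hdt v y
      _ ≤ ‖z0‖ * (2 * 1 * (‖v‖ / ‖z0‖ + |y| / ‖z0‖)) := by gcongr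
      _ = 2 * (‖v‖ + |y|) := by field_simp
      _ ≤ 2 * (N + N) := by gcongr
      _ = _ := by ring
  have hDv : ‖z0‖ * ‖D v‖ ≤ B * N := by
    have e1 : v = (v / z0).re • z0 + (v / z0).im • (Complex.I * z0) := by
      have : v = ((v / z0).re + (v / z0).im * Complex.I) * z0 := by
        rw [Complex.re_add_im]; field_simp
      conv_lhs => rw [this]
      simp only [Complex.real_smul]; ring
    have e2 : D v = (v / z0).im • D (Complex.I * z0) := by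
      conv_lhs => rw [e1]
      rw [map_add, map_smul, map_smul, hD0, smul_zero, zero_add]
    rw [e2, norm_smul, Real.norm_eq_abs]
    calc ‖z0‖ * (|(v / z0).im| * ‖D (Complex.I * z0)‖) ≤ ‖z0‖ * (‖v‖ / ‖z0‖ * B) := by gcongr
      _ = B * ‖v‖ := by field_simp
      _ ≤ B * N := by gcongr
  have h1t : |1 - t| ≤ 1 := by
    rw [abs_of_nonneg (sub_nonneg.2 ht.2)]; linarith [ht.1]
  rw [hL]
  rw [Prod.norm_def, max_le_iff]
  have hexp : ‖Complex.exp (((1 - t : ℝ) : ℂ) * lam)‖ ≤ Real.exp B := by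
    rw [Complex.norm_exp]
    apply Real.exp_le_exp.2
    calc (((1 - t : ℝ) : ℂ) * lam).re ≤ ‖((1 - t : ℝ) : ℂ) * lam‖ := Complex.re_le_norm _
      _ = |1 - t| * ‖lam‖ := by rw [norm_mul, Complex.norm_real, Real.norm_eq_abs]
      _ ≤ 1 * B := by gcongr
      _ = B := one_mul B
  have hexp1 : 1 ≤ Real.exp B := Real.one_le_exp hB
  constructor
  · rw [norm_mul]
    have e1 : ‖v + z0 * (((1 - t : ℝ) : ℂ) * D v - lam * dt (v, y))‖ ≤ (1 + 5 * B) * N := by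
      calc ‖v + z0 * (((1 - t : ℝ) : ℂ) * D v - lam * dt (v, y))‖
          ≤ ‖v‖ + ‖z0‖ * (|1 - t| * ‖D v‖ + ‖lam‖ * |dt (v, y)|) := by
            refine (norm_add_le _ _).trans ?_
            rw [norm_mul]
            gcongr
            refine (norm_sub_le _ _).trans ?_
            rw [norm_mul, norm_mul, Complex.norm_real, Complex.norm_real, Real.norm_eq_abs,
              Real.norm_eq_abs]
        _ ≤ N + ‖z0‖ * (1 * ‖D v‖ + B * |dt (v, y)|) := by gcongr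
        _ = N + (‖z0‖ * ‖D v‖) + B * (‖z0‖ * |dt (v, y)|) := by ring
        _ ≤ N + B * N + B * (4 * N) := by gcongr
        _ = _ := by ring
    calc _ ≤ Real.exp B * ((1 + 5 * B) * N) := by gcongr
      _ = Cp B * N := by unfold Cp; ring
  · rw [Real.norm_eq_abs]
    calc |y + (1 - t) * α v - f0 * dt (v, y)|
        ≤ |y| + |1 - t| * |α v| + |f0| * |dt (v, y)| := by
          rw [← abs_mul, ← abs_mul]
          exact (abs_sub _ _).trans (by gcongr; exact abs_add_le _ _)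
      _ ≤ N + 1 * (B * N) + (B * ‖z0‖) * |dt (v, y)| := by
          gcongr
          exact (hα v).trans (by gcongr)
      _ = N + B * N + B * (‖z0‖ * |dt (v, y)|) := by ring
      _ ≤ N + B * N + B * (4 * N) := by gcongr
      _ = 1 * ((1 + 5 * B) * N) := by ring
      _ ≤ Real.exp B * ((1 + 5 * B) * N) := by gcongr
      _ = Cp B * N := by unfold Cp; ring

theorem Planar.twoPiece {F : ℂ → ℂ} {f : ℂ → ℝ} {m B : ℝ} (h : Planar F f m B)
    {θ k : ℝ → ℝ} {z0 : ℂ} {x0 q : ℝ} (hz : z0 ≠ 0)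
    (hθ : ContDiff ℝ ∞ θ) (hθ1 : ∀ u, 1 ≤ u → θ u = 0) (hθ2 : ∀ u, θ u ∈ Icc (0:ℝ) 1)
    (hq : ∀ u, |u * deriv θ u| ≤ q) (hq1 : q ≤ 1) (hqc : 2 * q * cst (m1 m B) (B1 m B) < 1)
    (hk : ContDiffAt ℝ ∞ k x0) (hk0 : 0 < k x0) (hk1 : |deriv k x0| ≤ 1) :
    TwoPiece (pm θ k (lg F) f) (z0, x0) (Cp (B1 m B)) := by
  have hq0 : 0 ≤ q := (abs_nonneg _).trans (hq 0)
  have hB1 := h.B1_nonneg
  have hm1 := h.m1_pos
  have hm11 : m1 m B ≤ 1 := min_le_left _ _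
  obtain ⟨Λ, Λ', α, α', ℓ, hℓ, hP, hP', hev⟩ := h.exists_pieces hz
  have hself := hev.self_of_nhds
  have ev1 : Λ z0 = lg F z0 := (hself.1 hℓ.ge).1.symm
  have ev2 : Λ' z0 = lg F z0 := (hself.2 hℓ.le).1.symm
  have ev3 : α z0 = f z0 := (hself.1 hℓ.ge).2.symm
  have ev4 : α' z0 = f z0 := (hself.2 hℓ.le).2.symm
  have hkd : HasDerivAt k (deriv k x0) x0 := (hk.differentiableAt (by simp)).hasDerivAt
  obtain ⟨dt, hdt, hdtb⟩ := hasFDerivAt_tpar hz hθ hθ1 hq hkd hk0 hk1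
  have hΛ : HasFDerivAt Λ (fderiv ℝ Λ z0) z0 := (hP.smooth.differentiableAt (by simp)).hasFDerivAt
  have hΛ' : HasFDerivAt Λ' (fderiv ℝ Λ' z0) z0 :=
    (hP'.smooth.differentiableAt (by simp)).hasFDerivAt
  obtain ⟨D, hD, hDf⟩ := hasFDerivAt_pm hdt hΛ α
  obtain ⟨D', hD', hDf'⟩ := hasFDerivAt_pm hdt hΛ' α'
  set t : ℝ := tpar θ k (z0, x0) with ht
  have htI : t ∈ Icc (0:ℝ) 1 := hθ2 _
  have hf0 : |f z0| ≤ B1 m B * ‖z0‖ := by rw [← ev3]; exact hP.lin z0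
  refine ⟨pm θ k Λ α, pm θ k Λ' α', ℓ.comp (ContinuousLinearMap.fst ℝ ℂ ℝ),
    (contDiffAt_pm hθ hk hk0 hP.smooth α).of_le (by simp),
    (contDiffAt_pm hθ hk hk0 hP'.smooth α').of_le (by simp), ?_, ?_, ?_, ?_⟩
  · have h1 : ∀ᶠ p : ℂ × ℝ in 𝓝 (z0, x0), (0 ≤ ℓ p.1 → lg F p.1 = Λ p.1 ∧ f p.1 = α p.1) ∧
        (ℓ p.1 ≤ 0 → lg F p.1 = Λ' p.1 ∧ f p.1 = α' p.1) :=
      (continuous_fst.tendsto (z0, x0)).eventually hev
    filter_upwards [h1] with p hp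
    have e1 : (ℓ.comp (ContinuousLinearMap.fst ℝ ℂ ℝ)) (p - (z0, x0)) = ℓ p.1 := by
      simp [map_sub, hℓ]
    rw [e1]
    refine ⟨fun h2 => ?_, fun h2 => ?_⟩
    · obtain ⟨h3, h4⟩ := hp.1 h2
      simp only [pm, h3, h4]
    · obtain ⟨h3, h4⟩ := hp.2 h2
      simp only [pm, h3, h4]
  · intro s hs p hp
    obtain ⟨v, y⟩ := p
    rw [hD.fderiv, hD'.fderiv, hDf, hDf', ev1, ev2, ev3, ev4] at hp
    set Ds : ℂ →L[ℝ] ℂ := s • fderiv ℝ Λ z0 + (1 - s) • fderiv ℝ Λ' z0 with hDs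
    set αs : ℂ →L[ℝ] ℝ := s • α + (1 - s) • α' with hαs
    have hs0 : 0 ≤ s := hs.1
    have hs1 : 0 ≤ 1 - s := sub_nonneg.2 hs.2
    have k1 : Ds z0 = 0 := by
      simp [hDs, hP.rad, hP'.rad]
    have k2 : m1 m B ≤ 1 + (Ds (Complex.I * z0)).im := by
      have e1 : (Ds (Complex.I * z0)).im = s * (fderiv ℝ Λ z0 (Complex.I * z0)).im +
          (1 - s) * (fderiv ℝ Λ' z0 (Complex.I * z0)).im := by
        simp only [hDs, add_apply, smul_apply, Complex.add_im, Complex.real_smul, Complex.mul_im,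
          Complex.ofReal_re, Complex.ofReal_im, zero_mul, add_zero]
      rw [e1]
      have e2 := mul_le_mul_of_nonneg_left hP.ang hs0
      have e3 := mul_le_mul_of_nonneg_left hP'.ang hs1
      linarith
    have k3 : ‖Ds (Complex.I * z0)‖ ≤ B1 m B := by
      calc ‖Ds (Complex.I * z0)‖ ≤ ‖s • fderiv ℝ Λ z0 (Complex.I * z0)‖ +
            ‖(1 - s) • fderiv ℝ Λ' z0 (Complex.I * z0)‖ := norm_add_le _ _
        _ = s * ‖fderiv ℝ Λ z0 (Complex.I * z0)‖ + (1 - s) * ‖fderiv ℝ Λ' z0 (Complex.I * z0)‖ := by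
            rw [norm_smul, norm_smul, Real.norm_of_nonneg hs0, Real.norm_of_nonneg hs1]
        _ ≤ s * B1 m B + (1 - s) * B1 m B := by gcongr; exacts [hP.angb, hP'.angb]
        _ = _ := by ring
    have k4 : ‖lg F z0‖ ≤ B1 m B := by rw [← ev1]; exact hP.val
    have k5 : ∀ v, |αs v| ≤ B1 m B * ‖v‖ := by
      intro v
      calc |αs v| = |s * α v + (1 - s) * α' v| := by simp [hαs]
        _ ≤ |s * α v| + |(1 - s) * α' v| := abs_add_le _ _
        _ = s * |α v| + (1 - s) * |α' v| := by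
            rw [abs_mul, abs_mul, abs_of_nonneg hs0, abs_of_nonneg hs1]
        _ ≤ s * (B1 m B * ‖v‖) + (1 - s) * (B1 m B * ‖v‖) := by
            gcongr; exacts [hP.lin v, hP'.lin v]
        _ = _ := by ring
    have hc1 := congrArg Prod.fst hp
    have hc2 := congrArg Prod.snd hp
    simp only [Prod.fst_add, Prod.snd_add, Prod.smul_fst, Prod.smul_snd, Prod.fst_zero,
      Prod.snd_zero, smul_eq_mul, Complex.real_smul] at hc1 hc2
    have e3 : Complex.exp (((1 - t : ℝ) : ℂ) * lg F z0) *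
        (v + z0 * ((1 - (t:ℂ)) * Ds v - lg F z0 * dt (v, y))) = 0 := by
      rw [← hc1]
      simp only [hDs, add_apply, smul_apply, Complex.real_smul]
      push_cast
      ring
    have e4 : v + z0 * ((1 - (t:ℂ)) * Ds v - lg F z0 * dt (v, y)) = 0 :=
      (mul_eq_zero.1 e3).resolve_left (Complex.exp_ne_zero _)
    have e5 : y + (1 - t) * αs v - f z0 * dt (v, y) = 0 := by
      rw [← hc2]
      simp only [hαs, add_apply, smul_apply, smul_eq_mul]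
      ring
    obtain ⟨hv0, hy0⟩ := inj_slow hm1 hm11 hB1 hz htI k1 rfl k2 k3 k4 k5 hf0
      (by positivity) hdtb hqc e4 e5
    rw [hv0, hy0]; rfl
  · rw [hD.fderiv]
    refine norm_piece_le hB1 hq1 hz htI hP.rad hP.angb hP.val hP.lin ?_ hq0 hdtb
      (f0 := α z0) hDf
    exact hP.lin z0
  · rw [hD'.fderiv]
    refine norm_piece_le hB1 hq1 hz htI hP'.rad hP'.angb hP'.val hP'.lin ?_ hq0 hdtb
      (f0 := α' z0) hDf'
    exact hP'.lin z0

end P073.SM
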