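import Vale.Agent.P073.SM.PLd

/-!
# P073, SMA: consequences of the two-piece form
-/

namespace P073.SM

open Set Metric Topology Filter
open scoped ContDiff
open Vale.Agent.P073 (DirMonotoneAt LipOn)

theorem TwoPiece.comp {P : ℂ × ℝ → ℂ × ℝ} {p0 : ℂ × ℝ} {M : ℝ} (h : TwoPiece P p0 M)
    (Ψ : E3 ≃L[ℝ] ℂ × ℝ) (L : (ℂ × ℝ) ≃L[ℝ] E3) {c y0 p1 : E3} (hp : Ψ (p1 - y0) = p0)
    {f : E3 → E3} (hf : ∀ᶠ p in 𝓝 p1, f p = c + L (P (Ψ (p - y0)))) :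
    TwoPiece f p1 (‖(L : (ℂ × ℝ) →L[ℝ] E3)‖ * M * ‖(Ψ : E3 →L[ℝ] ℂ × ℝ)‖) := by
  obtain ⟨G, G', ℓ, hG, hG', hev, hinj, hM, hM'⟩ := h
  have hΨ : ContDiff ℝ 1 (fun p : E3 => Ψ (p - y0)) :=
    Ψ.contDiff.comp (contDiff_id.sub contDiff_const)
  have hder : ∀ G : ℂ × ℝ → ℂ × ℝ, ContDiffAt ℝ 1 G p0 →
      ContDiffAt ℝ 1 (fun p => c + L (G (Ψ (p - y0)))) p1 ∧
      fderiv ℝ (fun p => c + L (G (Ψ (p - y0)))) p1 =
        (L : (ℂ × ℝ) →L[ℝ] E3).comp ((fderiv ℝ G p0).comp (Ψ : E3 →L[ℝ] ℂ × ℝ)) := by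
    intro G hG
    have e1 : ContDiffAt ℝ 1 (fun p => G (Ψ (p - y0))) p1 :=
      ContDiffAt.comp p1 (g := G) (by rw [hp]; exact hG) hΨ.contDiffAt
    refine ⟨contDiffAt_const.add (L.contDiff.contDiffAt.comp p1 e1), ?_⟩
    have e2 : HasFDerivAt G (fderiv ℝ G p0) (Ψ (p1 - y0)) := by
      rw [hp]; exact (hG.differentiableAt (by simp)).hasFDerivAt
    have e3 : HasFDerivAt (fun p : E3 => Ψ (p - y0)) (Ψ : E3 →L[ℝ] ℂ × ℝ) p1 := by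
      have h5 : HasFDerivAt (fun p : E3 => p - y0) (ContinuousLinearMap.id ℝ E3) p1 :=
        (hasFDerivAt_id p1).sub_const y0
      have h6 := (Ψ.hasFDerivAt (x := p1 - y0)).comp p1 h5
      rw [ContinuousLinearMap.comp_id] at h6
      exact h6
    have e4 := (L.hasFDerivAt (x := G (Ψ (p1 - y0)))).comp p1 (e2.comp p1 e3)
    exact (e4.const_add c).fderiv
  obtain ⟨c1, d1⟩ := hder G hG
  obtain ⟨c2, d2⟩ := hder G' hG'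
  refine ⟨_, _, ℓ.comp (Ψ : E3 →L[ℝ] ℂ × ℝ), c1, c2, ?_, ?_, ?_, ?_⟩
  · have h1 : ∀ᶠ p in 𝓝 p1, (0 ≤ ℓ (Ψ (p - y0) - p0) → P (Ψ (p - y0)) = G (Ψ (p - y0))) ∧
        (ℓ (Ψ (p - y0) - p0) ≤ 0 → P (Ψ (p - y0)) = G' (Ψ (p - y0))) := by
      have : Tendsto (fun p : E3 => Ψ (p - y0)) (𝓝 p1) (𝓝 p0) := by
        rw [← hp]; exact hΨ.continuous.continuousAt
      exact this.eventually hev
    filter_upwards [h1, hf] with p hp1 hp2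
    have e1 : (ℓ.comp (Ψ : E3 →L[ℝ] ℂ × ℝ)) (p - p1) = ℓ (Ψ (p - y0) - p0) := by
      rw [← hp, ← map_sub]
      simp
    rw [e1, hp2]
    exact ⟨fun h2 => by rw [hp1.1 h2], fun h2 => by rw [hp1.2 h2]⟩
  · intro s hs v hv
    rw [d1, d2] at hv
    simp only [ContinuousLinearMap.comp_apply, ContinuousLinearEquiv.coe_coe] at hv
    have h1 : s • fderiv ℝ G p0 (Ψ v) + (1 - s) • fderiv ℝ G' p0 (Ψ v) = 0 := by
      apply L.map_eq_zero_iff.1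
      rw [map_add, L.map_smul, L.map_smul]
      exact hv
    exact Ψ.map_eq_zero_iff.1 (hinj s hs (Ψ v) h1)
  · rw [d1]
    calc _ ≤ ‖(L : (ℂ × ℝ) →L[ℝ] E3)‖ * ‖(fderiv ℝ G p0).comp (Ψ : E3 →L[ℝ] ℂ × ℝ)‖ :=
          ContinuousLinearMap.opNorm_comp_le _ _
      _ ≤ ‖(L : (ℂ × ℝ) →L[ℝ] E3)‖ * (‖fderiv ℝ G p0‖ * ‖(Ψ : E3 →L[ℝ] ℂ × ℝ)‖) := by
          gcongr; exact ContinuousLinearMap.opNorm_comp_le _ _
      _ ≤ ‖(L : (ℂ × ℝ) →L[ℝ] E3)‖ * (M * ‖(Ψ : E3 →L[ℝ] ℂ × ℝ)‖) := by gcongr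
      _ = _ := by ring
  · rw [d2]
    calc _ ≤ ‖(L : (ℂ × ℝ) →L[ℝ] E3)‖ * ‖(fderiv ℝ G' p0).comp (Ψ : E3 →L[ℝ] ℂ × ℝ)‖ :=
          ContinuousLinearMap.opNorm_comp_le _ _
      _ ≤ ‖(L : (ℂ × ℝ) →L[ℝ] E3)‖ * (‖fderiv ℝ G' p0‖ * ‖(Ψ : E3 →L[ℝ] ℂ × ℝ)‖) := by
          gcongr; exact ContinuousLinearMap.opNorm_comp_le _ _
      _ ≤ ‖(L : (ℂ × ℝ) →L[ℝ] E3)‖ * (M * ‖(Ψ : E3 →L[ℝ] ℂ × ℝ)‖) := by gcongr
      _ = _ := by ring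

theorem TwoPiece.dirMonotoneAt {f : E3 → E3} {p : E3} {M : ℝ} (h : TwoPiece f p M) :
    DirMonotoneAt f p := by
  obtain ⟨G, G', ℓ, hG, hG', hev, hinj, -, -⟩ := h
  exact specDM f G G' p ℓ hG hG' hev hinj

theorem TwoPiece.lip {f : E3 → E3} {p : E3} {M : ℝ} (h : TwoPiece f p M) :
    ∃ r > 0, LipOn f (ball p r) (M + 1) := by
  obtain ⟨G, G', ℓ, hG, hG', hf, -, hM, hM'⟩ := h
  have hsG := hG.hasStrictFDerivAt (by simp)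
  have hsG' := hG'.hasStrictFDerivAt (by simp)
  set A := fderiv ℝ G p with hA
  set A' := fderiv ℝ G' p with hA'
  have e1 := hsG.isLittleO.def one_pos
  have e2 := hsG'.isLittleO.def one_pos
  have e3 : ∀ᶠ q : E3 × E3 in 𝓝 (p, p), ((0 ≤ ℓ (q.1 - p) → f q.1 = G q.1) ∧
      (ℓ (q.1 - p) ≤ 0 → f q.1 = G' q.1)) :=
    (continuous_fst.tendsto (p, p)).eventually hf
  obtain ⟨r, hr, hb⟩ := Metric.eventually_nhds_iff_ball.1 (e1.and (e2.and e3))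
  have hb' : ∀ x ∈ ball p r, ∀ y ∈ ball p r, (y, x) ∈ ball (p, p) r := by
    intro x hx y hy
    rw [← ball_prod_same]
    exact ⟨hy, hx⟩
  have hf' : ∀ x ∈ ball p r, (0 ≤ ℓ (x - p) → f x = G x) ∧ (ℓ (x - p) ≤ 0 → f x = G' x) :=
    fun x hx => (hb _ (hb' x hx x hx)).2.2
  have hG1 : ∀ x ∈ ball p r, ∀ y ∈ ball p r, ‖G y - G x - A (y - x)‖ ≤ 1 * ‖y - x‖ :=
    fun x hx y hy => (hb _ (hb' x hx y hy)).1
  have hG2 : ∀ x ∈ ball p r, ∀ y ∈ ball p r, ‖G' y - G' x - A' (y - x)‖ ≤ 1 * ‖y - x‖ :=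
    fun x hx y hy => (hb _ (hb' x hx y hy)).2.1
  refine ⟨r, hr, fun y hy x hx => ?_⟩
  have hk : ∃ u ∈ Icc (0:ℝ) 1,
      ‖f y - f x - (u • A (y - x) + (1 - u) • A' (y - x))‖ ≤ 1 * (1 * ‖y - x‖) := by
    have hy' : x + (1:ℝ) • (y - x) ∈ ball p r := by rwa [one_smul, add_sub_cancel]
    rcases le_total 0 (ℓ (x - p)) with hxl | hxl
    · obtain ⟨u, hu, h1⟩ := glued_incr hf' hG1 hG2 one_pos hx hy' hxl
      refine ⟨u, hu, ?_⟩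
      rwa [one_smul, add_sub_cancel] at h1
    · obtain ⟨u, hu, h1⟩ := glued_incr (f := f) (G := G') (G' := G) (A := A') (A' := A) (ℓ := -ℓ)
        (p := p) (r := r) (ε := 1)
        (fun x hx => ⟨fun h => (hf' x hx).2 (by simpa using h),
          fun h => (hf' x hx).1 (by simpa using h)⟩) hG2 hG1 one_pos hx hy' (by simpa using hxl)
      refine ⟨1 - u, ⟨sub_nonneg.2 hu.2, by linarith [hu.1]⟩, ?_⟩
      rw [sub_sub_cancel, add_comm ((1 - u) • A (y - x))]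
      rwa [one_smul, add_sub_cancel] at h1
  obtain ⟨u, hu, h1⟩ := hk
  have n3 : ‖u • A (y - x)‖ ≤ u * (M * ‖y - x‖) := by
    rw [norm_smul, Real.norm_of_nonneg hu.1]
    gcongr
    · exact hu.1
    · exact (A.le_opNorm _).trans (by gcongr)
  have n4 : ‖(1 - u) • A' (y - x)‖ ≤ (1 - u) * (M * ‖y - x‖) := by
    have hu' : 0 ≤ 1 - u := sub_nonneg.2 hu.2
    rw [norm_smul, Real.norm_of_nonneg hu']
    gcongr
    exact (A'.le_opNorm _).trans (by gcongr)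
  have e1 : f y - f x = (f y - f x - (u • A (y - x) + (1 - u) • A' (y - x))) +
      (u • A (y - x) + (1 - u) • A' (y - x)) := by abel
  rw [e1]
  calc _ ≤ ‖f y - f x - (u • A (y - x) + (1 - u) • A' (y - x))‖ +
        ‖u • A (y - x) + (1 - u) • A' (y - x)‖ := norm_add_le _ _
    _ ≤ 1 * (1 * ‖y - x‖) + (‖u • A (y - x)‖ + ‖(1 - u) • A' (y - x)‖) :=
        add_le_add h1 (norm_add_le _ _)
    _ ≤ 1 * (1 * ‖y - x‖) + (u * (M * ‖y - x‖) + (1 - u) * (M * ‖y - x‖)) := by gcongr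
    _ = (M + 1) * ‖y - x‖ := by ring

end P073.SM
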