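import Vale.Agent.P073.ConicalCrease
import Vale.Agent.P073.SMV.Spec
import Vale.Agent.P073.Bdl.B2

/-!
# P073, block SMA (conical homeomorphism -> `ClassOne` of SMV/Spec.lean): statements of the parts.

Plan. (1) Near the edges (stratum 1) replace `h` by the path `z * exp ((1 - t) * l z)` from the
(piecewise linear) planar form of `h` to the identity, `t` a slowly varying function of
`‖z‖ / κ`: map `f`, affine near the edges, two smooth pieces glued along a plane elsewhere, so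
`DirMonotoneAt` off the vertices. (2) Mollify `f` with variable radius `ρ`. (3) Bijectivity from
closeness to `h`. Near a vertex `v`, `κ` and `ρ` are multiples of `‖x - v‖`, hence the result is
positively homogeneous there.
-/

namespace P073.SM

open Set Metric Topology Filter MeasureTheory
open scoped ENNReal ContDiff
open Vale.Agent.P073 (LipOn PII DirMonotoneAt)
open Vale.Agent.P073.SMV (HomeoOn DiffeoOn RegAt ClassOne AdmMeas)

/-- Euclidean space of dimension three. -/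
abbrev E3 : Type := EuclideanSpace ℝ (Fin 3)

/-- `S` is closed and discrete in `Ω`. -/
def DiscIn (Ω S : Set E3) : Prop :=
  S ⊆ Ω ∧ ∀ x ∈ Ω, ∃ r > 0, ∀ y ∈ ball x r, y ≠ x → y ∉ S

/-- `h` is a conical homeomorphism of `Ω` onto `Λ` with inverse `k`; `Ω`, `Λ` bounded, open,
connected. -/
structure Input (Ω Λ : Set E3) (h k : E3 → E3) : Prop where
  openΩ : IsOpen Ω
  openΛ : IsOpen Λ
  bddΩ : Bornology.IsBounded Ω
  bddΛ : Bornology.IsBounded Λ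
  connΩ : IsConnected Ω
  homeo : HomeoOn Ω Λ h k
  con : ConicalOn h Ω

/-- **(PT)** pointwise form of the approximation of `h` by maps of class one. `C` does not depend
on the fineness `s`; the derivative of `g` is close to the tangent cone map of `h` in the
directions of the linearity space of `h` at `x`, as soon as the ball of radius `s x` around `x`
contains no point of a smaller stratum. -/
def SpecPT : Prop :=
  ∀ (Ω Λ : Set E3) (h k : E3 → E3), Input Ω Λ h k →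
    ∃ C : E3 → ℝ, ContinuousOn C Ω ∧ (∀ x ∈ Ω, 0 < C x) ∧
    ∀ s : E3 → ℝ, ContinuousOn s Ω → (∀ x ∈ Ω, 0 < s x) →
    ∃ g k' : E3 → E3, ClassOne Ω Λ (stratum h Ω 0) g k' ∧
      (∀ x ∈ Ω, ‖g x - h x‖ ≤ s x) ∧
      (∀ x ∈ Ω, x ∉ stratum h Ω 0 → ‖fderiv ℝ g x‖ ≤ C x) ∧
      ∀ x ∈ Ω, x ∉ stratum h Ω 0 →
        (∀ y ∈ ball x (s x), y ∈ Ω → Module.finrank ℝ (linSpace h x) ≤
          Module.finrank ℝ (linSpace h y)) →
        ∀ w ∈ linSpace h x, ‖fderiv ℝ g x w - tcone h x w‖ ≤ s x * ‖w‖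

/-- the integral form (`SMV.SpecEF` for bounded `Λ`) -/
def SpecEF' : Prop :=
  ∀ (Ω Λ : Set E3) (h k : E3 → E3), Input Ω Λ h k →
    ∀ (p : ℝ) (μ : ℕ → Measure E3) (τ : ℕ → E3) (η : ℕ → ℝ) (ε : E3 → ℝ), 0 < p →
    (∀ i, AdmMeas Ω (μ i)) → (∀ K ⊆ Ω, IsCompact K → {i | μ i K ≠ 0}.Finite) →
    (∀ i, ∀ᵐ x ∂(μ i), x ∈ Ω → τ i ∈ linSpace h x) →
    (∀ i, 0 < η i) → ContinuousOn ε Ω → (∀ x ∈ Ω, 0 < ε x) →
    ∃ (S : Set E3) (g k' : E3 → E3), ClassOne Ω Λ S g k' ∧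
      (∀ x ∈ Ω, ‖g x - h x‖ ≤ ε x) ∧
      ∀ i, ∫⁻ x in Ω, ENNReal.ofReal (‖fderiv ℝ g x (τ i) - tcone h x (τ i)‖ ^ p) ∂(μ i) ≤
        ENNReal.ofReal (η i)

/-- **(ME)** from the pointwise form to the integral form: on the shells of an exhaustion only
finitely many `μ i` count; the set of `x` with a smaller stratum in `ball x (s x)` shrinks to the
empty set (off the vertices, which are `μ i`-null) when `s` tends to `0`. -/
def SpecME : Prop := SpecPT → SpecEF'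

/-- **(DM)** Two `C¹` maps glued along a plane, with all convex combinations of the derivatives
injective, form a directionally monotone map. -/
def SpecDM : Prop :=
  ∀ (f G G' : E3 → E3) (p : E3) (ℓ : E3 →L[ℝ] ℝ), ContDiffAt ℝ 1 G p → ContDiffAt ℝ 1 G' p →
    (∀ᶠ x in 𝓝 p, (0 ≤ ℓ (x - p) → f x = G x) ∧ (ℓ (x - p) ≤ 0 → f x = G' x)) →
    (∀ s ∈ Icc (0:ℝ) 1, ∀ v, s • fderiv ℝ G p v + (1 - s) • fderiv ℝ G' p v = 0 → v = 0) →
    DirMonotoneAt f p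

/-- **(SC)** Scale functions, radial near the points of `S`. -/
def SpecSC : Prop :=
  ∀ (Ω S : Set E3), IsOpen Ω → DiscIn Ω S → ∀ δ η : E3 → ℝ,
    (∀ x ∈ Ω, x ∉ S → ∃ a > 0, ∀ᶠ y in 𝓝 x, a ≤ δ y) →
    (∀ v ∈ S, ∃ c > 0, ∀ᶠ y in 𝓝 v, c * ‖y - v‖ ≤ δ y) →
    (∀ x ∈ Ω, ∃ a > 0, ∀ᶠ y in 𝓝 x, a ≤ η y) →
    ∃ κ : E3 → ℝ, ContDiffOn ℝ ∞ κ (Ω \ S) ∧
      (∀ x ∈ Ω, x ∉ S → 0 < κ x ∧ κ x < δ x ∧ ‖fderiv ℝ κ x‖ < η x) ∧
      ∀ v ∈ S, ∃ c > 0, ∀ᶠ y in 𝓝 v, κ y = c * ‖y - v‖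

/-- data for the mollification at `x` with radius `s` and slope `g` of the radius -/
def Good (K : ℝ) (f : E3 → E3) (x : E3) (s g : ℝ) : Prop :=
  ∃ r L c : ℝ, s < r ∧ 0 ≤ L ∧ LipOn f (ball x r) L ∧ 0 < c ∧ PII f (ball x r) c ∧ K * g * L ≤ c

/-- **(MO)** Mollification with variable radius `ρ`: `M ρ f = sm P (Bf G ρ) f` of Bdl/B1, B2, with
`G` the inner product, `σ = τ = 1`. -/
def SpecMO : Prop :=
  ∃ (K : ℝ) (M : (E3 → ℝ) → (E3 → E3) → E3 → E3), 1 ≤ K ∧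
    ∀ (Ω : Set E3) (ρ : E3 → ℝ) (f : E3 → E3), IsOpen Ω → ContDiffOn ℝ ∞ ρ Ω →
      (∀ x ∈ Ω, 0 < ρ x ∧ ρ x < 1) → LocallyIntegrable f →
      -- smoothness
      ContDiffOn ℝ ∞ (M ρ f) Ω ∧
      -- injective derivative
      (∀ x ∈ Ω, Good K f x (ρ x) ‖fderiv ℝ ρ x‖ → ∀ v, fderiv ℝ (M ρ f) x v = 0 → v = 0) ∧
      -- closeness
      (∀ x ∈ Ω, ∀ r L : ℝ, ρ x < r → 0 ≤ L → LipOn f (ball x r) L →
        ‖M ρ f x - f x‖ ≤ L * ρ x ∧ ‖fderiv ℝ (M ρ f) x‖ ≤ K * (1 + ‖fderiv ℝ ρ x‖) * L) ∧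
      -- directions in which `f` is affine
      (∀ x ∈ Ω, ∀ r L : ℝ, ρ x < r → 0 ≤ L → LipOn f (ball x r) L → ∀ w C : E3,
        (∀ y ∈ ball x r, ∀ t : ℝ, y + t • w ∈ ball x r → f (y + t • w) = f y + t • C) →
        ‖fderiv ℝ (M ρ f) x w - C‖ ≤ K * ‖fderiv ℝ ρ x‖ * L * ‖w‖) ∧
      -- affine maps are not changed
      (∀ x ∈ Ω, ∀ (A : E3 →L[ℝ] E3) (b : E3), (∀ y ∈ ball x (ρ x), f y = b + A y) →
        M ρ f x = f x) ∧
      -- homogeneity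
      (∀ v x : E3, ∀ t : ℝ, 0 < t → v + x ∈ Ω → v + t • x ∈ Ω → ρ (v + t • x) = t * ρ (v + x) →
        (∀ y ∈ ball (v + x) (ρ (v + x)), f (v + t • (y - v)) = f v + t • (f y - f v)) →
        M ρ f (v + t • x) = f v + t • (M ρ f (v + x) - f v))

/-! ### The planar form of the tangent cone map at an edge -/

/-- `F + f` is positively homogeneous, the identity near the negative real axis, and near every
point `z ≠ 0` consists of two linear maps glued along the line through `z` (or of one), with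
positive orientation and uniform bounds. -/
structure Planar (F : ℂ → ℂ) (f : ℂ → ℝ) (m B : ℝ) : Prop where
  m_pos : 0 < m
  hom : ∀ (c : ℝ), 0 ≤ c → ∀ z, F (c * z) = c * F z
  homf : ∀ (c : ℝ), 0 ≤ c → ∀ z, f (c * z) = c * f z
  inj : Function.Injective F
  cont : Continuous F
  contf : Continuous f
  neg : ∃ c > 0, ∀ z : ℂ, z.re < 0 → |z.im| ≤ c * |z.re| → F z = z ∧ f z = 0
  lower : ∀ z, m * ‖z‖ ≤ ‖F z‖
  upper : ∀ z, ‖F z‖ ≤ B * ‖z‖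
  upperf : ∀ z, |f z| ≤ B * ‖z‖
  crease : ∀ z ≠ 0, ∃ (A A' : ℂ →L[ℝ] ℂ) (α α' : ℂ →L[ℝ] ℝ) (ℓ : ℂ →L[ℝ] ℝ), ℓ z = 0 ∧
    (∀ᶠ w in 𝓝 z, (0 ≤ ℓ w → F w = A w ∧ f w = α w) ∧ (ℓ w ≤ 0 → F w = A' w ∧ f w = α' w)) ∧
    ‖A‖ ≤ B ∧ ‖A'‖ ≤ B ∧ ‖α‖ ≤ B ∧ ‖α'‖ ≤ B ∧
    m * ‖z‖ ^ 2 ≤ (A (Complex.I * z) * (starRingEnd ℂ) (A z)).im ∧
    m * ‖z‖ ^ 2 ≤ (A' (Complex.I * z) * (starRingEnd ℂ) (A' z)).im

/-- The form of a tangent cone map `T` whose linearity space is a line. -/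
structure EdgeForm (T : E3 → E3) where
  Ψ : E3 ≃L[ℝ] ℂ × ℝ
  L : (ℂ × ℝ) ≃L[ℝ] E3
  F : ℂ → ℂ
  f : ℂ → ℝ
  m : ℝ
  B : ℝ
  form : ∀ v, T v = L (F (Ψ v).1, (Ψ v).2 + f (Ψ v).1)
  planar : Planar F f m B

/-- **(EX)** existence of the edge form; the line `{v | (Ψ v).1 = 0}` is the linearity space. -/
def SpecEX : Prop :=
  ∀ (Ω Λ : Set E3) (h k : E3 → E3), Input Ω Λ h k → ∀ y ∈ stratum h Ω 1,
    ∃ N : EdgeForm (tcone h y), ∀ v, (N.Ψ v).1 = 0 ↔ v ∈ linSpace h y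

end P073.SM
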