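import Vale.Agent.P073.SM.Spec

/-!
# P073, block SMA: second list of parts. `SpecPT` follows from `SpecED` (edge replacement),
`SpecAS` (smoothing), `SpecBJ` (bijectivity), `SpecLP` (Lipschitz bounds).
-/

namespace P073.SM

open Set Metric Topology Filter MeasureTheory
open scoped ENNReal ContDiff
open Vale.Agent.P073 (LipOn PII DirMonotoneAt)
open Vale.Agent.P073.SMV (HomeoOn DiffeoOn RegAt ClassOne AdmMeas)

/-- `δ` is bounded below near the points of `Ω \ S`, and by a multiple of `‖y - v‖` near `v` in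
`S`. -/
def LowerBd (Ω S : Set E3) (δ : E3 → ℝ) : Prop :=
  (∀ x ∈ Ω, x ∉ S → ∃ a > 0, ∀ᶠ y in 𝓝 x, a ≤ δ y) ∧
    ∀ v ∈ S, ∃ c > 0, ∀ᶠ y in 𝓝 v, c * ‖y - v‖ ≤ δ y

/-- `η` is bounded below near the points of `Ω`. -/
def LowerBd' (Ω : Set E3) (η : E3 → ℝ) : Prop := ∀ x ∈ Ω, ∃ a > 0, ∀ᶠ y in 𝓝 x, a ≤ η y

/-- near the points of `S`, `f` is positively homogeneous -/
def HomNear (f : E3 → E3) (S : Set E3) : Prop :=
  ∀ v ∈ S, ∃ r > 0, ∀ y : E3, ‖y‖ < r → ∀ t ∈ Ioc (0:ℝ) 1,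
    f (v + t • y) = f v + t • (f (v + y) - f v)

/-- **(CR)** At a point of stratum 2 or 3, `h` consists of one or two linear maps, all convex
combinations of which are injective (use `SpecDM`). -/
def SpecCR : Prop :=
  ∀ (Ω Λ : Set E3) (h k : E3 → E3), Input Ω Λ h k → ∀ x ∈ Ω,
    2 ≤ Module.finrank ℝ (linSpace h x) → DirMonotoneAt h x

/-- **(LP)** Local Lipschitz bounds outside a discrete set give Lipschitz bounds on convex sets. -/
def SpecLP : Prop :=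
  ∀ (U S : Set E3) (f : E3 → E3) (L : ℝ), Convex ℝ U → IsOpen U → 0 ≤ L → ContinuousOn f U →
    (∀ x ∈ U, ∃ r > 0, ∀ y ∈ ball x r, y ≠ x → y ∉ S) →
    (∀ x ∈ U, x ∉ S → ∃ r > 0, LipOn f (ball x r) L) → LipOn f U L

/-- **(AS)** Smoothing of a directionally monotone map which is positively homogeneous near the
points of `S` (use `SpecMO`, `SpecSC`, `LII_of_mono` of Bdl/B1 for `Good`, and its invariance
under scaling near `S`). -/
def SpecAS : Prop :=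
  ∃ K : ℝ, 1 ≤ K ∧ ∀ (Ω S : Set E3) (f : E3 → E3), IsOpen Ω → DiscIn Ω S →
    LocallyIntegrable f → (∀ x ∈ Ω, x ∉ S → DirMonotoneAt f x) → HomNear f S →
    ∀ δ η : E3 → ℝ, LowerBd Ω S δ → LowerBd' Ω η →
    ∃ (ρ : E3 → ℝ) (g : E3 → E3),
      (∀ x ∈ Ω, x ∉ S → 0 < ρ x ∧ ρ x < δ x ∧ RegAt g x) ∧
      (∀ v ∈ S, g v = f v) ∧ HomNear g S ∧
      ∀ x ∈ Ω, x ∉ S → ∀ r L : ℝ, ρ x < r → 0 ≤ L → LipOn f (ball x r) L →
        ‖g x - f x‖ ≤ L * ρ x ∧ ‖fderiv ℝ g x‖ ≤ K * L ∧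
        ∀ w C : E3, (∀ y ∈ ball x r, ∀ t : ℝ, y + t • w ∈ ball x r → f (y + t • w) = f y + t • C) →
          ‖fderiv ℝ g x w - C‖ ≤ η x * L * ‖w‖

/-- **(BJ)** Maps which are close to `h`, smooth with injective derivative off the vertices and
homogeneous near them, are of class one (use `bijective_of_near_id` of Bdl/B2 for
`Ω \ S`, `Λ \ h '' S`, as in `exists_delta_diffeo`). -/
def SpecBJ : Prop :=
  ∀ (Ω Λ : Set E3) (h k : E3 → E3), Input Ω Λ h k →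
    ∃ δ : E3 → ℝ, LowerBd Ω (stratum h Ω 0) δ ∧
    ∀ g : E3 → E3, (∀ x ∈ Ω, x ∉ stratum h Ω 0 → RegAt g x) →
      (∀ v ∈ stratum h Ω 0, g v = h v) → HomNear g (stratum h Ω 0) →
      (∀ x ∈ Ω, x ∉ stratum h Ω 0 → ‖g x - h x‖ < δ x) →
      ∃ k' : E3 → E3, ClassOne Ω Λ (stratum h Ω 0) g k'

/-- **(ED)** The edge replacement. `C x` is a bound for the Lipschitz constant near `x`. -/
def SpecED : Prop :=
  ∀ (Ω Λ : Set E3) (h k : E3 → E3), Input Ω Λ h k →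
    ∃ C : E3 → ℝ, (∀ x ∈ Ω, ∃ M, ∀ᶠ y in 𝓝 x, C y ≤ M) ∧
    ∀ δ : E3 → ℝ, LowerBd Ω (stratum h Ω 0) δ →
    ∃ f : E3 → E3, LocallyIntegrable f ∧ ContinuousOn f Ω ∧
      (∀ x ∈ Ω, x ∉ stratum h Ω 0 → DirMonotoneAt f x) ∧
      (∀ v ∈ stratum h Ω 0, f v = h v) ∧ HomNear f (stratum h Ω 0) ∧
      (∀ x ∈ Ω, x ∉ stratum h Ω 0 → ∃ r > 0, LipOn f (ball x r) (C x)) ∧
      (∀ x ∈ Ω, x ∉ stratum h Ω 0 → ‖f x - h x‖ < δ x) ∧
      (∀ y ∈ stratum h Ω 1, ∃ (A : E3 →L[ℝ] E3) (b : E3), (∀ᶠ x in 𝓝 y, f x = b + A x) ∧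
        ∀ w ∈ linSpace h y, A w = tcone h y w) ∧
      ∀ x ∈ Ω, f x ≠ h x → ∃ y ∈ stratum h Ω 1, ‖x - y‖ < δ x

/-- **(FA)** the final assembly. For `x` in `Ω` off stratum 0 let `R x` be the supremum of the
`r ≤ 1` such that `f (y + t w) = f y + t tcone h x w` in `ball x r` for `w` in `linSpace h x`; on
the relatively closed set of the `x` with
`∀ y ∈ ball x (s x), y ∈ Ω → finrank (linSpace h x) ≤ finrank (linSpace h y)`, `R` is locally
bounded below (the linearity spaces and the maps `tcone h x w` are locally constant on the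
strata); use it, together with the `δ` of `SpecBJ`, `s`, and the radius of the Lipschitz ball,
for `δ` in `SpecAS`. -/
def SpecFA : Prop := SpecED → SpecAS → SpecBJ → SpecLP → SpecPT

end P073.SM
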