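import Vale.Agent.P073.SM.Spec2

/-!
# P073, block SMA: the conical radius (part RC of the edge replacement)
-/

namespace P073.SM

open Set Metric Topology Filter MeasureTheory

/-- the conical radius of `h` at `y` -/
noncomputable def rc (h : E3 → E3) (Ω : Set E3) (y : E3) : ℝ :=
  sSup {r : ℝ | 0 ≤ r ∧ r ≤ 1 ∧ ball y r ⊆ Ω ∧ ∀ v, ‖v‖ < r → h (y + v) = h y + tcone h y v}

/-- **(RC)** properties of the conical radius and of strata 0 and 1 -/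
structure RcProps (Ω : Set E3) (h : E3 → E3) : Prop where
  /-- the ball of radius `rc` is a conical ball -/
  ball : ∀ y ∈ Ω, 0 < rc h Ω y ∧ rc h Ω y ≤ 1 ∧ Metric.ball y (rc h Ω y) ⊆ Ω ∧
    ∀ v, ‖v‖ < rc h Ω y → h (y + v) = h y + tcone h y v
  /-- edges are straight in the conical ball -/
  edge : ∀ y ∈ stratum h Ω 1, ∀ w, ‖w‖ < rc h Ω y → (y + w ∈ stratum h Ω 1 ↔ w ∈ linSpace h y)
  /-- along an edge the tangent cone map is constant, and `rc` is `1`-Lipschitz -/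
  along : ∀ y ∈ stratum h Ω 1, ∀ w ∈ linSpace h y, ‖w‖ < rc h Ω y →
    tcone h (y + w) = tcone h y ∧ linSpace h (y + w) = linSpace h y ∧
    rc h Ω y - ‖w‖ ≤ rc h Ω (y + w)
  /-- conical balls of edge points contain no vertex -/
  vertex : ∀ v ∈ stratum h Ω 0, ∀ y ∈ stratum h Ω 1, rc h Ω y ≤ ‖y - v‖
  /-- homogeneity near the vertices -/
  hom : ∀ v ∈ stratum h Ω 0, ∃ r > 0, Metric.ball v r ⊆ Ω ∧ ∀ w, ‖w‖ < r → ∀ t ∈ Ioc (0:ℝ) 1,
    (v + t • w ∈ stratum h Ω 1 ↔ v + w ∈ stratum h Ω 1) ∧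
    tcone h (v + t • w) = tcone h (v + w) ∧ h (v + t • w) = h v + t • (h (v + w) - h v)
  /-- `rc` on the edges near a vertex -/
  lower : ∀ v ∈ stratum h Ω 0, ∃ c > 0, ∀ᶠ y in 𝓝 v, y ∈ stratum h Ω 1 → c * ‖y - v‖ ≤ rc h Ω y
  /-- the union of strata 0 and 1 is relatively closed -/
  closed : ∀ x ∈ Ω, x ∉ stratum h Ω 0 → x ∉ stratum h Ω 1 → ∃ d > 0, ∀ y ∈ Metric.ball x d,
    y ∉ stratum h Ω 1
  /-- finiteness of the germs at the edges -/
  germs : ∀ x ∈ Ω, ∃ r > 0, {T : E3 → E3 | ∃ y ∈ stratum h Ω 1 ∩ Metric.ball x r,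
    tcone h y = T}.Finite

/-- **(RC)** -/
def SpecRC : Prop := ∀ (Ω Λ : Set E3) (h k : E3 → E3), Input Ω Λ h k → RcProps Ω h

end P073.SM
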