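import Vale.Agent.P073.SM.TBa

/-!
# P073, block SMA: parts of the edge replacement
-/

namespace P073.SM

open Set Metric Topology Filter MeasureTheory
open scoped ContDiff
open Vale.Agent.P073 (DirMonotoneAt LipOn)

/-- the standing hypotheses of the edge replacement -/
structure TubeSys (Ω Λ : Set E3) (h k : E3 → E3) (𝒟 : E3 → GD) (κ : E3 → ℝ) : Prop where
  inp : Input Ω Λ h k
  rcp : RcProps Ω h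
  gs : GermSys Ω h 𝒟
  ks : KapSys Ω h 𝒟 κ

/-- facts on the map `fE` -/
structure TubeFacts (Ω : Set E3) (h : E3 → E3) (𝒟 : E3 → GD) (κ : E3 → ℝ) : Prop where
  /-- tubes are thin -/
  thin : ∀ y p, InTube Ω h 𝒟 κ y p → ‖p - y‖ ≤ (𝒟 y).Rf * rc h Ω y / 2 ∧
    ‖p - y‖ ≤ (𝒟 y).nS * κ y
  /-- `fE` is given by the formula in every tube slice -/
  eq_loc : ∀ y p, InTube Ω h 𝒟 κ y p → fE Ω h 𝒟 κ p = loc h 𝒟 κ y p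
  /-- `fE` is `h` off the tubes -/
  eq_h : ∀ p, (∀ y, ¬ InTube Ω h 𝒟 κ y p) → fE Ω h 𝒟 κ p = h p
  /-- the local formula -/
  near : ∀ y ∈ stratum h Ω 1, ∀ p, ‖p - y‖ < (𝒟 y).Rf * rc h Ω y →
    fE Ω h 𝒟 κ p = loc h 𝒟 κ y p
  /-- away from the edges `fE` is `h` -/
  far : ∀ x ∈ Ω, x ∉ stratum h Ω 0 → (∀ y ∈ stratum h Ω 1, (𝒟 y).Rf * rc h Ω y ≤ ‖x - y‖) →
    ∀ᶠ p in 𝓝 x, fE Ω h 𝒟 κ p = h p

/-- **(TU)** (helper48) -/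
def SpecTU : Prop := ∀ (Ω Λ : Set E3) (h k : E3 → E3) (𝒟 : E3 → GD) (κ : E3 → ℝ),
  TubeSys Ω Λ h k 𝒟 κ → TubeFacts Ω h 𝒟 κ

/-- **(TP)** (helper48) pieces: at a point `x` off the vertices, `fE` is `h` nearby or has a
two-piece form -/
def SpecTP : Prop := ∀ (Ω Λ : Set E3) (h k : E3 → E3) (𝒟 : E3 → GD) (κ : E3 → ℝ),
  TubeSys Ω Λ h k 𝒟 κ → TubeFacts Ω h 𝒟 κ → ∀ x ∈ Ω, x ∉ stratum h Ω 0 →
  ((∀ᶠ p in 𝓝 x, fE Ω h 𝒟 κ p = h p) ∧ x ∉ stratum h Ω 1) ∨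
    ∃ y ∈ stratum h Ω 1, ‖x - y‖ < (𝒟 y).Rf * rc h Ω y ∧
      TwoPiece (fE Ω h 𝒟 κ) x ((𝒟 y).K - 1)

/-- **(TA)** (helper48) `fE` is affine near the edge points -/
def SpecTA : Prop := ∀ (Ω Λ : Set E3) (h k : E3 → E3) (𝒟 : E3 → GD) (κ : E3 → ℝ),
  TubeSys Ω Λ h k 𝒟 κ → TubeFacts Ω h 𝒟 κ → ∀ y ∈ stratum h Ω 1,
    ∃ (A : E3 →L[ℝ] E3) (b : E3), (∀ᶠ x in 𝓝 y, fE Ω h 𝒟 κ x = b + A x) ∧
        ∀ w ∈ linSpace h y, A w = tcone h y w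

/-- **(TH)** homogeneity of `fE` near the vertices (`RcProps.hom`, `KapSys.radial`, positive
homogeneity of `F`, `f`, hence `lg F (t z) = lg F z`) -/
def SpecTH : Prop := ∀ (Ω Λ : Set E3) (h k : E3 → E3) (𝒟 : E3 → GD) (κ : E3 → ℝ),
  TubeSys Ω Λ h k 𝒟 κ → TubeFacts Ω h 𝒟 κ → HomNear (fE Ω h 𝒟 κ) (stratum h Ω 0)

/-- **(TC)** closeness of `fE` to `h` -/
def SpecTC : Prop := ∀ (Ω Λ : Set E3) (h k : E3 → E3) (𝒟 : E3 → GD) (κ : E3 → ℝ),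
  TubeSys Ω Λ h k 𝒟 κ → TubeFacts Ω h 𝒟 κ → ∀ δ : E3 → ℝ, KapClose Ω h 𝒟 κ δ →
    (∀ p, fE Ω h 𝒟 κ p = h p ∨ ∃ y ∈ stratum h Ω 1, ‖p - y‖ < δ p ∧
      ‖fE Ω h 𝒟 κ p - h p‖ < δ p) ∧
    (∀ p, ‖fE Ω h 𝒟 κ p - h p‖ ≤ 1) ∧
    ∀ v ∈ stratum h Ω 0, fE Ω h 𝒟 κ v = h v

/-- **(TK)** the Lipschitz bound is locally bounded (`RcProps.germs`, `edge`, `along`,
`vertex`) -/
def SpecTK : Prop := ∀ (Ω Λ : Set E3) (h k : E3 → E3), Input Ω Λ h k → RcProps Ω h →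
  ∀ 𝒟 : E3 → GD, GermSys Ω h 𝒟 → ∃ C : E3 → ℝ, (∀ x ∈ Ω, ∃ M, ∀ᶠ y in 𝓝 x, C y ≤ M) ∧
    (∀ x, ∀ y ∈ stratum h Ω 1, ‖x - y‖ < (𝒟 y).Rf * rc h Ω y → (𝒟 y).K ≤ C x) ∧
    ∀ x ∈ Ω, ∃ r > 0, LipOn h (ball x r) (C x)

/-- **(TE)** the assembly of the edge replacement (if there are no edges, `f = h` on `Ω`); off
`Ω` put `f = 0`; continuity at the vertices from homogeneity; `f` is bounded -/
def SpecTE : Prop := SpecRC → SpecGS → SpecKS → SpecTU → SpecTP → SpecTA → SpecTH → SpecTC →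
  SpecTK → SpecCR → SpecED

end P073.SM
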