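import Vale.Agent.P073.SM.PLe
import Vale.Agent.P073.SM.Spec3

/-!
# P073, SMA: tubes around the edges, definitions
-/

namespace P073.SM

open Set Metric Topology Filter MeasureTheory
open scoped ContDiff
open Vale.Agent.P073 (DirMonotoneAt LipOn)

/-- data of a germ at an edge: planar form and slow cut-off -/
structure GD where
  Ψ : E3 ≃L[ℝ] ℂ × ℝ
  L : (ℂ × ℝ) ≃L[ℝ] E3
  F : ℂ → ℂ
  f : ℂ → ℝ
  m : ℝ
  B : ℝ
  θ : ℝ → ℝ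
  a : ℝ
  q : ℝ
  planar : Planar F f m B
  a_pos : 0 < a
  a_lt : a < 1
  q1 : q ≤ 1
  qc : 2 * q * cst (m1 m B) (B1 m B) < 1
  smooth : ContDiff ℝ ∞ θ
  one : ∀ u ≤ a, θ u = 1
  zero : ∀ u, 1 ≤ u → θ u = 0
  mem : ∀ u, θ u ∈ Icc (0:ℝ) 1
  slow : ∀ u, |u * deriv θ u| ≤ q

namespace GD

variable (D : GD)

/-- norm of `Ψ` -/
noncomputable def nΨ : ℝ := ‖(D.Ψ : E3 →L[ℝ] ℂ × ℝ)‖
/-- norm of the inverse of `Ψ` -/
noncomputable def nS : ℝ := ‖(D.Ψ.symm : (ℂ × ℝ) →L[ℝ] E3)‖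
/-- norm of `L` -/
noncomputable def nL : ℝ := ‖(D.L : (ℂ × ℝ) →L[ℝ] E3)‖
/-- the direction of the edge -/
noncomputable def dir : E3 := D.Ψ.symm (0, 1)
/-- the Lipschitz constant of the replaced map -/
noncomputable def K : ℝ := D.nL * Cp (B1 D.m D.B) * D.nΨ + 1
/-- radius factor of the local description -/
noncomputable def Rf : ℝ := 1 / (8 * (1 + D.nΨ * D.nS))
/-- radius factor of the tube -/
noncomputable def kf : ℝ := D.Rf / (2 * (1 + D.nS))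
/-- closeness factor -/
noncomputable def M : ℝ := 1 + D.nS + D.nL * (Real.exp (B1 D.m D.B) + 2 * D.B)

theorem nΨ_nonneg : 0 ≤ D.nΨ := norm_nonneg _
theorem nS_nonneg : 0 ≤ D.nS := norm_nonneg _
theorem nL_nonneg : 0 ≤ D.nL := norm_nonneg _

theorem Rf_pos : 0 < D.Rf := by
  have := D.nΨ_nonneg
  have := D.nS_nonneg
  unfold Rf; positivity

theorem Rf_le : D.Rf ≤ 1 / 8 := by
  have h1 := D.nΨ_nonneg
  have h2 := D.nS_nonneg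
  unfold Rf
  apply one_div_le_one_div_of_le (by norm_num)
  nlinarith [mul_nonneg h1 h2]

theorem kf_pos : 0 < D.kf := by
  have := D.Rf_pos
  have := D.nS_nonneg
  unfold kf; positivity

theorem one_le_M : 1 ≤ D.M := by
  have := D.nL_nonneg
  have := D.nS_nonneg
  have := D.planar.B_pos
  have := Real.exp_pos (B1 D.m D.B)
  unfold M
  have : 0 ≤ D.nL * (Real.exp (B1 D.m D.B) + 2 * D.B) := by positivity
  linarith

end GD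

/-- the data `𝒟 y` belong to the germ of `h` at the edge points `y` -/
structure GermSys (Ω : Set E3) (h : E3 → E3) (𝒟 : E3 → GD) : Prop where
  fits : ∀ y ∈ stratum h Ω 1, ∀ v, tcone h y v =
    (𝒟 y).L ((𝒟 y).F ((𝒟 y).Ψ v).1, ((𝒟 y).Ψ v).2 + (𝒟 y).f ((𝒟 y).Ψ v).1)
  ker : ∀ y ∈ stratum h Ω 1, ∀ v, ((𝒟 y).Ψ v).1 = 0 ↔ v ∈ linSpace h y
  germ : ∀ y ∈ stratum h Ω 1, ∀ y' ∈ stratum h Ω 1, tcone h y = tcone h y' → 𝒟 y = 𝒟 y'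

/-- conditions on the tube radius `κ` -/
structure KapSys (Ω : Set E3) (h : E3 → E3) (𝒟 : E3 → GD) (κ : E3 → ℝ) : Prop where
  smooth : ContDiffOn ℝ ∞ κ (Ω \ stratum h Ω 0)
  pos : ∀ x ∈ Ω, x ∉ stratum h Ω 0 → 0 < κ x
  small : ∀ y ∈ stratum h Ω 1, κ y ≤ (𝒟 y).kf * rc h Ω y
  slope : ∀ y ∈ stratum h Ω 1, ‖fderiv ℝ κ y‖ * ‖(𝒟 y).dir‖ ≤ 1
  radial : ∀ v ∈ stratum h Ω 0, ∃ c > 0, ∀ᶠ y in 𝓝 v, κ y = c * ‖y - v‖

/-- `κ` is small with respect to `δ` -/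
def KapClose (Ω : Set E3) (h : E3 → E3) (𝒟 : E3 → GD) (κ δ : E3 → ℝ) : Prop :=
  ∀ y ∈ stratum h Ω 1, (𝒟 y).M * κ y ≤ 1 ∧
    ∀ p, ‖p - y‖ ≤ (𝒟 y).M * κ y → (𝒟 y).M * κ y < δ p

/-- **(GS)** existence of germ data (from `SpecEX` and `exists_slow`) if there are edges -/
def SpecGS : Prop := ∀ (Ω Λ : Set E3) (h k : E3 → E3), Input Ω Λ h k →
  (stratum h Ω 1).Nonempty → ∃ 𝒟 : E3 → GD, GermSys Ω h 𝒟

/-- **(KS)** existence of the tube radius (from `SpecSC` with `S = stratum h Ω 0`, `RcProps`: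
`lower`, `germs`, `along`, `closed`) -/
def SpecKS : Prop := ∀ (Ω Λ : Set E3) (h k : E3 → E3), Input Ω Λ h k → RcProps Ω h →
  ∀ 𝒟 : E3 → GD, GermSys Ω h 𝒟 → ∀ δ : E3 → ℝ, LowerBd Ω (stratum h Ω 0) δ →
  ∃ κ : E3 → ℝ, KapSys Ω h 𝒟 κ ∧ KapClose Ω h 𝒟 κ δ

/-- the point `p` is in the slice at `y` of the tube -/
def InTube (Ω : Set E3) (h : E3 → E3) (𝒟 : E3 → GD) (κ : E3 → ℝ) (y p : E3) : Prop :=
  y ∈ stratum h Ω 1 ∧ ((𝒟 y).Ψ (p - y)).2 = 0 ∧ ‖((𝒟 y).Ψ (p - y)).1‖ < κ y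

/-- the local formula -/
noncomputable def loc (h : E3 → E3) (𝒟 : E3 → GD) (κ : E3 → ℝ) (y p : E3) : E3 :=
  h y + (𝒟 y).L (pm (𝒟 y).θ (fun x => κ (y + x • (𝒟 y).dir)) (lg (𝒟 y).F) (𝒟 y).f
    ((𝒟 y).Ψ (p - y)))

open Classical in
/-- the map with replaced edges -/
noncomputable def fE (Ω : Set E3) (h : E3 → E3) (𝒟 : E3 → GD) (κ : E3 → ℝ) (p : E3) : E3 :=
  if H : ∃ y, InTube Ω h 𝒟 κ y p then loc h 𝒟 κ H.choose p else h p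

end P073.SM
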