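import Vale.Agent.P073.SM.Spec4

/-!
# P073, SMA: facts on the tubes
-/

namespace P073.SM

open Set Metric Topology Filter MeasureTheory
open scoped ContDiff
open Vale.Agent.P073 (DirMonotoneAt LipOn)

namespace GD

variable (D : GD)

theorem norm_Ψ_le (v : E3) : ‖D.Ψ v‖ ≤ D.nΨ * ‖v‖ :=
  (D.Ψ : E3 →L[ℝ] ℂ × ℝ).le_opNorm v

theorem norm_le_Ψ (v : E3) : ‖v‖ ≤ D.nS * ‖D.Ψ v‖ := by
  have := (D.Ψ.symm : (ℂ × ℝ) →L[ℝ] E3).le_opNorm (D.Ψ v)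
  simpa [nS] using this

theorem norm_dir_le : ‖D.dir‖ ≤ D.nS := by
  have := (D.Ψ.symm : (ℂ × ℝ) →L[ℝ] E3).le_opNorm (0, 1)
  have h1 : ‖((0, 1) : ℂ × ℝ)‖ = 1 := by simp [Prod.norm_def]
  rw [h1, mul_one] at this
  exact this

theorem Ψ_dir : D.Ψ D.dir = (0, 1) := by simp [dir]

theorem eq_smul_dir {v : E3} (hv : (D.Ψ v).1 = 0) : v = (D.Ψ v).2 • D.dir := by
  apply D.Ψ.injective
  rw [map_smul, Ψ_dir]
  apply Prod.ext
  · simp [hv]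
  · simp

theorem zero_val : D.L (D.F 0, D.f 0) = 0 := by
  rw [D.planar.zero, D.planar.zerof]
  exact map_zero D.L

end GD

variable {Ω Λ : Set E3} {h k : E3 → E3} {𝒟 : E3 → GD} {κ : E3 → ℝ}

theorem stratum_one_notMem_zero {y : E3} (hy : y ∈ stratum h Ω 1) : y ∉ stratum h Ω 0 := by
  intro h0
  have h1 := hy.2
  have h2 := h0.2
  omega

namespace TubeSys

theorem kpos (T : TubeSys Ω Λ h k 𝒟 κ) {y : E3} (hy : y ∈ stratum h Ω 1) : 0 < κ y :=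
  T.ks.pos y hy.1 (stratum_one_notMem_zero hy)

theorem thin (T : TubeSys Ω Λ h k 𝒟 κ) {y p : E3} (H : InTube Ω h 𝒟 κ y p) :
    ‖p - y‖ ≤ (𝒟 y).Rf * rc h Ω y / 2 ∧ ‖p - y‖ ≤ (𝒟 y).nS * κ y := by
  obtain ⟨hy, h2, h1⟩ := H
  have hκ := T.kpos hy
  have hS := (𝒟 y).nS_nonneg
  have hR := (𝒟 y).Rf_pos
  have hrc := (T.rcp.ball y hy.1).1
  have e1 : ‖(𝒟 y).Ψ (p - y)‖ ≤ κ y := by
    rw [Prod.norm_def, h2, norm_zero, max_le_iff]
    exact ⟨h1.le, hκ.le⟩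
  have e2 : ‖p - y‖ ≤ (𝒟 y).nS * κ y := ((𝒟 y).norm_le_Ψ _).trans (by gcongr)
  refine ⟨e2.trans ?_, e2⟩
  calc (𝒟 y).nS * κ y ≤ (𝒟 y).nS * ((𝒟 y).kf * rc h Ω y) := by
        gcongr; exact T.ks.small y hy
    _ = ((𝒟 y).nS / (1 + (𝒟 y).nS)) * ((𝒟 y).Rf * rc h Ω y / 2) := by
        unfold GD.kf; field_simp
    _ ≤ 1 * ((𝒟 y).Rf * rc h Ω y / 2) := by
        gcongr
        rw [div_le_one (by positivity)]; linarith
    _ = _ := one_mul _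

/-- edge points nearby -/
theorem onEdge (T : TubeSys Ω Λ h k 𝒟 κ) {y0 y : E3} (hy0 : y0 ∈ stratum h Ω 1)
    (hy : y ∈ stratum h Ω 1) (hd : ‖y - y0‖ < rc h Ω y0) :
    𝒟 y = 𝒟 y0 ∧ ((𝒟 y0).Ψ (y - y0)).1 = 0 ∧
      h y = h y0 + (𝒟 y0).L (0, ((𝒟 y0).Ψ (y - y0)).2) := by
  have h1 : y - y0 ∈ linSpace h y0 := by
    apply (T.rcp.edge y0 hy0 (y - y0) hd).1
    rwa [add_sub_cancel]
  have h2 := (T.rcp.along y0 hy0 _ h1 hd).1
  rw [add_sub_cancel] at h2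
  have h3 := (T.gs.ker y0 hy0 _).2 h1
  refine ⟨T.gs.germ y hy y0 hy0 h2, h3, ?_⟩
  have h4 := (T.rcp.ball y0 hy0.1).2.2.2 (y - y0) hd
  rw [add_sub_cancel] at h4
  rw [h4, T.gs.fits y0 hy0, h3, (𝒟 y0).planar.zero, (𝒟 y0).planar.zerof, add_zero]

theorem same (T : TubeSys Ω Λ h k 𝒟 κ) {y0 y p : E3} (hy0 : y0 ∈ stratum h Ω 1)
    (hp : ‖p - y0‖ ≤ rc h Ω y0 / 8) (H : InTube Ω h 𝒟 κ y p) :
    𝒟 y = 𝒟 y0 ∧ y = y0 + ((𝒟 y0).Ψ (p - y0)).2 • (𝒟 y0).dir ∧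
      h y = h y0 + (𝒟 y0).L (0, ((𝒟 y0).Ψ (p - y0)).2) := by
  have hy := H.1
  have hr0 := (T.rcp.ball y0 hy0.1).1
  have hr := (T.rcp.ball y hy.1).1
  have h1 := (T.thin H).1
  have h2 : (𝒟 y).Rf * rc h Ω y / 2 ≤ rc h Ω y / 16 := by
    have := (𝒟 y).Rf_le
    nlinarith
  have h3 : ‖y - y0‖ ≤ ‖p - y0‖ + ‖p - y‖ := by
    have : y - y0 = (p - y0) - (p - y) := by abel
    rw [this]; exact norm_sub_le _ _
  -- common part
  have key : 𝒟 y = 𝒟 y0 ∧ ((𝒟 y0).Ψ (y - y0)).1 = 0 ∧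
      h y = h y0 + (𝒟 y0).L (0, ((𝒟 y0).Ψ (y - y0)).2) := by
    by_cases hc : ‖y - y0‖ < rc h Ω y0
    · exact T.onEdge hy0 hy hc
    · push Not at hc
      have h4 : ‖y0 - y‖ < rc h Ω y := by
        rw [norm_sub_rev]; linarith
      obtain ⟨a1, a2, a3⟩ := T.onEdge hy hy0 h4
      rw [← a1] at a2 a3
      have a4 : (𝒟 y0).Ψ (y - y0) = -(𝒟 y0).Ψ (y0 - y) := by
        rw [← map_neg, neg_sub]
      refine ⟨a1.symm, by rw [a4, Prod.fst_neg, a2, neg_zero], ?_⟩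
      rw [a3, a4, add_assoc, ← map_add, Prod.snd_neg]
      simp
  obtain ⟨k1, k2, k3⟩ := key
  have k4 : ((𝒟 y0).Ψ (y - y0)).2 = ((𝒟 y0).Ψ (p - y0)).2 := by
    have e1 := H.2.1
    rw [k1] at e1
    have e2 : p - y = (p - y0) - (y - y0) := by abel
    rw [e2, map_sub, Prod.snd_sub] at e1
    linarith
  rw [← k4]
  refine ⟨k1, ?_, k3⟩
  rw [← (𝒟 y0).eq_smul_dir k2]; abel

theorem loc_eq {y0 y p : E3} (h1 : 𝒟 y = 𝒟 y0)
    (h2 : y = y0 + ((𝒟 y0).Ψ (p - y0)).2 • (𝒟 y0).dir)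
    (h3 : h y = h y0 + (𝒟 y0).L (0, ((𝒟 y0).Ψ (p - y0)).2)) :
    loc h 𝒟 κ y p = loc h 𝒟 κ y0 p := by
  set s : ℝ := ((𝒟 y0).Ψ (p - y0)).2 with hs
  set z : ℂ := ((𝒟 y0).Ψ (p - y0)).1 with hz
  have e1 : (𝒟 y0).Ψ (p - y0) = (z, s) := rfl
  have e2 : (𝒟 y0).Ψ (p - y) = (z, 0) := by
    have : p - y = (p - y0) - s • (𝒟 y0).dir := by rw [h2]; abel
    rw [this, map_sub, map_smul, GD.Ψ_dir, e1]
    apply Prod.ext <;> simp
  unfold loc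
  rw [h1, e1, e2, h3]
  simp only [pm, tpar, zero_smul, add_zero]
  rw [← h2, add_assoc, ← map_add]
  congr 2
  apply Prod.ext
  · simp
  · simp

theorem loc_eq_h (T : TubeSys Ω Λ h k 𝒟 κ) {y0 p : E3} (hy0 : y0 ∈ stratum h Ω 1)
    (hp : ‖p - y0‖ < (𝒟 y0).Rf * rc h Ω y0)
    (H : ¬ InTube Ω h 𝒟 κ (y0 + ((𝒟 y0).Ψ (p - y0)).2 • (𝒟 y0).dir) p) :
    loc h 𝒟 κ y0 p = h p := by
  set D := 𝒟 y0 with hD
  set s : ℝ := (D.Ψ (p - y0)).2 with hs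
  set z : ℂ := (D.Ψ (p - y0)).1 with hz
  have hr0 := (T.rcp.ball y0 hy0.1).1
  have hΨ0 := D.nΨ_nonneg
  have hS0 := D.nS_nonneg
  have hR := D.Rf_pos
  have e1 : D.Ψ (p - y0) = (z, s) := rfl
  have hs1 : |s| ≤ D.nΨ * ‖p - y0‖ := (norm_snd_le (D.Ψ (p - y0))).trans (D.norm_Ψ_le _)
  have hsd : ‖s • D.dir‖ < rc h Ω y0 := by
    rw [norm_smul, Real.norm_eq_abs]
    calc |s| * ‖D.dir‖ ≤ (D.nΨ * ‖p - y0‖) * D.nS := by
          gcongr; exact D.norm_dir_le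
      _ ≤ (D.nΨ * (D.Rf * rc h Ω y0)) * D.nS := by gcongr
      _ = (D.nΨ * D.nS) / (1 + D.nΨ * D.nS) * (rc h Ω y0 / 8) := by
          unfold GD.Rf; field_simp
      _ ≤ 1 * (rc h Ω y0 / 8) := by
          gcongr
          rw [div_le_one (by positivity)]; linarith
      _ < _ := by linarith
  have hlin : s • D.dir ∈ linSpace h y0 := by
    apply (T.gs.ker y0 hy0 _).1
    rw [← hD, map_smul, GD.Ψ_dir]
    simp
  have hyS : y0 + s • D.dir ∈ stratum h Ω 1 := (T.rcp.edge y0 hy0 _ hsd).2 hlin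
  have hg := T.gs.germ _ hyS y0 hy0 (T.rcp.along y0 hy0 _ hlin hsd).1
  have e2 : D.Ψ (p - (y0 + s • D.dir)) = (z, 0) := by
    have : p - (y0 + s • D.dir) = (p - y0) - s • D.dir := by abel
    rw [this, map_sub, map_smul, GD.Ψ_dir, e1]
    apply Prod.ext <;> simp
  have hκ := T.kpos hyS
  have hzκ : κ (y0 + s • D.dir) ≤ ‖z‖ := by
    by_contra hc
    push Not at hc
    apply H
    refine ⟨hyS, ?_, ?_⟩
    · rw [hg, ← hD, e2]
    · rw [hg, ← hD, e2]; exact hc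
  have hz0 : z ≠ 0 := by
    rw [← norm_pos_iff]; exact hκ.trans_le hzκ
  have hF0 : D.F z ≠ 0 := D.planar.ne_zero hz0
  have ht : D.θ (Complex.normSq z / κ (y0 + s • D.dir) ^ 2) = 0 := by
    apply D.zero
    rw [one_le_div (by positivity), Complex.normSq_eq_norm_sq]
    gcongr
  have hb : ‖p - y0‖ < rc h Ω y0 := by
    have := D.Rf_le
    nlinarith
  have hh := (T.rcp.ball y0 hy0.1).2.2.2 (p - y0) hb
  rw [add_sub_cancel] at hh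
  rw [hh, T.gs.fits y0 hy0]
  unfold loc
  rw [← hD, e1]
  simp only [pm, tpar, ht, sub_zero, Complex.ofReal_one, one_mul, lg]
  congr 2
  rw [Complex.exp_sub, Complex.exp_log hF0, Complex.exp_log hz0, mul_div_cancel₀ _ hz0]

end TubeSys

theorem specTU : SpecTU := by
  classical
  intro Ω Λ h k 𝒟 κ T
  have near : ∀ y ∈ stratum h Ω 1, ∀ p, ‖p - y‖ < (𝒟 y).Rf * rc h Ω y →
      fE Ω h 𝒟 κ p = loc h 𝒟 κ y p := by
    intro y hy p hp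
    have hr := (T.rcp.ball y hy.1).1
    unfold fE
    split_ifs with H
    · have hle : ‖p - y‖ ≤ rc h Ω y / 8 := by
        have := (𝒟 y).Rf_le
        nlinarith
      obtain ⟨a1, a2, a3⟩ := T.same hy hle H.choose_spec
      exact TubeSys.loc_eq a1 a2 a3
    · exact (T.loc_eq_h hy hp fun h' => H ⟨_, h'⟩).symm
  refine ⟨fun y p H => T.thin H, fun y p H => ?_, fun p H => ?_, near, fun x hx hx0 H => ?_⟩
  · apply near y H.1
    have h1 := (T.thin H).1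
    have h2 := mul_pos (𝒟 y).Rf_pos (T.rcp.ball y H.1.1).1
    linarith
  · unfold fE
    rw [dif_neg]
    rintro ⟨y, hy⟩
    exact H y hy
  · have hx1 : x ∉ stratum h Ω 1 := by
      intro h1
      have h2 := H x h1
      have h3 := mul_pos (𝒟 x).Rf_pos (T.rcp.ball x hx).1
      rw [sub_self, norm_zero] at h2
      linarith
    obtain ⟨d, hd, hb⟩ := T.rcp.closed x hx hx0 hx1
    filter_upwards [ball_mem_nhds x (show 0 < d / 4 by positivity)] with p hp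
    unfold fE
    rw [dif_neg]
    rintro ⟨y, hy⟩
    have h1 := (T.thin hy).1
    have h2 := H y hy.1
    have h3 : ‖x - y‖ ≤ ‖x - p‖ + ‖p - y‖ := norm_sub_le_norm_sub_add_norm_sub _ _ _
    have h4 : ‖x - p‖ < d / 4 := by
      rw [norm_sub_rev, ← dist_eq_norm]; exact mem_ball.1 hp
    apply hb y _ hy.1
    rw [mem_ball, dist_comm, dist_eq_norm]
    linarith

end P073.SM
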